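import Vale.Agent.P004Z.Kf.St

/-! # P014T, block Z1 (Gross-Zagier without twist): words -/

open Complex UpperHalfPlane MeasureTheory Filter Topology CongruenceSubgroup
open scoped Real MatrixGroups ComplexConjugate NumberTheorySymbols

noncomputable section

namespace Vale.Agent.P014T.Z

open P004Z P004Z.Kf

/-- `l ∘ (p 0; 0 1)` -/
def dn (p : ℕ) (l : Fm) : Fm := (p ^ 2 * l.1, p * l.2.1, l.2.2)

/-- the weight of `T_p - p - 1` -/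
def om (p : ℕ) (l : Fm) : ℤ :=
  if (p : ℤ) ∣ l.1 ∧ (p : ℤ) ∣ l.2.1 ∧ (p : ℤ) ∣ l.2.2 then
    if (p : ℤ) ^ 2 ∣ l.1 ∧ (p : ℤ) ^ 2 ∣ l.2.1 ∧ (p : ℤ) ^ 2 ∣ l.2.2 then 0
    else J(disc l / p ^ 2 | p) - p
  else if (p : ℤ) ^ 2 ∣ disc l then 1 else 0

/-- the smoothed test function (modulus `N e p ^ 2`) -/
def ps (N p e : ℕ) (r : ZMod (2 * N)) (l : Fm) : ℤ := om p l * ph N e r l

/-- `K = ℚ(√-d)`, all primes of `2 N` split -/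
structure Hg (N d : ℕ) (β : ℤ) : Prop where
  sq : Squarefree d
  m8 : d % 8 = 7
  spl : ∀ q : ℕ, q.Prime → q ≠ 2 → q ∣ N → J(-(d : ℤ) | q) = 1
  big : 64 * N ^ 4 < d
  rt : (16 * N : ℤ) ∣ β ^ 2 + d

/-- the smoothing prime -/
structure Pz1 (N p : ℕ) : Prop where
  pr : p.Prime
  one : (4 * N : ℤ) ∣ p - 1

/-- the standing data: `p ≡ 1` modulo `4 N` is a prime which splits in `K` -/
structure Dz (N p d : ℕ) (β : ℤ) : Prop extends Pz1 N p where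
  dat : Dat N p d β

/-- the Heegner points of conductor one -/
def B0 (N d : ℕ) (β : ℤ) : ℍ → ℤ := Zp N 1 d (β : ZMod (2 * N))

/-- `(T_p - p - 1) B0` -/
def B1 (N p d : ℕ) (β : ℤ) : ℍ → ℤ := Zp N 1 (p ^ 2 * d) (β : ZMod (2 * N)) - (p : ℤ) • B0 N d β

/-- `L(1) / (2 π)` of the twist -/
def L0 (a : ℕ → ℤ) (e : ℕ) : ℂ := ∫ y in Set.Ioi (0 : ℝ), tw a e (Complex.I * y)

/-- `L'(1) / (2 π)` if `L(1) = 0` -/
def L1 (a : ℕ → ℤ) : ℂ := ∫ y in Set.Ioi (0 : ℝ), tw a 1 (Complex.I * y) * (Real.log y : ℝ)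

/-- `c` is the covolume -/
def Cov (Λ : Submodule ℤ ℂ) (c : ℝ) : Prop := ∃ u v : ℂ,
  (∀ z, z ∈ Λ ↔ ∃ m n : ℤ, z = m * u + n * v) ∧ c = |(conj u * v).im|

/-- the index -/
def ix (N : ℕ) : ℕ := (Gamma0 (4 * N)).relIndex (Gamma0 N)

variable {N : ℕ} [NeZero N]

/-- `T_p - p - 1` on principal parts -/
def U1 (p : ℕ) : Module.End ℂ (PP N) := Tt 1 p - (p + 1 : ℂ) • 1

/-- its transpose on arrays -/
def uq (p : ℕ) (ι : ℕ → ℕ → ZMod (2 * N) → ℚ) (q n : ℕ) (r : ZMod (2 * N)) : ℚ :=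
  ι q (p ^ 2 * n) (p * r) + J(-(n : ℤ) | p) * ι q n r +
    (if p ^ 2 ∣ n then p * ι q (n / p ^ 2) ((p : ZMod (2 * N))⁻¹ * r) else 0) - (p + 1) * ι q n r

/-- the truncated theta integral -/
def reg1 (p : ℕ) (a : ℤ → ZMod (2 * N) → ℂ) (x : Cf N) (z : ℍ) (T : ℝ) : ℂ :=
  ∫ τ in FT T, (∑ r, hf a x r τ * th0 (N * p ^ 2) (fun l => ps N p 1 r l) τ z) / τ.im ^ 2

end Vale.Agent.P014T.Z
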