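import Vale.Agent.P004Z.Hd.Kl
import Vale.Agent.P014T.Z.Defs

/-!
# P014T, block Z1: Heegner divisors without twist
-/

set_option autoImplicit false
set_option linter.all false

open Complex UpperHalfPlane CongruenceSubgroup
open scoped MatrixGroups NumberTheorySymbols Classical

noncomputable section

namespace Vale.Agent.P014T.Z

open P004Z P004Z.Hd

namespace Dq

/-- both kinds of divisors -/
def Zq (P : ℤ → Prop) (N δ n : ℕ) (r : ZMod (2 * N)) (z : ℍ) : ℤ :=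
  ∑ᶠ l : Fm, if disc l = -((δ : ℤ) * n) ∧ evq l z = 0 ∧ P l.1 then ph N δ r l else 0

variable {P : ℤ → Prop} {N δ : ℕ}

theorem zq_p (n : ℕ) (r : ZMod (2 * N)) (z : ℍ) : Zq (0 < ·) N δ n r z = Zp N δ n r z :=
  finsum_congr fun _ => @if_congr _ _ _ (_) (_) _ _ _ _ Iff.rfl rfl rfl

theorem zq_d (n : ℕ) (r : ZMod (2 * N)) (z : ℍ) : Zq (fun _ => True) N δ n r z = Zd N δ n r z :=
  finsum_congr fun _ => by simp only [and_true]

theorem hq1 [NeZero N] {l : ℕ} (hP : ∀ k a : ℤ, 0 < k → (P (k * a) ↔ P a)) (hs : Squarefree δ)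
    (hl : l.Prime) (hn : ¬ l ∣ 2 * N * δ) (n : ℕ)
    (r : ZMod (2 * N)) (z : ℍ) :
    Zq P N δ (l ^ 2 * n) (l * r) z + J(l | δ) * J(-((δ : ℤ) * n) | l) * Zq P N δ n r z +
      (if l ^ 2 ∣ n then l * Zq P N δ (n / l ^ 2) ((l : ZMod (2 * N))⁻¹ * r) z else 0) =
    Zq P N δ n r (ofComplex (l * z)) +
      ∑ ν ∈ Finset.range l, Zq P N δ n r (ofComplex ((z + ν) / l)) := by
  classical
  have cp : IsCoprime (l : ℤ) (2 * N * δ : ℕ) :=
    Nat.isCoprime_iff_coprime.2 (hl.coprime_iff_not_dvd.2 hn)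
  have l0 : (l : ℤ) ≠ 0 := Int.natCast_ne_zero.2 hl.ne_zero
  have l1 : (l : ℂ) ≠ 0 := Nat.cast_ne_zero.2 hl.ne_zero
  have l2 : (0 : ℝ) < l := Nat.cast_pos.2 hl.pos
  have l3 : (0 : ℤ) < l := Nat.cast_pos.2 hl.pos
  obtain ⟨ψ, hψ⟩ : ∃ ψ : Fm → ℤ, ∀ m, ψ m = if disc m = l ^ 2 * -((δ : ℤ) * n) ∧ evq m z = 0 ∧
    P m.1 then ph N δ (l * r) m else 0 := ⟨_, fun _ => rfl⟩
  let S := (root_fin (l ^ 2 * -((δ : ℤ) * n)) z).toFinset
  have hS : ∀ m, ψ m ≠ 0 → m ∈ S := fun m hm =>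
    (Set.Finite.mem_toFinset _).2 ((ite_ne_right_iff.1 (hψ m ▸ hm)).1.imp_right And.left)
  have ev : ∀ (k : ℤ) μ, evq (k • μ) z = k * evq μ z := fun k μ => by
    simp only [evq, Prod.smul_fst, Prod.smul_snd, smul_eq_mul]
    push_cast
    ring
  have di : ∀ (k : ℤ) μ, disc (k • μ) = k ^ 2 * disc μ := fun k μ => by
    simp only [disc, Prod.smul_fst, Prod.smul_snd, smul_eq_mul]
    ring
  have e1 : Zq P N δ (l ^ 2 * n) (l * r) z = ∑ m ∈ S, ψ m := by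
    rw [← finsum_eq_sum_of_support_subset _ fun m hm => hS m hm]
    refine finsum_congr fun m => (if_congr (and_congr_left' ?_) rfl rfl).trans (hψ m).symm
    push_cast
    rw [mul_left_comm, mul_neg]
  have e2 : J(l | δ) * Zq P N δ n r z = ∑ᶠ μ, ψ ((l : ℤ) • μ) := by
    rw [Zq, mul_finsum]
    refine finsum_congr fun μ => ?_
    have := ph_smul hs cp r μ
    rw [Int.cast_natCast] at this
    rw [hψ, ev, di, this]
    simp [hl.ne_zero, -mul_neg, hP _ _ l3]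
  have e3 : (if l ^ 2 ∣ n then l * Zq P N δ (n / l ^ 2) ((l : ZMod (2 * N))⁻¹ * r) z else 0) =
      l * ∑ᶠ μ, ψ (((l : ℤ) ^ 2) • μ) := by
    split_ifs with d
    · obtain ⟨n, rfl⟩ := d
      rw [Nat.mul_div_cancel_left _ (pow_pos hl.pos 2)]
      refine congrArg _ (finsum_congr fun μ => ?_)
      have := ph_smul hs (cp.pow_left (m := 2)) ((l : ZMod (2 * N))⁻¹ * r) μ
      rw [jacobiSym.sq_one' (Int.isCoprime_iff_gcd_eq_one.1 (cop3 cp).2.2), one_mul, Int.cast_pow,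
        Int.cast_natCast, sq (l : ZMod (2 * N)), mul_assoc, ← mul_assoc _ _ r,
        ZMod.mul_inv_of_unit _ (Int.cast_natCast (R := ZMod (2 * N)) l ▸ (cop3 cp).2.1),
        one_mul] at this
      rw [hψ, this, ev, di, show (l : ℤ) ^ 2 * -((δ : ℤ) * (l ^ 2 * n : ℕ)) =
        (l ^ 2) ^ 2 * -((δ : ℤ) * n) by push_cast; ring]
      simp [hl.ne_zero, -mul_neg, hP _ _ (pow_pos l3 2)]
    · rw [finsum_eq_zero_of_forall_eq_zero fun μ => (hψ _).trans (if_neg fun e => d ?_), mul_zero]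
      have := e.1
      rw [di, sq ((l : ℤ) ^ 2), mul_assoc, mul_right_inj' (pow_ne_zero 2 l0)] at this
      exact_mod_cast ((cop3 cp).2.2.pow_left (m := 2)).dvd_of_dvd_mul_left
        (dvd_neg.1 ⟨_, this.symm⟩)
  have e4 : ∀ p q s : ℤ, p * s = l → ∀ w : ℂ, w = (p * z + q) / s → 0 < w.im →
      Zq P N δ n r (ofComplex w) = ∑ᶠ μ, ψ (ut p q s μ) := fun p q s e w hw h0 =>
    finsum_congr fun μ => by
      have s0 : s ≠ 0 := right_ne_zero_of_mul (e ▸ l0)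
      have := ph_ut (q := q) (e ▸ cp) r μ
      rw [e, Int.cast_natCast] at this
      have e' : P (ut p q s μ).1 ↔ P μ.1 := by
        rw [show (ut p q s μ).1 = p ^ 2 * μ.1 from mul_comm _ _]
        exact hP _ _ (sq_pos_of_ne_zero (left_ne_zero_of_mul (e ▸ l0)))
      simp [hψ, this, evq_ut s0, disc_ut, e, coe_of h0, ← hw, hl.ne_zero, s0, -mul_neg, e']
  rw [mul_right_comm, e1, e2, e3, e4 l 0 1 (mul_one _) _ (by simp) (by simp [l2, z.im_pos]),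
    Finset.sum_congr rfl fun (ν : ℕ) _ => (e4 1 ν l (one_mul _) ((z + ν) / l) (by simp) (by
      simp [div_natCast_im, l2, z.im_pos])).trans (push hS (ut_inj one_ne_zero l0)),
    push hS (smul_right_injective _ l0), push hS (smul_right_injective _ (pow_ne_zero 2 l0)),
    push hS (ut_inj l0 one_ne_zero), Finset.sum_comm, Finset.sum_mul, Finset.mul_sum,
    ← Finset.sum_add_distrib, ← Finset.sum_add_distrib, ← Finset.sum_add_distrib]
  refine Finset.sum_congr rfl fun m hm => ?_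
  rw [← Finset.sum_mul, ← add_mul, ← cnt hl (fun e => hn (e ▸ (dvd_mul_right 2 N).mul_right δ))
    ((Set.Finite.mem_toFinset _).1 hm).1]
  ring

end Dq

open Dq

variable {N δ : ℕ} [NeZero N]

/-- the Hecke relation for the positive parts -/
theorem hp1 {l : ℕ} (hs : Squarefree δ) (hl : l.Prime) (hn : ¬ l ∣ 2 * N * δ) (n : ℕ)
    (r : ZMod (2 * N)) (z : ℍ) :
    Zp N δ (l ^ 2 * n) (l * r) z + J(l | δ) * J(-((δ : ℤ) * n) | l) * Zp N δ n r z +
      (if l ^ 2 ∣ n then l * Zp N δ (n / l ^ 2) ((l : ZMod (2 * N))⁻¹ * r) z else 0) =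
    Zp N δ n r (ofComplex (l * z)) +
      ∑ ν ∈ Finset.range l, Zp N δ n r (ofComplex ((z + ν) / l)) := by
  simpa only [zq_p] using hq1 (P := (0 < ·)) (fun k a h => mul_pos_iff_of_pos_left h) hs hl hn n r z

/-- **HDIV**, `δ = 1` allowed -/
theorem hdiv0 {l : ℕ} (hs : Squarefree δ) (hl : l.Prime) (hn : ¬ l ∣ 2 * N * δ) (c : PP N) :
    Zc δ (Tt δ l c) = Tdiv l (Zc δ c) := by
  rw [ZL_eq, ZL_eq]
  refine LinearMap.congr_fun (f := ZL δ ∘ₗ Tt δ l) (g := Tdiv l ∘ₗ ZL δ)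
    (Finsupp.lhom_ext fun i a => funext fun z => ?_) c
  have := congrArg (fun k : ℤ => a * (k : ℂ))
    (hq1 (P := fun _ => True) (fun _ _ _ => Iff.rfl) hs hl hn i.1 i.2 z)
  simp only [Int.cast_add, Int.cast_mul, Int.cast_ite, Int.cast_zero, Int.cast_natCast,
    Int.cast_sum, zq_d] at this
  simp only [LinearMap.comp_apply, Tt, Finsupp.lsum_single, LinearMap.toSpanSingleton_apply,
    map_smul, map_add, apply_ite (ZL δ), map_zero]
  simp only [ZL, Finsupp.linearCombination_single, map_smul, Pi.smul_apply, Pi.add_apply,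
    ite_apply, Pi.zero_apply, smul_eq_mul, one_mul, Int.cast_mul]
  exact this

theorem hdiv1 {l : ℕ} (hl : l.Prime) (hn : ¬ l ∣ 2 * N) (c : PP N) :
    Zc 1 (Tt 1 l c) = Tdiv l (Zc 1 c) := hdiv0 squarefree_one hl (by rwa [mul_one]) c

theorem zc_u1 {p : ℕ} (hp : p.Prime) (hn : ¬ p ∣ 2 * N) (c : PP N) :
    Zc 1 (U1 p c) = Tdiv p (Zc 1 c) - (p + 1 : ℂ) • Zc 1 c := by
  rw [← hdiv1 hp hn, ZL_eq, ZL_eq, ZL_eq, U1, LinearMap.sub_apply, map_sub, LinearMap.smul_apply,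
    map_smul, Module.End.one_apply]

omit [NeZero N] in
theorem zd_eq (hs : Squarefree δ) {n : ℕ} (hn : 0 < n) (r : ZMod (2 * N)) (z : ℍ) :
    Zd N δ n r z = Zp N δ n r z + eps δ * Zp N δ n (-r) z := by
  by_cases H : ∃ l, disc l = -((δ : ℤ) * n) ∧ evq l z = 0 ∧ 0 < l.1
  · obtain ⟨l, h1, h2, h3⟩ := H
    rw [Zp_eq h1 h2 h3, Zp_eq h1 h2 h3, ← ph_neg hs, neg_neg, Zd,
      finsum_eq_sum_of_support_subset _ (s := {l, -l}) fun m hm => by
        have := (ite_ne_right_iff.1 hm).1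
        simpa using root_uniq h2 this.2 (this.1.trans h1.symm),
      Finset.sum_pair fun e => by
        have := congrArg Prod.fst e
        rw [Prod.fst_neg] at this
        omega,
      if_pos ⟨h1, h2⟩, if_pos ⟨(disc_neg l).trans h1, by rw [evq_neg, h2, neg_zero]⟩]
  · have k : ∀ r : ZMod (2 * N), Zp N δ n r z = 0 := fun r => by
      by_contra e
      exact H ((Zp_ne e).imp fun l a => ⟨a.1, a.2.1, a.2.2.1⟩)
    rw [k, k, mul_zero, add_zero]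
    refine finsum_eq_zero_of_forall_eq_zero fun l => ite_eq_right_iff.2 fun e => ?_
    rcases lt_trichotomy 0 l.1 with a | a | a
    · exact absurd ⟨l, e.1, e.2, a⟩ H
    · have e1 := e.1
      have := hs.ne_zero
      rw [root_zero e.2 a.symm] at e1
      simp [disc, hn.ne', this] at e1
    · exact absurd ⟨-l, (disc_neg l).trans e.1, by rw [evq_neg, e.2, neg_zero], neg_pos.2 a⟩ H

theorem zp_sup {n : ℕ} {r : ZMod (2 * N)} {z : ℍ} (hz : Zp N δ n r z ≠ 0) :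
    0 < n ∧ In N δ n r ∧ ∃ l, disc l = -((δ : ℤ) * n) ∧ evq l z = 0 := by
  obtain ⟨l, h1, h2, h3, h4⟩ := Zp_ne hz
  obtain ⟨⟨a, ha⟩, hb, -⟩ := ph_ne h4
  have := root_neg h2 h3.ne'
  refine ⟨Nat.pos_of_ne_zero fun e => by simp [h1, e] at this, ?_, l, h1, h2⟩
  obtain ⟨k, hk⟩ := (ZMod.intCast_eq_intCast_iff_dvd_sub l.2.1 r.val (2 * N)).1 (by simp [hb])
  refine ⟨k * l.2.1 + N * k ^ 2 + a * l.2.2, ?_⟩
  rw [disc, ha] at h1
  rw [sub_eq_iff_eq_add.1 hk]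
  push_cast
  linear_combination h1

/-- representatives exist for every invariant divisor supported on one discriminant -/
theorem ex_reps0 {Γ : Subgroup SL(2, ℤ)} [Γ.FiniteIndex] {A : ℍ → ℤ}
    (hA : ∀ γ ∈ Γ, ∀ z, A (γ • z) = A z) (D : ℤ)
    (h : ∀ z, A z ≠ 0 → ∃ l, disc l = D ∧ evq l z = 0 ∧ 0 < l.1) : ∃ s, Reps Γ A s := by
  obtain ⟨R, h1, h2⟩ := red D
  refine ex_reps hA (T := ⋃ q : SL(2, ℤ) ⧸ Γ, ⋃ l ∈ R,
    {z | evq l (q.out • z : ℍ) = 0}) (Set.finite_iUnion fun q => R.finite_toSet.biUnion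
      fun l hl => Set.Subsingleton.finite fun z a w b =>
        smul_left_cancel _ (root_one a b (h1 l hl).2.ne')) fun z hz => ?_
  obtain ⟨l, a, b, c⟩ := h z hz
  obtain ⟨γ, e⟩ := h2 l a (a ▸ root_neg b c.ne') c
  obtain ⟨g, hg⟩ := QuotientGroup.mk_out_eq_mul Γ γ⁻¹
  exact ⟨g⁻¹, inv_mem g.2, Set.mem_iUnion.2 ⟨QuotientGroup.mk γ⁻¹, Set.mem_biUnion e (by
    simpa [hg, mul_smul, root_fa] using b)⟩⟩

/-- **DIVS** without twist -/
theorem divs1 (n : ℕ) (r : ZMod (2 * N)) :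
    (∀ γ ∈ Gamma0 N, ∀ z, Zp N 1 n r (γ • z) = Zp N 1 n r z) ∧
    (0 < n → ∀ z, Zd N 1 n r z = Zp N 1 n r z + Zp N 1 n (-r) z) ∧
    (∀ z, Zp N 1 n r z ≠ 0 → 0 < n ∧ In N 1 n r ∧ ∃ l, disc l = -(n : ℤ) ∧ evq l z = 0) ∧
    ∀ Γ : Subgroup SL(2, ℤ), Γ.FiniteIndex → Γ ≤ Gamma0 N → ∃ s, Reps Γ (Zp N 1 n r) s :=
  ⟨fun γ hγ => Zp_inv odd_one hγ, fun h z => by simpa [eps] using zd_eq squarefree_one h r z,
    fun z hz => by simpa using zp_sup hz, fun Γ _ hΓ =>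
      ex_reps0 (fun γ hγ => Zp_inv odd_one (hΓ hγ)) _ fun z hz =>
        (Zp_ne hz).imp fun l a => ⟨a.1, a.2.1, a.2.2.1⟩⟩

end Vale.Agent.P014T.Z
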