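import Vale.Agent.P014T.Z.St
import Vale.Agent.P014T.Z.Dv
import Vale.Agent.P004Z.Ar.Act

/-! # P014T, block Z1: row `ACT1` -/

set_option autoImplicit false
set_option linter.all false

open UpperHalfPlane CongruenceSubgroup
open scoped MatrixGroups NumberTheorySymbols

noncomputable section

namespace Vale.Agent.P014T.Z

open P004Z P004Z.Ar P004Z.Hd
open Vale.Agent.P022.H218.L3 Vale.Agent.P022.H236.L3 P004K P004K.Hg P027M.M

theorem zd_zero {N δ : ℕ} (r : ZMod (2 * N)) (z : ℍ) : Zd N δ 0 r z = ph N δ r 0 := by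
  rw [Zd, finsum_eq_single _ 0 fun l hl => if_neg fun e => ?_, if_pos ⟨by simp [disc], by simp [evq]⟩]
  have := root_neg e.2 fun a => hl (root_zero e.2 a)
  simp [e.1] at this

/-- conjugates of the Heegner divisors -/
theorem zg1 {N : ℕ} [NeZero N] {σ : ℂ ≃+* ℂ} {τ τ' : ℍ} (hc : Cj0 σ N τ τ') (n : ℕ)
    (r : ZMod (2 * N)) {θ : ℂ} (hθ : θ ^ 2 = -(n : ℂ)) : Zd N 1 n r τ' = Zd N 1 n r τ ∧
      (σ θ = θ → Zp N 1 n r τ' = Zp N 1 n r τ) ∧
      (σ θ = -θ → Zp N 1 n r τ' = Zp N 1 n (-r) τ) := by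
  have hN := NeZero.pos N
  obtain ⟨⟨k, hk⟩, T⟩ := trx σ _ hN
  obtain ⟨co, T⟩ := T k hk
  obtain ⟨w, hw⟩ := T τ
  obtain ⟨γ, hγ, rfl⟩ := ((hw.cj0 hN dvd_rfl).tgt hN).1 hc
  obtain ⟨e, he⟩ := ft σ _ k τ w hN hw
  have p : ∀ r l, ph N 1 r (e l).1 = 1 * ph N 1 r l.1 := fun r l => by
    have := ph_tr (N := N) squarefree_one (k := k) (by rwa [mul_one]) (he l).1
      (by rw [mul_one]; exact (he l).2.1) (by rw [mul_one]; exact (he l).2.2.1)
      (by rw [mul_one]; exact (he l).2.2.2.1) r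
    rwa [jacobiSym.one_right] at this
  have s : ∀ l : {l : Fm // evq l τ = 0}, disc l.1 = -(((1 : ℕ) : ℤ) * n) →
      (2 * l.1.1 * τ + l.1.2.1 : ℂ) = θ ∨ (2 * l.1.1 * τ + l.1.2.1 : ℂ) = -θ := fun l a =>
    sq_eq_sq_iff_eq_or_eq_neg.1 (by rw [sq_disc l.2, a, hθ]; simp)
  have z1 : σ θ = θ → ∀ r, Zp N 1 n r (γ • w) = Zp N 1 n r τ := fun h r => by
    rw [Zp_inv odd_one hγ]
    refine (Zp_tr e (fun l => (he l).1) (fun l a => sign τ w ?_) (p r)).trans (one_mul _)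
    rw [← (he l).2.2.2.2]
    rcases s l a with b | b <;> rw [b]
    · exact h.symm
    · rw [map_neg, h]
  have z2 : σ θ = -θ → ∀ r, Zp N 1 n r (γ • w) = Zp N 1 n (-r) τ := fun h r => by
    rw [Zp_inv odd_one hγ]
    refine (Zp_tr ((ng τ).trans e) (fun l => (he _).1.trans (disc_neg _))
      (fun l a => sign τ w ?_) fun l => ?_).trans (one_mul _)
    · rw [Equiv.trans_apply, ← (he _).2.2.2.2, ng_val, Prod.fst_neg, Prod.snd_neg, Prod.fst_neg,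
        Int.cast_neg, Int.cast_neg, mul_neg, neg_mul, ← neg_add, map_neg]
      rcases s l a with b | b <;> rw [b]
      · rw [h, neg_neg]
      · rw [map_neg, h, neg_neg]
    · have := ph_neg (N := N) squarefree_one r (-l.1)
      rw [neg_neg, eps, jacobiSym.one_right, one_mul] at this
      rw [Equiv.trans_apply, p, ng_val, this]
  refine ⟨?_, fun h => z1 h r, fun h => z2 h r⟩
  rcases n.eq_zero_or_pos with rfl | hn
  · rw [zd_zero, zd_zero]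
  rw [(divs1 n r).2.1 hn, (divs1 n r).2.1 hn]
  have : σ θ ^ 2 = θ ^ 2 := by rw [← map_pow, hθ, map_neg, map_natCast]
  rcases sq_eq_sq_iff_eq_or_eq_neg.1 this with h | h
  · rw [z1 h, z1 h]
  · rw [z2 h, z2 h, neg_neg, add_comm]

/-- the action, with the clause for the automorphisms which move `θ` -/
theorem act1' (N : ℕ) [NeZero N] (σ : ℂ ≃+* ℂ) : ∃ c s, Act N 1 σ c s 1 ∧
    (∀ τ, Cj0 σ N τ (s τ)) ∧ ∀ (n : ℕ) r τ (θ : ℂ),
      θ ^ 2 = -(n : ℂ) → σ θ = -θ → Zp N 1 n r (s τ) = Zp N 1 n (-r) τ := by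
  have hN := NeZero.pos N
  obtain ⟨c, hc⟩ := ex_aut one_pos (ex_aut0 hN) σ
  choose s hs using ex_cj0 σ hN
  refine ⟨c, s, ⟨.inl rfl, fun _ => rfl,
    fun a => Subtype.ext (aut_uniq one_pos (hc _) (Bc.aut_const 1 σ a)),
    fun f t ht hr => Subtype.ext (aut_uniq one_pos (hc f) (aut_rat ht hr σ)), fun τ' => ?_,
    fun τ τ' => ?_, fun τ f => ((hs τ).rl hN _ f.2 _ (c f).2 (hc f)).1,
    fun τ f => ((hs τ).rl hN _ f.2 _ (c f).2 (hc f)).2, fun n r τ => ?_,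
    fun n r τ θ h e => ((zg1 (hs τ) n r (by simpa using h)).2.1 e).trans (one_mul _).symm⟩, hs,
    fun n r τ θ h => (zg1 (hs τ) n r h).2.2⟩
  · obtain ⟨τ, h⟩ := ex_cj0 σ⁻¹ hN τ'
    exact ⟨τ, ((hs τ).tgt hN).1 (by simpa using h.symm hN)⟩
  · rw [← (hs τ).tgt hN, (hs τ').src hN]
    constructor <;> rintro ⟨γ, h, rfl⟩ <;> exact ⟨γ⁻¹, inv_mem h, inv_smul_smul _ _⟩
  · obtain ⟨θ, h⟩ := IsAlgClosed.exists_pow_nat_eq (-(n : ℂ)) two_pos
    exact (zg1 (hs τ) n r h).1.trans (one_mul _).symm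

theorem act1 : ACT1 := fun N _ σ => let ⟨c, s, h, _⟩ := act1' N σ; ⟨c, s, 1, h⟩

end Vale.Agent.P014T.Z
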