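import Vale.Agent.P014T.Z.St
import Vale.Agent.P004Z.Ar.Aro
import Vale.Agent.P004Z.Ar.Ratl
import Vale.Agent.P004Z.Ar.Ae
import Vale.Agent.P004Z.Ar.Plc
import Vale.Agent.P004Z.Ar.Abl
import Vale.Agent.P004Z.Ar.Fun
import Vale.Agent.P004Z.Ar.Psi
import Vale.Agent.P004Z.Bo.Gu
import Vale.Agent.P004Z.Bo.Uni

/-! # P014T, block Z1, row ARO1: the arithmetic side -/

set_option autoImplicit false
set_option linter.all false

open UpperHalfPlane CongruenceSubgroup Real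
open scoped MatrixGroups Classical NumberTheorySymbols

noncomputable section

namespace Vale.Agent.P014T.Z

open P004Z P004Z.Ar
open Vale.Agent.P022.H218.L3 Vale.Agent.P004H.H666
open Vale.Agent.P022K.F0.Cf (od ev)
open Vale.Agent.P004Z.Fin (Pk Ov Far)
open Vale.Agent.P004Z.H (sp Fo GG tt PlC)

variable {N : ℕ} [NeZero N] {a : ℕ → ℤ} {p d : ℕ} {β : ℤ} {s : Finset ℍ}

/-- the standing hypotheses of the local symbols hold -/
theorem cx1 (bd : BD1) (act : ACT1) (D : Pz N a) (hd : Dz N p d β)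
    (hs : Reps (Gamma0 N) (B1 N p d β) s) :
    ∃ θ xm, θ ^ 2 = -(d : ℂ) ∧ Cx D 1 (B1 N p d β) s θ xm := by
  have hN := NeZero.pos N
  obtain ⟨xm, p1, p2, p3⟩ := pk N a D hN
  obtain ⟨θ, t1, t2⟩ : ∃ θ : ℂ, θ ^ 2 = -(d : ℂ) ∧ H.cj θ = -θ :=
    ⟨(√d : ℝ) * Complex.I, by
      rw [mul_pow, Complex.I_sq, ← Complex.ofReal_pow, sq_sqrt (Nat.cast_nonneg _)]
      push_cast
      ring, by simp⟩
  obtain ⟨b1, -, -, b2, -⟩ := bd N p d β hd
  refine ⟨θ, xm, t1, hN, one_pos, hs, b2 s hs, b1, t2, fun σ => sq_eq_sq_iff_eq_or_eq_neg.1 (by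
      rw [← map_pow, t1]; simp), act N, fun σ c r χ A e τ => ?_, p1, p2, p3, rel, fun_row, psi,
    Bo.gu, deg (ae plc fun_row) ws_row, cst, ratl⟩
  simp only [B1, B0, Pi.sub_apply, Pi.smul_apply, smul_eq_mul]
  rw [A.zp d _ τ θ (by rw [t1]; simp) e, A.zp (p ^ 2 * d) _ τ (p * θ) (by
    rw [mul_pow, t1]; push_cast; ring) (by rw [map_mul, e, map_natCast])]
  ring

omit [NeZero N] in
theorem off_zero {c : PP N} (h : Off 1 d c) (r : ZMod (2 * N)) : c (0, r) = 0 :=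
  by_contra fun e => h _ (Finsupp.mem_support_iff.2 e) (by simp)

/-- integral principal parts give eigenvectors of the Galois action -/
theorem eg1 (genx : GENX1) {G : ℍ → ℂ} (D : Pz N a) (rn : P004N.RN N G a) {c : PP N}
    (hc : IsInt c) (h0 : ∀ r, c (0, r) = 0) {n : ℍ → ℤ} (e : cs n = Zc 1 c) : Eg N 1 n := by
  obtain ⟨k, -, e'⟩ := ex_nc (δ := 1) hc
  obtain rfl : n = ∑ i ∈ c.support, k i • Zd N 1 i.1 i.2 :=
    funext fun z => Int.cast_injective (congrFun (e.trans e'.symm) z)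
  exact ⟨e ▸ ((genx N G a D rn).1 c h0).1, fun σ c r χ A τ => by
    simp only [Finset.sum_apply, Pi.smul_apply, A.zd, smul_eq_mul, Finset.mul_sum, mul_left_comm]⟩

theorem ov_of {V : ℕ → AbsoluteValue ℂ ℝ} (hV : PlC V) {q : ℕ} (hq : q.Prime) : Ov (V q) q :=
  ⟨hq, hV.na q hq, by rw [hV.self q hq]; exact inv_lt_one_of_one_lt₀ (by exact_mod_cast hq.one_lt)⟩

theorem aro1 (bd : BD1) (act : ACT1) (off : OFF1) (exi : EXI1) (genx : GENX1) : ARO1 := by
  intro N _ G a D p d β s V m rn hd hs hV ⟨m0, hm⟩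
  have hN := NeZero.pos N
  have h4 : 0 < 4 * N := by omega
  obtain ⟨θ, xm, -, X⟩ := cx1 bd act D hd hs
  have sup := fun b hb => ((bd N p d β hd).2.2.2.2 b (hs.sup b hb)).1
  have ov := fun (q : ℕ) (hq : q.Prime) => ov_of hV hq
  have ov' : ∀ q, q.Prime → Ov (cV (V q)) q := fun q hq => (ov q hq).comp _
  choose! I i1 i2 using fun q hq => exi N p d β s a D _ _ q hd sup X.deg (ov q hq)
  choose! I' i3 i4 using fun q hq => exi N p d β s a D _ _ q hd sup X.deg (ov' q hq)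
  choose! ρ hρ using fun (p : ℕ) (hp : p.Prime) => Module.Projective.exists_dual_eq_one ℚ
    (x := log p) (log_pos (by exact_mod_cast hp.one_lt)).ne'
  obtain ⟨l, Y, l0, l1, -, l2⟩ := Gl.globx hV D.par.disc s (B1 N p d β) D.pi
    (fun b hb => X.fo_b hb) X.deg
  have l3 : ∀ u, lC D l u = l (D.ex u) := fun _ => rfl
  have ki : D.Ki (lC D l) := fun u hu => by rw [l3, (D.ker u).2 hu, map_zero, Complex.ofReal_zero]
  have inv : ∀ l, D.Ki l → Inv N (l ∘ D.I) := fun l hl γ hγ z => by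
    simpa [sub_eq_zero] using hl _ (D.inv γ hγ z)
  obtain ⟨g1, g2⟩ := genx N G a D rn
  have of := off N p d β s hd sup
  let ι : ℕ → ℕ → ZMod (2 * N) → ℚ := fun q n r =>
    if q.Prime ∧ ¬ IsSquare (1 * d * n) then ρ q ((I q + I' q) (Zd N 1 n r)) else 0
  have ι0 : ∀ q n r, (q.Prime → ¬ IsSquare (1 * d * n) → ∀ V, Ov V q → Far V s (Zd N 1 n r)) →
      ι q n r = 0 := fun q n r h => ite_eq_right_iff.2 fun e => by
    rw [AddMonoidHom.add_apply, i1 q e.1 _ (h e.1 e.2 _ (ov q e.1)),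
      i3 q e.1 _ (h e.1 e.2 _ (ov' q e.1)), add_zero, map_zero]
  have lgs : Lgs 1 d ι := ⟨fun n r => by
      by_cases e : IsSquare (1 * d * n)
      · exact Set.finite_empty.subset fun p hp => hp (ι0 p n r fun _ h => absurd e h)
      · exact (of n r e).2.subset fun p hp => by_contra fun h => hp (ι0 p n r fun _ _ V hV =>
          by_contra fun h' => h ⟨V, hV, h'⟩),
    fun p n r h => (ite_ne_right_iff.1 h).1.1,
    fun p n r h => ι0 p n r fun _ e V hV => (of n r e).1 p V hV (Or.inl h),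
    fun p n r h => ι0 p n r fun _ e V hV => (of n r e).1 p V hV (Or.inr h)⟩
  have fin : ∀ c ∈ IO 1 d, ∀ n, cs n = Zc 1 c → ∀ k : ℕ, 0 < k →
      ∀ u, D.ex u ∈ Fo D.A D.B → (∀ t, D.Nc t → D.Nc (t + u) →
        ∃ Ψ, Un N ((k : ℤ) • n - (D.pb (t + u) - D.pb t)) 0 Ψ) →
      (∀ t, D.Gd s (D.ex t) → D.Gd s (D.ex t + D.ex u) → ∃ h, Dec D s ((k : ℤ) • n) h t u) ∧
      (∀ q : ℕ, q.Prime → ∃ x : ℚ, (I q + I' q) n = x * log q) ∧
      ∀ Φ, Green (Gamma0 N) (Zc 1 c) Φ →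
        k * (evd s (B1 N p d β) Φ + pr (lg ι) c) = -2 * lC D l u := by
    intro c hc n e k k0 u f2 hu
    have hn := eg1 genx D rn hc.1 (off_zero hc.2) e
    obtain ⟨j, j1, j2⟩ := ex_nc (δ := 1) hc.1
    obtain rfl : n = ∑ i ∈ c.support, j i • Zd N 1 i.1 i.2 :=
      funext fun z => Int.cast_injective (congrFun (e.trans j2.symm) z)
    have far : ∀ V, (∀ i ∈ c.support, Far V s (Zd N 1 i.1 i.2)) →
        Far V s (∑ i ∈ c.support, j i • Zd N 1 i.1 i.2) := fun V h =>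
      Far.sum _ fun i hi => (h i hi).smul _
    have fs : {p : Nat.Primes | ∃ V, Ov V p ∧
        ¬ Far V s (∑ i ∈ c.support, j i • Zd N 1 i.1 i.2)}.Finite :=
      ((c.support.finite_toSet.biUnion fun i hi => (of i.1 i.2 (hc.2 i hi)).2).preimage
        Subtype.val_injective.injOn).subset fun p ⟨V, h1, h2⟩ => by_contra fun h => h2
          (far V fun i hi => by_contra fun h' => h (Set.mem_biUnion hi ⟨V, h1, h'⟩))
    have n0 : ∀ b ∈ s, (∑ i ∈ c.support, j i • Zd N 1 i.1 i.2) b = 0 := fun b hb =>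
      by_contra fun h => by
        have := (far _ fun i hi => (of i.1 i.2 (hc.2 i hi)).1 2 _ (ov 2 Nat.prime_two)
          (Or.inl (Or.inl rfl))).far b h b hb
        norm_num at this
    have hp := pr_lg (J := fun p => I p + I' p) hρ (ι := ι) (fun _ _ _ => rfl) lgs.fin hc.2 j1
    generalize ∑ i ∈ c.support, j i • Zd N 1 i.1 i.2 = n at *
    have dc : ∀ t, D.Gd s (D.ex t) → D.Gd s (D.ex t + D.ex u) →
        ∃ h, Dec D s ((k : ℤ) • n) h t u := fun t h1 h2 => by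
      have h3 := h1 (RingEquiv.refl ℂ) t (H.sp_refl _).symm
      have h5 := h2 (RingEquiv.refl ℂ) (t + u) (by rw [H.sp_refl, map_add])
      obtain ⟨Ψ, h6⟩ := hu t h3.1 h5.1
      obtain ⟨h, h7, h8, h9⟩ := (fun_row N hN).1 _ _ h6
      exact ⟨h, h7, h8, h3.1, h5.1, fun b hb =>
        ⟨h3.2 b hb, h5.2 b hb, by simp [n0 b hb]⟩, fun τ => by simp [(h9 τ).1]⟩
    obtain ⟨T, f1, h1, h2⟩ := D.ex_gd s f2
    obtain ⟨t, rfl⟩ := D.surj T
    obtain ⟨h, e0⟩ := dc t h1 h2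
    have k1 : (k : ℝ) ≠ 0 := Nat.cast_ne_zero.2 k0.ne'
    have rt : ∀ q : ℕ, q.Prime → ∃ x : ℚ, (I q + I' q) n = x * log q := fun p hp => by
      obtain ⟨q, e1⟩ := X.rat e0 (hn.smul k) h1 h2 f1 f2 (ov p hp)
      obtain ⟨q', e2⟩ := X.rat e0 (hn.smul k) h1 h2 f1 f2 (ov' p hp)
      rw [← i2 p hp _ _ _ _ e0, map_zsmul, zsmul_eq_mul, hV.self p hp, log_inv] at e1
      rw [← i4 p hp _ _ _ _ e0, map_zsmul, zsmul_eq_mul, show cV (V p) p = (p : ℝ)⁻¹ by
        rw [← hV.self p hp]; exact congrArg (V p) (map_natCast H.cj p), log_inv] at e2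
      refine ⟨-(q + q') / k, ?_⟩
      push_cast at e1 e2 ⊢
      rw [AddMonoidHom.add_apply]
      field_simp
      linear_combination e1 + e2
    refine ⟨dc, rt, fun Φ g => ?_⟩
    have := X.key e0 (hn.smul k) h1 h2 f1 f2 hV i2 i4 (Φ := (k : ℂ) • Φ) (by
      rw [show cs ((k : ℤ) • n) = (k : ℂ) • Zc 1 c by ext; simp [cs, ← e]]
      exact green_smul g (k := k) (Nat.cast_ne_zero.2 k0.ne')) l2
    rw [hp rt, l3]
    simp only [map_zsmul] at this
    simp only [zsmul_eq_mul, ← mul_finsum, AddMonoidHom.add_apply] at this ⊢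
    rw [finsum_add_distrib (fs.subset fun p hp => ⟨_, ov p p.2, mt (i1 p p.2 n) hp⟩)
      (fs.subset fun p hp => ⟨_, ov' p p.2, mt (i3 p p.2 n) hp⟩)]
    simp only [evd, Pi.smul_apply, smul_eq_mul, mul_left_comm _ (k : ℂ), ← Finset.mul_sum] at this ⊢
    push_cast at this ⊢
    linear_combination this
  have dec : ∀ (P : FA N) c Φ n, Pj N a P → IsInt c → Off 1 d c → Green (Gamma0 N) (Zc 1 c) Φ →
      cs n = Zc 1 (Gl.act 1 P c) → ∃ (k : ℕ) (u : ℂ), 0 < k ∧ D.ex u ∈ Fo D.A D.B ∧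
        (∀ l', D.Ki l' → m * l' u = k * lmb a P * pr (xg D l') c) ∧
        ∀ t, D.Nc t → D.Nc (t + u) → ∃ Ψ, Un N ((k : ℤ) • n - (D.pb (t + u) - D.pb t)) 0 Ψ := by
    intro P c Φ n hP hc ho g j3
    have hc' := io_lift P c ⟨hc, ho⟩
    have hn := eg1 genx D rn hc'.1 (off_zero hc'.2) j3
    obtain ⟨j, -, j2⟩ := ex_nc (δ := 1) hc
    obtain ⟨k, u, k0, hu⟩ := abl Bo.uni1 N G a D _ P rn ⟨2, by ring⟩ hP _ n Φ (j2 ▸ g)
      (j3.trans (j2 ▸ ((g1 c (off_zero ho)).2 P).2))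
    have e : ∀ l, D.Ki l → k * ws (4 * N) (cs n) (l ∘ D.I) = m * l u := fun l hl => by
      obtain ⟨t, h1, h2⟩ := D.ex_nc u
      obtain ⟨Ψ, h3⟩ := hu t h1 h2
      have h5 := (ae plc fun_row N a D _ _ hN h3).2 l hl
      have d := fun A => Dv.mono (A := A) h4 (dvd_mul_left N 4)
      rw [show cs ((k : ℤ) • n - (D.pb (t + u) - D.pb t)) = (k : ℂ) • cs n +
        ((-1 : ℂ) • cs (D.pb (t + u)) + cs (D.pb t)) by ext; simp [cs]; ring,
        ws_add (d _ (hn.1.smul _)) (d _ (((hm _ h2).1.smul _).add (hm _ h1).1)),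
        ws_add (d _ ((hm _ h2).1.smul _)) (d _ (hm _ h1).1), ws_smul, ws_smul, ws_pb hl, ws_pb hl,
        (hm _ h1).2, (hm _ h2).2, map_add] at h5
      linear_combination h5
    refine ⟨k, u, k0, ?_, fun l' hl => ?_, hu⟩
    · obtain ⟨s', hs'⟩ := (hn.1.mono h4 (dvd_mul_left N 4)).reps
      obtain ⟨k', k2, h⟩ := lq (Λ := D.Λ) (u := m • u - k • ∑ z ∈ s', n z • D.I z) fun l hl => by
        have := e l hl
        rw [ws_reps hs' (hn.inv.mono (dvd_mul_left N 4))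
          ((inv l hl).mono (dvd_mul_left N 4))] at this
        simp only [map_sub, map_nsmul, map_sum, map_zsmul]
        simp only [nsmul_eq_mul, zsmul_eq_mul, ← this, evd, Function.comp_apply, sub_self]
      rw [← D.ker, ← nsmul_eq_mul, map_nsmul, map_sub, nsmul_sub, sub_eq_zero, map_nsmul, map_nsmul,
        ← mul_nsmul, map_sum] at h
      refine D.fo_div (Nat.mul_pos m0 k2) (h ▸ nsmul_mem (nsmul_mem (sum_mem fun z hz => ?_) _) _)
      rw [map_zsmul]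
      exact zsmul_mem (X.fo_n hn (hs'.sup z hz)) _
    · rw [← e l' hl, j3, ← ((g2 l' hl).2.2 _ (off_zero hc'.2)).1,
        ((g2 l' hl).2.2 c (off_zero ho)).2 P, mul_assoc]
  refine ⟨l, fun q => I q + I' q, ι, fun b hb => X.fo_b hb, fun y Q e => ?_, lgs,
    fun q n hq f f' => by rw [AddMonoidHom.add_apply, i1 q hq n f, i3 q hq n f', add_zero],
    fun q n h t u hq e => by rw [AddMonoidHom.add_apply, i2 q hq _ _ _ _ e, i4 q hq _ _ _ _ e],
    fun q c n x hq hc ho e e' => ?_, fun c Φ hc ho ⟨k, n, Ψ, k0, e, m1, m2, m3⟩ g => ?_,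
    fun P c Φ Φ' hP hc ho g g' => ?_, fun P c Φ n hP hc ho g e => ?_⟩
  · obtain rfl : y = Y := Gl.iE_inj (e.trans l0.symm)
    exact l1 Q
  · obtain ⟨j, j1, j2⟩ := ex_nc (δ := 1) hc
    obtain rfl : n = ∑ i ∈ c.support, j i • Zd N 1 i.1 i.2 :=
      funext fun z => Int.cast_injective (congrFun (e.trans j2.symm) z)
    have h1 := congrArg (ρ q) e'
    rw [← Rat.smul_def, map_smul, hρ q hq, smul_eq_mul, mul_one, map_sum, map_sum] at h1
    rw [← h1, Rat.cast_sum, pr, Finsupp.sum]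
    refine Finset.sum_congr rfl fun i hi => ?_
    rw [j1, map_zsmul, map_zsmul, zsmul_eq_mul, show ι q i.1 i.2 = _ from if_pos ⟨hq, ho i hi⟩]
    push_cast
    rfl
  · obtain ⟨j, -, j2⟩ := ex_nc (δ := 1) hc
    have := (fin c ⟨hc, ho⟩ _ j2 k k0 0 (by rw [map_zero]; exact zero_mem _) fun t _ _ =>
      ⟨Ψ, by
        rw [show (k : ℤ) • _ - (D.pb (t + 0) - D.pb t) = n from funext fun z =>
          Int.cast_injective (α := ℂ) (by rw [e, ← j2]; simp [cs])]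
        exact ⟨m1, m2, fun γ hγ z => (m3 γ hγ z).trans (by simp [ee])⟩⟩).2.2 Φ g
    simpa [k0.ne'] using this
  · have hc' := io_lift P c ⟨hc, ho⟩
    obtain ⟨j, -, j2⟩ := ex_nc (δ := 1) hc'.1
    obtain ⟨k, u, k0, f2, h2, hu⟩ := dec P c Φ _ hP hc ho g j2
    have h1 := (fin _ hc' _ j2 k k0 u f2 hu).2.2 Φ' g'
    refine mul_left_cancel₀ (Nat.cast_ne_zero.2 k0.ne' : (k : ℂ) ≠ 0) ?_
    linear_combination m * h1 - 2 * h2 _ ki
  · obtain ⟨k, u, k0, f2, h2, hu⟩ := dec P c Φ n hP hc ho g e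
    obtain ⟨h3, h5, -⟩ := fin _ (io_lift P c ⟨hc, ho⟩) n e k k0 u f2 hu
    exact ⟨k, u, k0, f2, h2, h5, h3⟩

end Vale.Agent.P014T.Z
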