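import Vale.Agent.P014T.Z.St
import Vale.Agent.P004Z.Fin.Core
import Vale.Agent.P004Z.Fin.R2
import Vale.Agent.P004Z.Ar.Fun

/-! # P014T, block Z1: the finite places (rows `OFF1`, `EXI1`) -/

set_option autoImplicit false
set_option linter.all false

noncomputable section

namespace Vale.Agent.P014T.Z

namespace Fi

section

open UpperHalfPlane hiding I
open CongruenceSubgroup P004Z P004Z.Fin
open scoped MatrixGroups ModularForm Manifold Classical Pointwise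
open Vale.Agent.P022.H218.L3 Vale.Agent.P022.H231.L3 Vale.Agent.P022.H236.L3
  Vale.Agent.P022.H542.L3 Vale.Agent.P022D.Irr Vale.Agent.P027M.M Vale.Agent.P004M.D
  Vale.Agent.P022D

variable {V : AbsoluteValue ℂ ℝ} {p N : ℕ} [NeZero N] {k M : ℕ}

/-- Heegner points of one type lie on one component -/
theorem mp1 (h : Ov V p) {δ' n : ℕ} {β : ℤ} (H : Hg N δ' β) {s : Finset ℍ}
    (hs : ∀ b ∈ s, Zp N 1 n (β : ZMod (2 * N)) b ≠ 0) : (∀ b ∈ s, V (jf b) ≤ 1) ∧ Mp V N s := by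
  have hp := h.prime
  have pp := Nat.prime_iff_prime_int.1 hp
  choose! l h1 h2 h3 h4 using fun b hb => Hd.Zp_ne (hs b hb)
  have d := fun b hb => Hd.root_neg (h2 b hb) (h3 b hb).ne'
  have j := fun b hb => h.cm (d b hb) (h2 b hb)
  refine ⟨j, ?_⟩
  obtain ⟨k, M, hM, e⟩ := Nat.exists_eq_pow_mul_and_not_dvd (NeZero.ne N) p hp.ne_one
  have q0 := pow_pos hp.pos k
  by_cases hk : k = 0
  · refine (h.cpF e hM).mp j fun b _ => ?_
    subst hk
    exact (congrArg V (su_sc one_pos b)).trans (by simp)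
  have pN : (p : ℤ) ∣ N := Int.natCast_dvd_natCast.2 (e ▸ (dvd_pow_self _ hk).mul_right _)
  have a1 := fun b hb => (Hd.ph_ne (h4 b hb)).1
  have a2 := fun b hb => (ZMod.intCast_eq_intCast_iff_dvd_sub _ _ _).1 (Hd.ph_ne (h4 b hb)).2.1
  have a3 : ∀ b ∈ s, ((p ^ k : ℕ) : ℤ) ∣ (l b).1 := fun b hb =>
    (Int.natCast_dvd_natCast.2 (Dvd.intro _ e.symm)).trans (a1 b hb)
  have u : ∀ b ∈ s, V (l b).2.1 = 1 := fun b hb => h.of_ndvd fun c => by
    have c1 := (pN.trans (Int.natCast_dvd_natCast.2 (dvd_mul_left N 2))).trans (a2 b hb)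
    have c2 := (dvd_sub_left c).1 c1
    have c3 := (dvd_add_right (dvd_pow c2 two_ne_zero)).1 ((pN.mul_left 16).trans H.rt)
    by_cases p2 : p = 2
    · have := H.m8
      subst p2
      omega
    · have := H.spl p hp p2 (Int.natCast_dvd_natCast.1 pN)
      rw [Hd.J_dvd hp.one_lt c3.neg_right] at this
      exact zero_ne_one this
  by_cases c : ∀ b ∈ s, V ((l b).1 * b) < 1
  · refine (h.cpF e hM).mp j fun b hb => h.typF (d b hb) (h2 b hb) q0 (a3 b hb) ?_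
    rw [h.add_eq (u b hb ▸ c b hb), u b hb]
  push Not at c
  obtain ⟨b₀, hb₀, c⟩ := c
  refine (h.cpV e hM hk).mp j fun b hb => h.typV (d b hb) (h2 b hb) q0 (a3 b hb) ?_
  obtain ⟨t, ht⟩ := dvd_sub (a2 b hb) (a2 b₀ hb₀)
  have c1 : 1 ≤ V ((l b).1 * b) := by
    have e1 := root_im (h2 b hb) (h2 b₀ hb₀) (h3 b hb) (h3 b₀ hb₀) ((h1 b hb).trans (h1 b₀ hb₀).symm)
    have e2 := congrArg (Int.cast (R := ℂ)) ht
    push_cast at e2
    rwa [show ((l b).1 * b : ℂ) = (N * t : ℤ) + (l b₀).1 * b₀ by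
      push_cast; linear_combination e1 / 2 + e2 / 2,
      h.add_eq ((h.of_dvd (pN.mul_right t)).trans_le c)]
  have c2 : V ((l b).1 * b + (l b).2.1) < 1 := by
    have := h.of_dvd ((pN.trans (a1 b hb)).mul_right (l b).2.2)
    have e1 := h2 b hb
    rw [evq] at e1
    rw [← V.map_neg, show -(((l b).1 * (l b).2.2 : ℤ) : ℂ) =
      (l b).1 * b * ((l b).1 * b + (l b).2.1) by push_cast; linear_combination -(l b).1 * e1,
      map_mul] at this
    exact (le_mul_of_one_le_left (V.nonneg _) c1).trans_lt this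
  rw [← u b hb, ← V.map_neg (l b).2.1] at c2
  rw [← u b hb, ← V.map_neg (l b).2.1, ← h.add_eq c2, add_neg_cancel_right]

end

section

open UpperHalfPlane hiding I
open Polynomial CongruenceSubgroup Filter P004Z P004Z.Fin
open scoped MatrixGroups Classical
open Vale.Agent.P022.H218.L3 Vale.Agent.P004H.H666 Vale.Agent.P022K.F0.Cf

variable {V : AbsoluteValue ℂ ℝ} {p N : ℕ} {A B : ℂ} {π : ℍ → (crv A B).Point} {e : ℍ → ℕ}
  {xm : (crv A B).Point → Mer} {s : Finset ℍ}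

theorem fn1 [NeZero N] (h : Ov V p) (hm : (∀ b ∈ s, V (jf b) ≤ 1) ∧ Mp V N s)
    (hP : Pk N A B π e xm) (y : Mer) (hy : y ∈ P022.H218.L3.MF (Gamma0 N)) (y0 : y ≠ 0)
    (u : ℍ → ℤ)
    (hu : Far V s u) (d : (crv A B).Point →₀ ℤ) (d0 : (d.sum fun _ k => k) = 0)
    (hd : ∀ b ∈ s, d (π b) = 0) (ho : ∀ τ, od τ y = u τ + e τ * d (π τ)) :
    ∃ c : ℝ, ∀ b ∈ s, Real.log (V (ev b y)) + (d.sum fun Y k => k * H.lam V (π b - Y)) = c := by
  rcases s.eq_empty_or_nonempty with rfl | ⟨b₀, h0⟩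
  · exact ⟨0, by simp⟩
  obtain ⟨hj, hM⟩ := hm
  obtain ⟨L, l1, l0, l2, l3⟩ := hu.clear h hj
  obtain ⟨Q, hQ⟩ := hP.ex_Q (V := V) d0 hd
  obtain ⟨S, hS⟩ := hP.ex_P h h0
  obtain ⟨r, hr⟩ := h.pack hP.hD (S.card + S.card)
  obtain ⟨K, hK⟩ := hS r
  obtain ⟨φ, hφ⟩ : ∃ φ : ℍ → ℝ, ∀ b, Real.log (V (ev b y)) + ls V (π b) d = φ b := ⟨_, fun _ => rfl⟩
  have m0 : (u, d, φ) ∈ GG V N π e s := ⟨fun b hb => ⟨by_contra fun z => by
    simpa [zero_lt_one.not_ge] using hu.far b z b hb, hd b hb⟩, y, hy, y0, ho, 0,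
    fun b _ => (hφ b).trans (add_zero _).symm⟩
  have k : ∀ m : ℕ, ∃ c, ∀ b ∈ s, |2 * m * φ b - c| ≤ 8 * K := fun m => by
    obtain ⟨T, t1, t2⟩ := ((hr (S ∪ S.image (· - m • Q)) ((Finset.card_union_le _ _).trans
      (Nat.add_le_add_left Finset.card_image_le _))).and_eventually (nsmul_mem hQ m)).exists
    obtain ⟨P, p1, p2, p3⟩ := hK T fun R hR => t1 R (Finset.mem_union_left _ hR)
    obtain ⟨P', q1, q2, q3⟩ := hK (T + m • Q) fun R hR => by
      simpa only [sub_sub_eq_add_sub] using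
        t1 _ (Finset.mem_union_right _ (Finset.mem_image_of_mem _ hR))
    have m1 : ((2 * m) • u, 2 • (Finsupp.single (T + m • Q) 1 - Finsupp.single T 1), (2 * m) • φ) ∈
        GG V N π e s := by
      convert sub_mem (nsmul_mem m0 (2 * m)) t2 using 1
      simp only [Prod.smul_mk, Prod.mk_sub_mk, sub_zero]
      congr 2
      module
    obtain ⟨-, g, g1, g0, g2, c, g3⟩ := m1
    have n : P ≠ 0 := fun z => (p2 b₀ h0).1 (by rw [z, eval_zero])
    have n' : P' ≠ 0 := fun z => (q2 b₀ h0).1 (by rw [z, eval_zero])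
    have l4 : ∀ b ∈ s, L.eval (jf b) ≠ 0 := fun b hb z => by simpa [z] using l2 b hb
    obtain ⟨c', hc⟩ := hM g g1 g0 (L ^ (2 * m) * (P * P') ^ 2)
      (mem_PI.1 (mul_mem (pow_mem l1 _) (pow_mem (mul_mem p1 q1) _)))
      (fun b hb => by simp [l4 b hb, (p2 b hb).1, (q2 b hb).1]) fun τ => by
      rw [od_aj_mul τ (pow_ne_zero _ l0) (pow_ne_zero _ (mul_ne_zero n n')), map_pow, map_pow, od_pow,
        od_pow, od_aj_mul τ n n', g2]
      have a : ∀ W : (crv A B).Point, (0 : ℤ) ≤ e τ * Finsupp.single W (1 : ℤ) (π τ) := fun W => by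
        rw [Finsupp.single_apply]
        positivity
      have a1 := mul_le_mul_of_nonneg_left (abs_le.1 (l3 τ)).1 (Int.natCast_nonneg m)
      have a2 := mul_le_mul_of_nonneg_left (abs_le.1 (l3 τ)).2 (Int.natCast_nonneg m)
      simp only [Pi.smul_apply, Finsupp.smul_apply, Finsupp.sub_apply, nsmul_eq_mul]
      push_cast
      exact abs_le.2 ⟨by nlinarith [p3 τ, q3 τ, a T, a (T + m • Q)],
        by nlinarith [p3 τ, q3 τ, a T, a (T + m • Q)]⟩
    refine ⟨c' - c, fun b hb => ?_⟩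
    have a := hc b hb
    have a' := g3 b hb
    obtain ⟨a1, a2, a3⟩ := p2 b hb
    obtain ⟨a4, a5, a6⟩ := q2 b hb
    rw [eval_mul, eval_pow, eval_pow, eval_mul, map_mul, map_pow, map_pow, l2 b hb, one_pow, one_mul,
      Real.log_pow, map_mul, Real.log_mul (V.pos a1).ne' (V.pos a4).ne'] at a
    simp only [map_nsmul, map_sub, ls_single, nsmul_eq_mul, Pi.smul_apply] at a'
    push_cast at a a'
    rw [abs_le] at *
    exact ⟨by linarith [a.1, a3.1, a6.2], by linarith [a.2, a3.2, a6.1]⟩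
  refine ⟨φ b₀, fun b hb => ?_⟩
  rw [← ls_apply, hφ, ← sub_eq_zero, ← abs_nonpos_iff, ← not_lt]
  intro c
  obtain ⟨m, hm⟩ := exists_nat_gt (8 * K / |φ b - φ b₀|)
  obtain ⟨c', hc⟩ := k m
  have := abs_sub_le (2 * m * φ b) c' (2 * m * φ b₀)
  rw [← mul_sub, abs_mul, abs_of_nonneg (by positivity), abs_sub_comm c'] at this
  rw [div_lt_iff₀ c] at hm
  linarith [hc b hb, hc b₀ h0]

end

section

open UpperHalfPlane CongruenceSubgroup Real P004Z P004Z.Ar
open scoped MatrixGroups Classical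
open Vale.Agent.P022.H218.L3 Vale.Agent.P004H.H666
open Vale.Agent.P022K.F0.Cf (od ev Reg reg_iff ev_mul od_mul od_inv od_one ev_eq_zero ev_const)
open Vale.Agent.P004Z.Fin (Pk Ov Far FN ex_add)
open Vale.Agent.P004Z.H (sp Fo lam GG cj lam_sp sp_trans sp_refl sp_inj)

variable {N : ℕ} {a : ℕ → ℤ} {D : Pz N a} {B : ℍ → ℤ} {s : Finset ℍ}

theorem ex_I1 [NeZero N] (h0 : ∑ b ∈ s, B b = 0) {xm : D.E → Mer}
    (pk : Pk N (D.A : ℂ) (D.B : ℂ) D.pi D.e xm) {V : AbsoluteValue ℂ ℝ} {p : ℕ} (hV : Ov V p)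
    (hm : (∀ b ∈ s, V (jf b) ≤ 1) ∧ Fin.Mp V N s) :
    ∃ I : (ℍ → ℤ) →+ ℝ, (∀ n, Far V s n → I n = 0) ∧
      ∀ n h t u, Dec D s n h t u → I n = Sy D B s V h t u := by
  let m : Additive (MF (Gamma0 N))ˣ → Mer := fun x => (x.toMul : MF (Gamma0 N))
  have m0 : ∀ x, m x ≠ 0 := fun x e => x.toMul.ne_zero (Subtype.ext e)
  have ma : ∀ x y, m (x + y) = m x * m y := fun _ _ => rfl
  have mn : ∀ x, m (-x) = (m x)⁻¹ := fun x => by simp [m]
  let T : AddSubgroup (Additive (MF (Gamma0 N))ˣ × (D.E →₀ ℤ) × (ℍ → ℤ)) :=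
    { carrier := {x | (∀ b ∈ s, od b (m x.1) = 0 ∧ x.2.1 (D.pi b) = 0) ∧
        (x.2.1.sum fun _ k => k) = 0 ∧ Far V s x.2.2}
      zero_mem' := ⟨fun b _ => ⟨od_one b, rfl⟩, rfl, Far.zero⟩
      add_mem' := fun {x y} hx hy => ⟨fun b hb => ⟨by
          rw [Prod.fst_add, ma, od_mul _ (m0 _) (m0 _), (hx.1 b hb).1, (hy.1 b hb).1, add_zero], by
          simp [(hx.1 b hb).2, (hy.1 b hb).2]⟩, by
        rw [Prod.snd_add, Prod.fst_add, Finsupp.sum_add_index' (fun _ => rfl) fun _ _ _ => rfl,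
          hx.2.1, hy.2.1, add_zero], hx.2.2.add hy.2.2⟩
      neg_mem' := fun {x} hx => ⟨fun b hb => ⟨by
          rw [Prod.fst_neg, mn, od_inv, (hx.1 b hb).1, neg_zero], by simp [(hx.1 b hb).2]⟩, by
        rw [Prod.snd_neg, Prod.fst_neg, Finsupp.sum_neg_index fun _ => rfl, Finsupp.sum_neg,
          hx.2.1, neg_zero], by simpa using hx.2.2.smul (-1)⟩ }
  let φ : T →+ (ℍ → ℤ) := AddMonoidHom.mk'
    (fun x τ => od τ (m x.1.1) - D.e τ * x.1.2.1 (D.pi τ) - x.1.2.2 τ) fun x y => funext fun τ => by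
      simp only [AddSubgroup.coe_add, Prod.fst_add, Prod.snd_add, ma, od_mul _ (m0 _) (m0 _),
        Finsupp.add_apply, Pi.add_apply]
      ring
  let ψ : T →+ ℝ := AddMonoidHom.mk' (fun x => -∑ b ∈ s, B b * (log (V (ev b (m x.1.1))) +
      x.1.2.1.sum fun Y k => k * lam V (D.pi b - Y))) fun x y => by
    rw [← neg_add, ← Finset.sum_add_distrib]
    refine congrArg _ (Finset.sum_congr rfl fun b hb => ?_)
    have h1 := (x.2.1 b hb).1
    have h2 := (y.2.1 b hb).1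
    simp only [AddSubgroup.coe_add, Prod.fst_add, Prod.snd_add, ma]
    rw [ev_mul (reg_of h1) (reg_of h2), map_mul, log_mul (V.ne_zero (ev_ne (m0 _) h1))
      (V.ne_zero (ev_ne (m0 _) h2)), Finsupp.sum_add_index' (by simp) (by simp [add_mul])]
    ring
  obtain ⟨I, hI⟩ := ex_add φ ψ fun x hx => by
    obtain ⟨c, hc⟩ := fn1 hV hm pk (m x.1.1) (Subtype.prop _) (m0 _) _
      x.2.2.2 _ x.2.2.1 (fun b hb => (x.2.1 b hb).2) fun τ => by
        have : od τ (m x.1.1) - D.e τ * x.1.2.1 (D.pi τ) - x.1.2.2 τ = 0 := congrFun hx τ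
        linarith
    change -∑ b ∈ s, _ = 0
    rw [Finset.sum_congr rfl fun b hb => by rw [hc b hb], ← Finset.sum_mul, ← Int.cast_sum, h0]
    simp
  refine ⟨I, fun n hn => ?_, fun n h t u d => ?_⟩
  · have := hI ⟨(0, 0, -n), fun b _ => ⟨od_one b, rfl⟩, rfl, by simpa using hn.smul (-1)⟩
    rw [show φ _ = n from funext fun τ => by
      change od τ 1 - _ * 0 - -n τ = n τ
      simp [od_one]] at this
    rw [this]
    change -∑ b ∈ s, (B b : ℝ) * (log (V (ev b 1)) + 0) = 0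
    simp [show ∀ b, ev b 1 = 1 from fun b => by simpa using ev_const b 1]
  · obtain ⟨E, hE⟩ : ∃ E : D.E →₀ ℤ,
      E = Finsupp.single (D.ex t) 1 - Finsupp.single (D.ex (t + u)) 1 := ⟨_, rfl⟩
    have k1 : ∀ Y, E Y = (if Y = D.ex t then 1 else 0) - if Y = D.ex (t + u) then 1 else 0 :=
      fun Y => by simp only [hE, Finsupp.sub_apply, Finsupp.single_apply, eq_comm (a := Y)]
    have k2 : ∀ f : D.E → ℝ, (E.sum fun Y k => k * f Y) = f (D.ex t) - f (D.ex (t + u)) := fun f => by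
      rw [hE, Finsupp.sum_sub_index (by simp [sub_mul]), Finsupp.sum_single_index (by simp),
        Finsupp.sum_single_index (by simp)]
      simp
    have hx : (Additive.ofMul (Units.mk0 h d.ne), E, 0) ∈ T := ⟨fun b hb => ⟨d.od0 hb, by
        simp only [k1, (d.off b hb).1, (d.off b hb).2.1, if_false, sub_zero]⟩, by
        rw [hE, Finsupp.sum_sub_index fun _ _ _ => rfl]; simp, Far.zero⟩
    have k3 : φ ⟨_, hx⟩ = n := funext fun τ =>
      (show od τ (h : Mer) - D.e τ * E (D.pi τ) - 0 = n τ by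
        simp only [d.eq, D.pb_eq, k1]
        split_ifs <;> ring)
    refine ((congrArg I k3).symm.trans (hI ⟨_, hx⟩)).trans (Eq.trans ?_ (d.sy_eq V).symm)
    change -∑ b ∈ s, (B b : ℝ) * (log (V (ev b (h : Mer))) +
      E.sum fun Y k => k * lam V (D.pi b - Y)) = _
    rw [← Finset.sum_neg_distrib]
    exact Finset.sum_congr rfl fun b _ => by rw [k2 fun Y => lam V (D.pi b - Y)]; ring


end

end Fi

theorem exi1 : EXI1 := fun N _ p d β s a D B V q h hs h0 hV => by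
  obtain ⟨xm, p1, -⟩ := P004Z.Ar.pk N a D (NeZero.pos N)
  exact Fi.ex_I1 h0 p1 hV (Fi.mp1 hV ⟨h.dat.sq, h.dat.m8, fun q a b c =>
    h.dat.spl q a b (c.mul_right _), h.dat.big, h.dat.rt⟩ hs)

section

open UpperHalfPlane hiding I
open Polynomial CongruenceSubgroup P004Z P004Z.Fin
open scoped MatrixGroups ModularForm Manifold Classical NumberTheorySymbols
open Vale.Agent.P022.H218.L3 Vale.Agent.P022.H231.L3 Vale.Agent.P022.H236.L3
  Vale.Agent.P022.H542.L3 Vale.Agent.P022D.Irr Vale.Agent.P027M.M Vale.Agent.P004M.D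
  Vale.Agent.P022D ModularForm

theorem off1 (hD : DIV1) : OFF1 := fun N _ δ δ' β s h hs n r hn => by
  have n0 : 0 < n := Nat.pos_of_ne_zero fun e => hn (by simp [e])
  obtain ⟨a1, a4, a2, a3⟩ := (hD N).1 n r
  obtain ⟨b1, b4, -, b3⟩ := (hD N).1 n (-r)
  replace a2 := congrFun (a2 n0)
  have h0 := h.pr.pos
  have h := h.dat
  have d1 : -(n : ℤ) < 0 := neg_neg_of_pos (by positivity)
  have k1 : ∀ τ, Zd N 1 n r τ ≠ 0 → ∃ l, disc l = -(n : ℤ) ∧ evq l τ = 0 := fun τ e => by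
    by_cases c : Zp N 1 n r τ = 0
    · exact (b3 τ fun c' => e (by rw [a2, Pi.add_apply, c, c', add_zero])).2.2
    · exact (a3 τ c).2.2
  have k2 : ∀ r, Ar.Inv N (Zp N 1 n r) → Ar.Dv N (Ar.cs (Zp N 1 n r)) →
      (Set.range (Zp N 1 n r)).Finite := by
    intro r c e
    obtain ⟨t, ht⟩ := e.reps
    refine ((t.finite_toSet.image (Zp N 1 n r)).insert 0).subset ?_
    rintro _ ⟨z, rfl⟩
    refine or_iff_not_imp_left.2 fun e => ?_
    obtain ⟨γ, e1, e2⟩ := ht.ex z e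
    exact ⟨_, e2, c γ e1 z⟩
  have f1 : (Set.range (Zd N 1 n r)).Finite := by
    refine ((k2 r a1 a4).image2 (fun x y => x + y) (k2 _ b1 b4)).subset ?_
    rintro _ ⟨z, rfl⟩
    exact ⟨_, ⟨z, rfl⟩, _, ⟨z, rfl⟩, (a2 z).symm⟩
  have f2 : (jf '' Function.support (Zd N 1 n r)).Finite := (fin_j d1).subset (Set.image_mono k1)
  have k3 : ∀ τ, Zd N 1 n r τ ≠ 0 → ∀ b ∈ s, ∃ l l', disc l = -(n : ℤ) ∧ evq l τ = 0 ∧
      disc l' = δ ^ 2 * -δ' ∧ evq l' b = 0 ∧ l ≠ 0 ∧ l' ≠ 0 ∧ ¬ IsSquare (disc l * disc l') :=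
    fun τ e b hb => by
    obtain ⟨l, c1, c2⟩ := k1 τ e
    obtain ⟨l', c3, c4, c5, -⟩ := Hd.Zp_ne (hs b hb)
    refine ⟨l, l', c1, c2, by rw [c3]; push_cast; ring, c4, ne_of_disc (c1.trans_lt d1),
      fun z => by simp [z] at c5, fun q => hn (Int.isSquare_natCast_iff.1
        (sq_cancel (k := δ) (by omega) ?_))⟩
    rwa [c1, c3, show -(n : ℤ) * -(((1 : ℕ) : ℤ) * (δ ^ 2 * δ' : ℕ)) =
      ((1 * δ' * n : ℕ) : ℤ) * δ ^ 2 by push_cast; ring] at q
  refine ⟨fun p V hV hp => ⟨f1, f2, fun τ e b hb => ?_⟩, ?_⟩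
  · obtain ⟨l, l', c1, c2, c3, c4, c5, c6, c7⟩ := k3 τ e b hb
    have m8 := h.m8
    by_cases p2 : p = 2
    · subst p2
      rw [V.map_sub]
      exact r2 V 2 l' l b τ δ _ 1 hV c6 c5 c4 c2 (mul_comm (disc l) _ ▸ c7) c3 (by omega) (by omega)
    rcases hp with (c | c) | c
    · exact absurd c p2
    · obtain ⟨x, x1, x2⟩ := ex_x hV.prime p2 c (by omega)
      rw [V.map_sub]
      exact r2 V p l' l b τ δ _ x hV c6 c5 c4 c2 (mul_comm (disc l) _ ▸ c7) c3 x1 x2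
    · rw [Nat.cast_one, one_mul] at c
      obtain ⟨x, x1, x2⟩ := ex_x hV.prime p2 c (by
        rw [← c1, disc, mul_assoc]
        obtain ⟨k, e | e⟩ := Int.even_or_odd' l.2.1
        · rw [e, show (2 * k) ^ 2 = 4 * (k * k) by ring]
          omega
        · rw [e, show (2 * k + 1) ^ 2 = 4 * (k * k + k) + 1 by ring]
          omega)
      exact r2 V p l l' τ b 1 _ x hV c5 c6 c2 c4 c7 (by rw [c1]; ring) x1 x2
  · refine (f2.biUnion (t := fun x => ⋃ b ∈ s, {p : ℕ | ∃ V, Ov V p ∧ V (x - jf b) < 1})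
      ?_).subset ?_
    · rintro _ ⟨τ, e, rfl⟩
      refine s.finite_toSet.biUnion fun b hb => ?_
      obtain ⟨l, l', c1, c2, c3, c4, c5, c6, c7⟩ := k3 τ e b hb
      exact unit_fin ((int l τ c5 c2).sub (int l' b c6 c4))
        (sub_ne_zero.2 fun z => c7 (sq_of_j (c1.trans_lt d1) c2 c4 z))
    · rintro p ⟨V, hV, c⟩
      by_contra! z
      simp only [Set.mem_iUnion, Set.mem_setOf_eq, not_exists, not_and, not_lt] at z
      exact c ⟨f1, f2, fun τ e b hb => z _ ⟨τ, e, rfl⟩ b hb V hV⟩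

end

end Vale.Agent.P014T.Z
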