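import Vale.Agent.P014T.Z.St
import Vale.Agent.P014T.Gx.One
import Vale.Agent.P004Z.Ar.All

/-! # P014T, block Z1: rows GENX1 and YK1 -/

set_option autoImplicit false
set_option linter.all false

open UpperHalfPlane CongruenceSubgroup
open scoped MatrixGroups Classical NumberTheorySymbols

noncomputable section

namespace Vale.Agent.P014T.Z

open P004Z P004Z.Ar P004Z.Ar.Gx

namespace Ge

variable {N : ℕ} [NeZero N]

/-- no constant term -/
def C0 (c : PP N) : Prop := ∀ r, c (0, r) = 0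

theorem pr_c0 {x y : Cf N} {c : PP N} (h : C0 c) (e : ∀ n r, n ≠ 0 → x n r = y n r) :
    pr x c = pr y c := Gl.pr_congr fun i hi => e _ _ fun k =>
  Finsupp.mem_support_iff.1 hi (by rw [show i = (0, i.2) from Prod.ext k rfl, h])

theorem C0.tt {c : PP N} (h : C0 c) (δ : ℕ) {l : ℕ} (hl : l ≠ 0) : C0 (Tt δ l c) := fun r => by
  have k : ∀ c : PP N, pr (fun n s => if (n, s) = (0, r) then 1 else 0) c = c (0, r) := fun c => by
    simp only [pr, mul_ite, mul_one, mul_zero, Prod.mk.eta]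
    exact Finsupp.sum_ite_self_eq' c (0, r)
  rw [← k, Gl.pr_tt, pr_c0 h (y := 0) fun n s e => ?_]
  · simp [pr]
  · have : l ^ 2 ∣ n → n / l ^ 2 ≠ 0 := fun d q => e (by rw [← Nat.div_mul_cancel d, q, zero_mul])
    by_cases d : l ^ 2 ∣ n <;> simp [TT, e, hl, d, this]

theorem C0.u1 {c : PP N} (h : C0 c) {p : ℕ} (hp : p ≠ 0) : C0 (U1 p c) := fun r => by
  simp [U1, h.tt 1 hp r, h r]

theorem pr_u1 (x : Cf N) (p : ℕ) (c : PP N) :
    pr x (U1 p c) = pr (TT 1 p x) c - (p + 1) * pr x c := by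
  rw [← Gl.pr_tt, ← Gl.pr_smul, Gl.pr_eq, Gl.pr_eq, Gl.pr_eq, ← map_sub]
  rfl

theorem zd_eq (h : DIV1) {n : ℕ} (e : n ≠ 0) (r : ZMod (2 * N)) :
    cs (Zd N 1 n r) = cs (Zp N 1 n r) + cs (Zp N 1 n (-r)) := funext fun z => by
  simp [cs, ((h N).1 n r).2.2.1 (Nat.pos_of_ne_zero e)]

theorem dv_zd (h : DIV1) {n : ℕ} (e : n ≠ 0) (r : ZMod (2 * N)) : Dv N (cs (Zd N 1 n r)) :=
  zd_eq h e r ▸ ((h N).1 n r).2.1.add ((h N).1 n _).2.1

theorem dv_ws (h : DIV1) {c : PP N} (hc : C0 c) : Dv N (Zc 1 c) ∧ ∀ F,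
    pr (fun n r => if n = 0 then 0 else ws (4 * N) (cs (Zd N 1 n r)) F) c =
      ws (4 * N) (Zc 1 c) F := by
  let L : PP N →ₗ[ℂ] (ℍ → ℂ) :=
    Finsupp.linearCombination ℂ fun i => if i.1 = 0 then 0 else cs (Zd N 1 i.1 i.2)
  have e : Zc 1 c = L c := by
    rw [Zc_eq]
    refine Finset.sum_congr rfl fun i hi => ?_
    show c i • cs _ = c i • ite _ _ _
    rw [if_neg fun k => Finsupp.mem_support_iff.1 hi
      (by rw [show i = (0, i.2) from Prod.ext k rfl, hc])]
  rw [e]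
  clear e hc
  induction c using Finsupp.induction_linear with
  | zero => simp only [map_zero, Gl.pr_zero, ws_zero, dv_zero, implies_true, and_self]
  | add c c' h h' =>
    rw [map_add]
    exact ⟨h.1.add h'.1, fun F => by rw [Gl.pr_add, h.2, h'.2,
      ws_add (h.1.mono four (dvd_mul_left _ _)) (h'.1.mono four (dvd_mul_left _ _))]⟩
  | single i k =>
    rw [Finsupp.linearCombination_single]
    by_cases q : i.1 = 0
    · simp [q, dv_zero, ws_zero, Gl.pr_single]
    · rw [if_neg q]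
      exact ⟨(dv_zd h q _).smul k, fun F => by rw [Gl.pr_single, ws_smul, if_neg q]⟩

theorem ax_pz {p : ℕ} (h : Gx.Ax N p) : Pz1 N p :=
  ⟨h.pr, by exact_mod_cast Nat.modEq_iff_dvd.1 h.md.symm⟩

theorem Pz1.nd {p : ℕ} (h : Pz1 N p) : ¬ p ∣ 2 * N * 1 := fun e => by
  have : (p : ℤ) ∣ p - 1 := ((Int.natCast_dvd_natCast.2 e).trans ⟨2, by push_cast; ring⟩).trans h.one
  exact h.pr.one_lt.ne' (Int.natCast_dvd_natCast.1 ((dvd_sub_right dvd_rfl).1 this) |>
    Nat.dvd_one.1)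

theorem pi_inv {N : ℕ} {a : ℕ → ℤ} (D : Pz N a) : Inv N D.pi := fun γ h z =>
  sub_eq_zero.1 ((D.ex.map_sub _ _).symm.trans ((D.ker _).2 (D.inv γ h z)))

end Ge

open Ge

/-- **row GENX1** -/
theorem genx1 (hD : DIV1) (hB : BOR1) : GENX1 := by
  intro N _ G a D hG
  have ac : ∀ (P : FA N) c, C0 c → C0 (Gl.act 1 P c) ∧ Zc 1 (Gl.act 1 P c) =
      FreeAlgebra.lift ℤ (fun l : PA (2 * N * 1) => Tdiv l.1) P (Zc 1 c) := fun P => by
    induction P using FreeAlgebra.induction with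
    | grade0 k =>
      exact fun c h => ⟨fun r => by simp [h r], by simp [Zc_eq]⟩
    | grade1 p =>
      intro c h
      simp only [FreeAlgebra.lift_ι_apply]
      exact ⟨h.tt 1 p.2.1.ne_zero, (hD N).2 p p.2.1 p.2.2 c⟩
    | mul P Q hP hQ =>
      intro c h
      simp only [map_mul, Module.End.mul_apply]
      exact ⟨(hP _ (hQ c h).1).1, by rw [(hP _ (hQ c h).1).2, (hQ c h).2]⟩
    | add P Q hP hQ =>
      intro c h
      simp only [map_add (FreeAlgebra.lift ℤ _), LinearMap.add_apply]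
      exact ⟨fun r => by rw [Finsupp.add_apply, (hP c h).1, (hQ c h).1, add_zero],
        by rw [← (hP c h).2, ← (hQ c h).2, Zc_eq, Zc_eq, Zc_eq, map_add]⟩
  refine ⟨fun c h => ⟨(dv_ws hD h).1, fun P => ac P c h⟩, fun l hl => ?_⟩
  have inv : Inv N (l ∘ D.I) := fun γ h z => sub_eq_zero.1 ((l.map_sub _ _).symm.trans
    (hl _ (D.inv γ h z)))
  have w : ∀ c, C0 c → pr (xg D l) c = ws (4 * N) (Zc 1 c) (l ∘ D.I) := fun c h =>
    (dv_ws hD h).2 (l ∘ D.I)
  have tt : ∀ p : ℕ, p.Prime → ¬ p ∣ 2 * N * 1 → ∀ c, C0 c →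
      pr (xg D l) (Tt 1 p c) = a p * pr (xg D l) c := fun p hp h c hc => by
    have h4 : ¬ p ∣ 4 * N := fun e => h <| ((hp.dvd_mul.1 (show p ∣ 2 * (2 * N) by
      rwa [← mul_assoc])).elim (·.mul_right _) id).mul_right _
    rw [w _ (hc.tt 1 hp.ne_zero), w c hc, (hD N).2 p hp h,
      ((adj _ p four hp h4).2 _ ((dv_ws hD hc).1.mono four (dvd_mul_left _ _))).2
      (dvd_mul_right _ _) _ (inv.mono (dvd_mul_left _ _)), tdiv_comp,
      (prt.2 N G a D hG).1 p hp fun e => h4 (e.mul_left _), ← ws_smul']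
    congr 1
    funext z
    simp only [Function.comp, Pi.smul_apply, smul_eq_mul, ← zsmul_eq_mul, map_zsmul]
  have eg : Eig 1 (2 * N * 1) a (xg D l) := fun p hp h => by
    funext n r
    by_cases q : n = 0
    · simp [q, TT, xg]
    have := tt p hp h (Finsupp.single (n, r) 1) fun s => Finsupp.single_eq_of_ne fun e =>
      q (Prod.mk.inj e).1.symm
    rwa [Gl.pr_tt, Gl.pr_single, Gl.pr_single, one_mul, one_mul] at this
  refine ⟨Gx.serre1 (fun r => if_pos rfl) (fun n r h => by_contra fun e => h ?_) (fun n r => ?_)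
    fun c h => ?_, eg, fun c h => ⟨w c h, fun P => ?_⟩⟩
  · by_cases q : n = 0
    · exact if_pos q
    have k : ∀ s, (In N 1 n s → In N 1 n r) → Zp N 1 n s = 0 := fun s i => funext fun z =>
      by_contra fun b => e (i (((hD N).1 n s).2.2.2 z b).2.1)
    rw [xg, if_neg q, zd_eq hD q, k r id, k _ Gl.in_neg.1]
    simp [ws, cs]
  · by_cases q : n = 0
    · simp [xg, q]
    · simp only [xg, if_neg q, zd_eq hD q, neg_neg, Gx.eps_one, Int.cast_one, one_mul, add_comm]
  · obtain ⟨p, hp⟩ := Gx.ax0 N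
    have z := ax_pz hp
    obtain ⟨k, n, Ψ, hk, e, h1, h2, h3⟩ := hB N p z c h
    obtain ⟨b, hb⟩ := h
    have := (ae plc fun_row N a D n Ψ (NeZero.pos N)
      ⟨h1, h2, fun γ h z => by rw [h3 γ h]; simp [ee]⟩).2 l hl
    rw [show cs n = (k : ℂ) • Zc 1 (U1 p c) from funext e, ws_smul,
      ← w _ (C0.u1 hb.zero hp.pr.ne_zero), pr_u1, eg p hp.pr (Pz1.nd z), Gl.smul_pr,
      ← sub_mul] at this
    refine (mul_eq_zero.1 ((mul_eq_zero.1 this).resolve_left
      (Nat.cast_ne_zero.2 hk.ne'))).resolve_left fun q => ?_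
    refine (triv N G a hG p hp.pr fun d => Pz1.nd z ((d.mul_left 2).mul_right 1)).1 ?_
    exact_mod_cast sub_eq_zero.1 q
  · revert c
    induction P using FreeAlgebra.induction with
    | grade0 k => intro c _; simp [← Int.cast_smul_eq_zsmul ℂ, Gl.pr_smul]
    | grade1 p =>
      intro c h
      simp only [FreeAlgebra.lift_ι_apply]
      exact tt p p.2.1 p.2.2 c h
    | mul P Q hP hQ =>
      intro c h
      simp only [map_mul, Module.End.mul_apply]
      rw [hP _ (ac Q c h).1, hQ c h, Int.cast_mul, mul_assoc]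
    | add P Q hP hQ =>
      intro c h
      simp only [map_add (FreeAlgebra.lift ℤ _), LinearMap.add_apply]
      rw [Gl.pr_add, hP c h, hQ c h, Int.cast_add, add_mul]

/-- **row YK1** -/
theorem yk1 (hK : KL1) : YK1 := by
  intro N _ G a D p d β s s₀ hG h hs hs₀
  obtain ⟨β', t, w, -, -, k⟩ := hK N p d _ 1 β h dvd_rfl (pow_one _).symm.dvd
  obtain ⟨k1, k0⟩ := k D.E D.pi (pi_inv D)
  obtain ⟨e1, e2, e3⟩ := k0 s₀ hs₀
  have T := (prt.2 N G a D hG).1 p h.pr fun e => Pz1.nd h.toPz1 ((e.mul_left 2).mul_right 1)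
  have u : ∀ z : ℍ, ∑ j ∈ Finset.range p, rh p j • D.pi (ofComplex ((j + z) / p)) =
      a p • D.pi z - (p : ℤ) • D.pi (ofComplex (z / p)) - D.pi (ofComplex (p * z)) := fun z => by
    have := congrArg D.ex (congrFun T z)
    rw [Pi.smul_apply, smul_eq_mul, ← zsmul_eq_mul, map_zsmul] at this
    simp only [Tdiv, LinearMap.coe_mk, AddHom.coe_mk, map_add, map_sum, add_comm (z : ℂ)] at this
    have r : ∀ j, rh p j = 1 - if j = 0 then (p : ℤ) else 0 := fun j => by
      rw [rh]; split_ifs <;> simp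
    simp only [r, sub_smul, one_smul, Finset.sum_sub_distrib, ite_smul, zero_smul,
      Finset.sum_ite_eq', Finset.mem_range, h.pr.pos, if_true, Nat.cast_zero, zero_add, Pz.pi,
      ← this]
    abel
  rw [yK, yK, k1 s hs]
  simp only [u, Finset.sum_sub_distrib, ← Finset.smul_sum]
  rw [← e1, ← e2, ← e3, sub_smul, sub_smul, one_smul]

end Vale.Agent.P014T.Z
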