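import Vale.Agent.P014T.Z.Psd
import Vale.Agent.P004Z.Hd.Fta
import Vale.Agent.P004Z.Kf.Kt

/-!
# P014T, block Z1: the smoothed test function (helper41)
-/

set_option autoImplicit false
set_option linter.all false

open Complex Finset CongruenceSubgroup
open scoped Real NumberTheorySymbols MatrixGroups ComplexConjugate UpperHalfPlane Classical

noncomputable section

namespace Vale.Agent.P014T.Z

open P004Z P004Z.Hd P004Z.Gq

namespace Ps

variable {ν k N e p : ℕ} {φ : Fm → ℂ}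

/-! ### one variable -/

theorem sum_box2 (n v : ℕ) (g : ℕ → ℂ) :
    ∑ a ∈ range (n * v), g a = ∑ i ∈ range n, ∑ j ∈ range v, g (i + n * j) := by
  induction v with
  | zero => simp
  | succ v ih =>
    rw [Nat.mul_succ, sum_range_add, ih, ← sum_add_distrib]
    exact sum_congr rfl fun i _ => by rw [sum_range_succ, add_comm (n * v)]

/-- the Fourier sum -/
def S1 (n : ℕ) (f : ℤ → ℂ) (t : ℤ) : ℂ := ∑ a ∈ range n, f a * ee ((a * t : ℤ) / n)

theorem S1_ite (n : ℕ) (P : Prop) [Decidable P] (f : ℤ → ℂ) (t : ℤ) :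
    S1 n (fun a => if P then f a else 0) t = if P then S1 n f t else 0 := by
  split_ifs <;> simp [S1]

theorem S1_mul (n : ℕ) (c : ℂ) (f : ℤ → ℂ) (t : ℤ) :
    S1 n (fun a => c * f a) t = c * S1 n f t := by simp only [S1, mul_sum, mul_assoc]

theorem S1_one {n u v : ℕ} (hn : n ≠ 0) (hu : u ≠ 0) (hv : v ≠ 0) {f : ℤ → ℂ} (h : P1 n f) (t : ℤ) :
    S1 (n * (u * v)) (fun a => if (u : ℤ) ∣ a then f (a / u) else 0) t =
      if (v : ℤ) ∣ t then v * S1 n f (t / v) else 0 := by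
  have n1 : (n : ℂ) ≠ 0 := Nat.cast_ne_zero.2 hn
  have u1 : (u : ℂ) ≠ 0 := Nat.cast_ne_zero.2 hu
  have v1 : (v : ℂ) ≠ 0 := Nat.cast_ne_zero.2 hv
  have u2 : (u : ℤ) ≠ 0 := Nat.cast_ne_zero.2 hu
  have := NeZero.mk hv
  have e (i j : ℕ) : (if (u : ℤ) ∣ (0 + u * (i + n * j) : ℕ) then
      f ((0 + u * (i + n * j) : ℕ) / u) else 0) *
      ee (((0 + u * (i + n * j) : ℕ) * t : ℤ) / (n * (u * v) : ℕ)) =
      f i * ee (i * t / (n * v)) * ee ((t * j : ℤ) / v) := by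
    rw [zero_add]
    push_cast
    rw [if_pos (dvd_mul_right _ _), Int.mul_ediv_cancel_left _ u2, h _ i (by simp),
      mul_assoc (f i), ← ee_add]
    congr 2
    push_cast
    field_simp
  rw [S1, (sum_congr (congrArg range (mul_left_comm n u v)) fun _ _ => rfl).trans (sum_box2 _ _ _),
    sum_eq_single 0 (fun i hi h0 => sum_eq_zero fun j _ => by
      rw [if_neg fun d => h0 (Nat.eq_zero_of_dvd_of_lt ((Nat.dvd_add_left (dvd_mul_right _ _)).1
        (Int.natCast_dvd_natCast.1 d)) (mem_range.1 hi)), zero_mul])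
      (by simp [hu]), sum_box2]
  simp only [e, ← mul_sum, sum_ee, ← sum_mul]
  split_ifs with d
  · obtain ⟨t, rfl⟩ := d
    rw [mul_comm, Int.mul_ediv_cancel_left _ (Nat.cast_ne_zero.2 hv), S1]
    refine congrArg _ (sum_congr rfl fun i _ => congrArg (_ * ee ·) ?_)
    push_cast
    field_simp
  · exact mul_zero _

theorem ft_S (hν : ν ≠ 0) (φ : Fm → ℂ) (m : Fm) : ft ν φ m = ((√(2 * ν ^ 3 : ℝ) : ℝ) : ℂ)⁻¹ *
    S1 ν (fun a => S1 (2 * ν) (fun b => S1 ν (fun c => φ (a, b, c)) m.1) (-m.2.1)) m.2.2 := by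
  have n1 : (ν : ℂ) ≠ 0 := Nat.cast_ne_zero.2 hν
  simp only [ft, S1, sum_mul, mul_assoc, ← ee_add]
  refine congrArg _ (sum_congr rfl fun a _ => sum_congr rfl fun b _ => sum_congr rfl fun c _ =>
    congrArg (_ * ee ·) ?_)
  simp only [bil]
  push_cast
  field_simp
  ring

theorem per (h : Per ν φ) {l m : Fm} (a : (ν : ℤ) ∣ l.1 - m.1) (b : ((2 * ν : ℕ) : ℤ) ∣ l.2.1 - m.2.1)
    (c : (ν : ℤ) ∣ l.2.2 - m.2.2) : φ l = φ m := by
  obtain ⟨x, a⟩ := a
  obtain ⟨y, b⟩ := b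
  obtain ⟨z, c⟩ := c
  rw [← h m (x, y, z)]
  push_cast at b
  exact congrArg φ (Prod.ext (by linarith) (Prod.ext (by linarith) (by linarith)))

/-! ### extension by zero -/

/-- extension by zero -/
def xt (f : Fm → Fm) (φ : Fm → ℂ) : Fm → ℂ := Function.extend f φ 0

/-- diagonal maps -/
def dg (x y z : ℕ) (l : Fm) : Fm := (x * l.1, y * l.2.1, z * l.2.2)

variable {x y z : ℕ}

theorem dg_inj (hx : x ≠ 0) (hy : y ≠ 0) (hz : z ≠ 0) : Function.Injective (dg x y z) :=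
  fun l m e => by
    simp only [dg, Prod.mk.injEq, mul_right_inj', Nat.cast_ne_zero, hx, hy, hz, ne_eq,
      not_false_eq_true, Nat.cast_eq_zero] at e
    exact Prod.ext e.1 (Prod.ext e.2.1 e.2.2)

theorem xt_dg (hx : x ≠ 0) (hy : y ≠ 0) (hz : z ≠ 0) (φ : Fm → ℂ) (a b c : ℤ) :
    xt (dg x y z) φ (a, b, c) = if (x : ℤ) ∣ a then if (y : ℤ) ∣ b then if (z : ℤ) ∣ c then
      φ (a / x, b / y, c / z) else 0 else 0 else 0 := by
  have x1 : (x : ℤ) ≠ 0 := Nat.cast_ne_zero.2 hx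
  have y1 : (y : ℤ) ≠ 0 := Nat.cast_ne_zero.2 hy
  have z1 : (z : ℤ) ≠ 0 := Nat.cast_ne_zero.2 hz
  rw [← ite_and, ← ite_and]
  split_ifs with d
  · obtain ⟨⟨⟨a, rfl⟩, b, rfl⟩, c, rfl⟩ := d
    simp only [Int.mul_ediv_cancel_left _ x1, Int.mul_ediv_cancel_left _ y1,
      Int.mul_ediv_cancel_left _ z1]
    exact (dg_inj hx hy hz).extend_apply φ (0 : Fm → ℂ) (a, b, c)
  · refine Function.extend_apply' φ (0 : Fm → ℂ) _ fun ⟨l, e⟩ => d ?_
    simp only [dg, Prod.mk.injEq] at e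
    exact ⟨⟨⟨_, e.1.symm⟩, _, e.2.1.symm⟩, _, e.2.2.symm⟩

theorem dg_main (hν : ν ≠ 0) (hk : k ≠ 0) (e : x * z = k ^ 2) (h : Per ν φ) :
    Per (ν * k ^ 2) (xt (dg x k z) φ) ∧
      ft (ν * k ^ 2) (xt (dg x k z) φ) = xt (dg x k z) (ft ν φ) := by
  have h0 : x * z ≠ 0 := e ▸ pow_ne_zero 2 hk
  have hx := left_ne_zero_of_mul h0
  have hz := right_ne_zero_of_mul h0
  have x1 : (x : ℤ) ≠ 0 := Nat.cast_ne_zero.2 hx
  have y1 : (k : ℤ) ≠ 0 := Nat.cast_ne_zero.2 hk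
  have z1 : (z : ℤ) ≠ 0 := Nat.cast_ne_zero.2 hz
  have e' : (k : ℤ) ^ 2 = x * z := by exact_mod_cast e.symm
  refine ⟨fun ⟨a, b, c⟩ m => ?_, funext fun ⟨a, b, c⟩ => ?_⟩
  · have e1 : ((ν * k ^ 2 : ℕ) : ℤ) * m.1 = x * (ν * (z * m.1)) := by push_cast; rw [e']; ring
    have e2 : 2 * ((ν * k ^ 2 : ℕ) : ℤ) * m.2.1 = k * (2 * ν * (k * m.2.1)) := by push_cast; ring
    have e3 : ((ν * k ^ 2 : ℕ) : ℤ) * m.2.2 = z * (ν * (x * m.2.2)) := by push_cast; rw [e']; ring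
    simp only [xt_dg hx hk hz, e1, e2, e3, dvd_add_left (dvd_mul_right _ _),
      Int.add_mul_ediv_left _ _ x1, Int.add_mul_ediv_left _ _ y1, Int.add_mul_ediv_left _ _ z1]
    rw [h (a / x, b / k, c / z) (z * m.1, k * m.2.1, x * m.2.2)]
  have p1 (u v : ℤ) : P1 ν fun w => φ (u, v, w) := fun w w' d => per h (by simp) (by simp) d
  have p2 (u t : ℤ) : P1 (2 * ν) fun v => S1 ν (fun w => φ (u, v, w)) t := fun v v' d =>
    sum_congr rfl fun w _ => congrArg (· * _) (per h (by simp) d (by simp))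
  have p3 (t t' : ℤ) : P1 ν fun u => S1 (2 * ν) (fun v => S1 ν (fun w => φ (u, v, w)) t) t' :=
    fun u u' d => sum_congr rfl fun v _ => congrArg (· * _) (sum_congr rfl fun w _ =>
      congrArg (· * _) (per h d (by simp) (by simp)))
  have q1 := fun u v => S1_one hν hz hx (p1 u v)
  have q2 := fun u t => S1_one (mul_ne_zero two_ne_zero hν) hk hk (p2 u t)
  have q3 := fun t t' => S1_one hν hx hz (p3 t t')
  simp only [mul_comm z x, e, ← sq, mul_assoc] at q1 q2 q3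
  have s : √(2 * (ν * k ^ 2 : ℕ) ^ 3 : ℝ) = k ^ 3 * √(2 * ν ^ 3) := by
    rw [show (2 * (ν * k ^ 2 : ℕ) ^ 3 : ℝ) = (k ^ 3) ^ 2 * (2 * ν ^ 3) by push_cast; ring,
      Real.sqrt_mul (by positivity), Real.sqrt_sq (by positivity)]
  rw [ft_S (mul_ne_zero hν (pow_ne_zero 2 hk)), xt_dg hx hk hz, ft_S hν, s]
  have r (P : Prop) [Decidable P] (c u : ℂ) :
      (if P then c * u else 0) = c * if P then u else 0 := by split_ifs <;> simp
  have z0 (n : ℕ) (t : ℤ) : S1 n (fun _ => 0) t = 0 := by simp [S1]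
  have k1 : (k : ℂ) ≠ 0 := Nat.cast_ne_zero.2 hk
  have e2 : (x : ℂ) * z = k ^ 2 := by exact_mod_cast e
  simp only [xt_dg hx hk hz, S1_ite, q1]
  by_cases da : (x : ℤ) ∣ a
  · simp only [da, if_true, r, S1_mul, q2, dvd_neg]
    by_cases db : (k : ℤ) ∣ b
    · simp only [db, if_true, r, S1_mul, q3, Int.neg_ediv_of_dvd db]
      push_cast
      generalize (if (z : ℤ) ∣ c then _ else (0 : ℂ)) = w
      field_simp
      linear_combination w * e2
    · simp [db, z0]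
  · simp [da, z0]

theorem xt_fa {f : Fm → Fm} (hf : Function.Injective f) (φ : Fm → ℂ) (γ : SL(2, ℤ)) :
    xt (fun l => fa (f l) γ) φ = fun m => xt f φ (fa m γ⁻¹) := funext fun m => by
  obtain ⟨m, rfl⟩ := (fe γ).surjective m
  exact (congrFun (hf.extend_comp (fe γ).injective φ (0 : Fm → ℂ)) _).trans
    (((fe γ).injective.extend_apply _ _ m).trans (congrArg (xt f φ) (fa_inv m γ).symm))

theorem up_eq (k : ℕ) (j : ℤ) :
    Kf.up k j = fun l => fa (dg 1 k (k ^ 2) l) (Hd.mk 1 j 0 1 (by ring)) := funext fun l => by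
  simp only [fa_mk, Kf.up, dg, Hd.val]
  push_cast
  refine Prod.ext ?_ (Prod.ext ?_ ?_) <;> simp only <;> ring

theorem up_ut (k : ℕ) (j : ℤ) : Kf.up k j = ut 1 j k := funext fun l => by simp [Kf.up, ut]

theorem dn_eq (k : ℕ) : ut k 0 1 = dg (k ^ 2) k 1 := funext fun l => by simp [ut, dg, mul_comm]

/-- **the Fourier transform commutes with the extension along `up k j`** -/
theorem up_main (hν : ν ≠ 0) (hk : k ≠ 0) (h : Per ν φ) (j : ℤ) :
    Per (ν * k ^ 2) (xt (Kf.up k j) φ) ∧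
      ft (ν * k ^ 2) (xt (Kf.up k j) φ) = xt (Kf.up k j) (ft ν φ) := by
  have a := dg_main hν hk (one_mul _) h
  have b := (fta (Hd.mk 1 j 0 1 (by ring))⁻¹).2.2.2.2.2 _ _ (by positivity) a.1
  have i := dg_inj one_ne_zero hk (pow_ne_zero 2 hk)
  rw [up_eq, xt_fa i, xt_fa i, b.2.1, a.2]
  exact ⟨b.1, rfl⟩

/-- the transform as a linear form -/
def fL (ν : ℕ) (m : Fm) : (Fm → ℂ) →ₗ[ℂ] ℂ where
  toFun φ := ft ν φ m
  map_add' φ ψ := by simp only [ft, Pi.add_apply, add_mul, sum_add_distrib, mul_add]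
  map_smul' c φ := by
    simp only [ft, Pi.smul_apply, smul_eq_mul, RingHom.id_apply, mul_sum, mul_assoc, mul_left_comm c]

/-- `T_p - p - 1` on test functions -/
def hk (p : ℕ) (φ : Fm → ℂ) : Fm → ℂ :=
  xt (ut p 0 1) φ + ∑ j ∈ range p, xt (Kf.up p j) φ - ((p : ℂ) + 1) • xt ((p : ℤ) • ·) φ

theorem hk_main (hν : ν ≠ 0) (hp : p ≠ 0) (h : Per ν φ) :
    Per (ν * p ^ 2) (hk p φ) ∧ ft (ν * p ^ 2) (hk p φ) = hk p (ft ν φ) := by
  have a := dg_main hν hp (mul_one _) h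
  have b := dg_main hν hp (sq p).symm h
  have c := up_main hν hp h
  rw [← dn_eq] at a
  change Per _ (xt ((p : ℤ) • ·) φ) ∧ ft _ (xt ((p : ℤ) • ·) φ) = xt ((p : ℤ) • ·) _ at b
  refine ⟨fun l m => ?_, funext fun m => ?_⟩
  · simp only [hk, Pi.add_apply, Pi.sub_apply, Pi.smul_apply, Finset.sum_apply, a.1 l m, b.1 l m,
      fun j => (c j).1 l m]
  · change fL _ m _ = _
    simp only [hk, map_sub, map_add, map_sum, map_smul]
    simp only [show ∀ φ, fL (ν * p ^ 2) m φ = ft (ν * p ^ 2) φ m from fun _ => rfl, a.2, b.2, fun j => (c j).2, Pi.add_apply,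
      Pi.sub_apply, Pi.smul_apply, Finset.sum_apply]

theorem xt_lin {ι : Type} (s : Finset ι) (c : ι → ℂ) (g : ι → Fm → ℂ) (f : Fm → Fm) (m : Fm) :
    xt f (fun l => ∑ i ∈ s, c i * g i l) m = ∑ i ∈ s, c i * xt f (g i) m := by
  simp only [xt, Function.extend_def]
  split_ifs <;> simp

theorem hk_lin {ι : Type} (s : Finset ι) (c : ι → ℂ) (g : ι → Fm → ℂ) (m : Fm) :
    hk p (fun l => ∑ i ∈ s, c i * g i l) m = ∑ i ∈ s, c i * hk p (g i) m := by
  simp only [hk, Pi.add_apply, Pi.sub_apply, Pi.smul_apply, Finset.sum_apply, xt_lin, smul_eq_mul, mul_sub,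
    mul_add, sum_sub_distrib, sum_add_distrib, mul_sum, mul_left_comm (c _), sum_comm (s := s)]

/-! ### the closed form -/

theorem xt_ind {f : Fm → Fm} (hf : Function.Injective f) {ψ : Fm → ℂ} (h : ∀ μ, ψ (f μ) = φ μ)
    (l : Fm) : xt f φ l = ((if l ∈ Set.range f then 1 else 0 : ℤ) : ℂ) * ψ l := by
  split_ifs with d
  · obtain ⟨μ, rfl⟩ := d
    rw [xt, hf.extend_apply, h, Int.cast_one, one_mul]
  · rw [xt, Function.extend_apply' _ _ _ d, Int.cast_zero, zero_mul, Pi.zero_apply]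

theorem om_cnt (hp : p.Prime) (h2 : p ≠ 2) (l : Fm) : om p l =
    (if l ∈ Set.range (ut p 0 1) then 1 else 0) +
      (∑ j ∈ range p, if l ∈ Set.range (ut 1 j p) then 1 else 0) -
        (p + 1) * if l ∈ Set.range (fun μ : Fm => (p : ℤ) • μ) then 1 else 0 := by
  have p0 : (p : ℤ) ≠ 0 := Nat.cast_ne_zero.2 hp.ne_zero
  by_cases d : (p : ℤ) ^ 2 ∣ disc l
  · obtain ⟨D, hD⟩ := d
    rw [← cnt hp h2 hD, om, hD, Int.mul_ediv_cancel_left _ (pow_ne_zero 2 p0),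
      if_pos (dvd_mul_right _ _)]
    simp only [← mem_smul]
    split_ifs with a b b
    · obtain ⟨μ, rfl⟩ := b
      rw [disc_smul, sq (_ ^ 2), mul_assoc, mul_right_inj' (pow_ne_zero 2 p0)] at hD
      rw [J_dvd hp.one_lt (hD ▸ (dvd_pow_self _ two_ne_zero).mul_right _)]
      ring
    · ring
    · obtain ⟨μ, rfl⟩ := b
      exact absurd ⟨(p : ℤ) • μ, by simp only [smul_smul, sq]⟩ a
    · ring
  · rw [by_contra fun h => d (om_ne h), if_neg, sum_eq_zero fun j _ => if_neg ?_, if_neg, mul_zero,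
      add_zero, sub_zero] <;> rintro ⟨μ, rfl⟩ <;> refine d ?_ <;>
      simp only [disc_ut, disc_smul, mul_one, one_mul, dvd_mul_right]

theorem hk_ph (hp : p.Prime) (hn : ¬ p ∣ 2 * N * e) (hs : Squarefree e) (hJ : J(p | e) = 1)
    (r : ZMod (2 * N)) (l : Fm) :
    hk p (fun l => ph N e r l) l = om p l * ph N e (p * r) l := by
  have cp : IsCoprime (p : ℤ) (2 * N * e : ℕ) :=
    Nat.isCoprime_iff_coprime.2 (hp.coprime_iff_not_dvd.2 hn)
  have p0 : (p : ℤ) ≠ 0 := Nat.cast_ne_zero.2 hp.ne_zero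
  have k (a q s : ℤ) (h : a * s = p) : xt (ut a q s) (fun l => ph N e r l) l =
      ((if l ∈ Set.range (ut a q s) then 1 else 0 : ℤ) : ℂ) * ph N e (p * r) l :=
    xt_ind (ψ := fun l => ph N e (p * r) l)
      (ut_inj (left_ne_zero_of_mul (h ▸ p0)) (right_ne_zero_of_mul (h ▸ p0))) (fun μ => by
      have := ph_ut (q := q) (h ▸ cp) r μ
      rw [h, Int.cast_natCast] at this
      exact congrArg _ this) l
  simp only [hk, Pi.add_apply, Pi.sub_apply, Pi.smul_apply, Finset.sum_apply, up_ut, smul_eq_mul,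
    k p 0 1 (mul_one _), fun j => k 1 j p (one_mul _)]
  rw [xt_ind (ψ := fun l => ph N e (p * r) l) (smul_right_injective _ p0) fun μ => by
    have := ph_smul hs cp r μ
    rw [Int.cast_natCast, hJ, one_mul] at this
    exact congrArg _ this, om_cnt hp fun h => hn (h ▸ (dvd_mul_right 2 N).mul_right e), ← sum_mul]
  push_cast
  ring

/-! ### theta kernels -/

theorem xt_sum {f : Fm → Fm} (hf : Function.Injective f) {B : ℝ} (h : ∀ l, ‖φ l‖ ≤ B) {G : Fm → ℂ}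
    (hG : Summable fun l => ‖G l‖) : HasSum (fun l => xt f φ l * G l) (∑' l, φ l * G (f l)) :=
  (hf.hasSum_iff fun l hl => by simp [xt, Function.extend_apply' _ _ _ hl]).1
    ((Kf.bsum h (hG.comp_injective hf)).of_norm.hasSum.congr_fun fun l => by
      simp [xt, hf.extend_apply])

variable {τ w : ℂ}

theorem gau_sc (hk : k ≠ 0) {l m : Fm} {w' : ℂ} (h1 : disc l = k ^ 2 * disc m)
    (h2 : pz l w = k * pz m w') : gau (ν * k ^ 2) l τ w = gau ν m τ w' := by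
  have d : (k : ℝ) ≠ 0 := Nat.cast_ne_zero.2 hk
  have d' : (k : ℂ) ≠ 0 := Nat.cast_ne_zero.2 hk
  rw [gau, gau, h1, h2]
  push_cast
  congr 2 <;> field_simp

theorem th_hk (hν : 0 < ν) (hp : 0 < p) (hτ : 0 < τ.im) (hw : 0 < w.im) {B : ℝ}
    (h : ∀ l, ‖φ l‖ ≤ B) :
    th0 (ν * p ^ 2) (hk p φ) τ w = th0 ν φ τ (p * w) + ∑ j ∈ range p, th0 ν φ τ ((w + j) / p) -
      (p + 1) * th0 ν φ τ w ∧
    th1 (ν * p ^ 2) (hk p φ) τ w = p ^ 2 * th1 ν φ τ (p * w) +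
      ∑ j ∈ range p, th1 ν φ τ ((w + j) / p) - (p + 1) * p * th1 ν φ τ w := by
  have p0 : (p : ℤ) ≠ 0 := Nat.cast_ne_zero.2 hp.ne'
  have p1 : (p : ℝ) ≠ 0 := Nat.cast_ne_zero.2 hp.ne'
  have p2 : (p : ℂ) ≠ 0 := Nat.cast_ne_zero.2 hp.ne'
  have w1 : (w.im : ℂ) ≠ 0 := ofReal_ne_zero.2 hw.ne'
  have r1 : (p * w : ℂ).re = p * w.re := by simp
  have r2 : (p * w : ℂ).im = p * w.im := by simp
  have k (G : Fm → ℂ) (hG : Summable fun l => ‖G l‖) : ∑' l, hk p φ l * G l =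
      ∑' l, φ l * G (ut p 0 1 l) + ∑ j ∈ range p, ∑' l, φ l * G (Kf.up p j l) -
        (p + 1) * ∑' l, φ l * G ((p : ℤ) • l) :=
    ((((xt_sum (ut_inj p0 one_ne_zero) h hG).add (hasSum_sum fun (j : ℕ) _ =>
      xt_sum (Kf.up_inj hp j) h hG)).sub ((xt_sum (smul_right_injective _ p0) h hG).mul_left
        _)).congr_fun fun l => by
          simp only [hk, Pi.add_apply, Pi.sub_apply, Pi.smul_apply, Finset.sum_apply, smul_eq_mul, sub_mul,
            add_mul, sum_mul, mul_assoc]).tsum_eq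
  have s := Kf.gsum (ν := ν * p ^ 2) (by positivity) hτ hw
  have g1 (l : Fm) : gau (ν * p ^ 2) (ut p 0 1 l) τ w = gau ν l τ (p * w) :=
    gau_sc hp.ne' (by simp [disc_ut]) (by
      simp only [pz, ut, map_mul, normSq_natCast, r1, r2]
      push_cast
      field_simp
      ring)
  have g2 (l : Fm) : gau (ν * p ^ 2) ((p : ℤ) • l) τ w = gau ν l τ w :=
    gau_sc hp.ne' (disc_smul _ _) (by
      simp only [pz, Prod.smul_fst, Prod.smul_snd, smul_eq_mul]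
      push_cast
      ring)
  have v1 (l : Fm) : evq (ut p 0 1 l) (conj w) / w.im ^ 2 =
      p ^ 2 * (evq l (conj (p * w)) / (p * w : ℂ).im ^ 2) := by
    simp only [evq, ut, map_mul, map_natCast, r2]
    push_cast
    field_simp
    ring
  have v2 (l : Fm) : evq ((p : ℤ) • l) (conj w) / w.im ^ 2 = p * (evq l (conj w) / w.im ^ 2) := by
    simp only [evq, Prod.smul_fst, Prod.smul_snd, smul_eq_mul]
    push_cast
    ring
  simp only [th0, th1, mul_assoc, k _ s.1, k _ s.2, g1, g2, v1, v2, fun j l => (Kf.gau_up (ν := ν)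
      (τ := τ) hp hw j l).1, fun j l => (Kf.gau_up (ν := ν) (τ := τ) hp hw j l).2, Int.cast_natCast,
    add_comm w, mul_left_comm (φ _) (p : ℂ), mul_left_comm (φ _) ((p : ℂ) ^ 2), tsum_mul_left,
    ← mul_sum]
  constructor <;> ring

/-! ### the laws of `ph`, also for `e = 1` -/

variable [NeZero N]

omit [NeZero N] in
theorem unit (ho : Odd e) (hc : N.Coprime e) (hk : k ∣ 4) : IsUnit (e : ZMod (k * N)) :=
  (ZMod.isUnit_iff_coprime _ _).2 (Nat.Coprime.mul_right (Nat.Coprime.coprime_dvd_right hk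
    (Nat.Coprime.pow_right 2 (Nat.coprime_two_right.2 ho))) hc.symm)

/-- the part of level `N` -/
theorem B3_N {δ : ℕ} (u : IsUnit (δ : ZMod (2 * N))) (r : ZMod (2 * N)) (m : Fm) :
    (B3 N (2 * N) fun l => (if (N : ℤ) ∣ l.1 ∧ (δ * l.2.1 : ZMod (2 * N)) = r then 1 else 0) *
      ee (bil l m / (2 * N : ℕ))) = (if (N : ℤ) ∣ m.1 then (N : ℂ) else 0) *
        ZMod.stdAddChar (-((δ : ZMod (2 * N))⁻¹ * r * m.2.1) : ZMod (2 * N)) := by
  have n0 : (N : ℂ) ≠ 0 := Nat.cast_ne_zero.2 (NeZero.ne N)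
  have e (y z : ℕ) : ee (bil (0, y, z) m / (2 * N : ℕ)) =
      ee ((m.1 * z : ℤ) / N) * ZMod.stdAddChar (-(y * m.2.1) : ZMod (2 * N)) := by
    rw [show (-((y : ZMod (2 * N)) * m.2.1)) = ((-(y * m.2.1) : ℤ) : ZMod (2 * N)) by simp,
      ← ee_std, ← ee_add, bil]
    congr 1
    push_cast
    field_simp
    ring
  rw [B3, sum_eq_single 0 (fun x hx h0 => by
    have : ¬ (N : ℤ) ∣ x := fun d => h0 (Nat.eq_zero_of_dvd_of_lt (Int.natCast_dvd_natCast.1 d)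
      (mem_range.1 hx))
    simp [this]) (by simp [NeZero.pos])]
  simp only [Nat.cast_zero, e, dvd_zero, true_and, Int.cast_natCast, ← mul_sum, ← sum_mul, sum_ee]
  rw [sum_zmod (2 * N) fun y => (if δ * y = r then 1 else 0) * ((if (N : ℤ) ∣ m.1 then (N : ℂ) else 0) *
    ZMod.stdAddChar (-(y * m.2.1) : ZMod (2 * N))), sum_eq_single ((δ : ZMod (2 * N))⁻¹ * r) (fun y _ hy => by
      rw [if_neg fun d => hy (by rw [← d, ← mul_assoc, ZMod.inv_mul_of_unit _ u, one_mul]),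
        zero_mul]) (by simp), if_pos (by rw [← mul_assoc, ZMod.mul_inv_of_unit _ u, one_mul]),
    one_mul]

theorem ft_ph {δ : ℕ} (ho : Odd δ) (hs : Squarefree δ) (hc : N.Coprime δ) (r : ZMod (2 * N)) (m : Fm) :
    ft (N * δ) (fun l => ph N δ r l) m = ∑ s, sm N δ r s * ph N δ s m := by
  have n0 := NeZero.ne N
  have d0 := hs.ne_zero
  have n1 : (N : ℂ) ≠ 0 := Nat.cast_ne_zero.2 n0
  have d1 : (δ : ℂ) ≠ 0 := Nat.cast_ne_zero.2 d0
  have c1 := Nat.isCoprime_iff_coprime.2 hc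
  have c2 : IsCoprime ((2 * N : ℕ) : ℤ) δ :=
    Nat.isCoprime_iff_coprime.2 ((Nat.coprime_two_left.2 ho).mul_left hc)
  have z : ((2 * N : ℕ) : ZMod (2 * N)) = 0 := ZMod.natCast_self _
  have e (l l' : Fm) : (ph N δ r ((δ : ℤ) • l + ((2 * N : ℕ) : ℤ) • l') : ℂ) *
      ee (bil ((δ : ℤ) • l + ((2 * N : ℕ) : ℤ) • l') m / (2 * N * δ : ℕ)) =
      (if (N : ℤ) ∣ l.1 ∧ (δ * l.2.1 : ZMod (2 * N)) = r then 1 else 0) * ee (bil l m / (2 * N : ℕ)) *
        (J((2 * N : ℕ) | δ) * (cg δ l' * ee (bil l' m / δ))) := by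
    rw [ph_eq, cg_add hs c2, bil_add, show ((δ * bil l m + (2 * N : ℕ) * bil l' m : ℤ) : ℂ) /
      (2 * N * δ : ℕ) = bil l m / (2 * N : ℕ) + bil l' m / δ by push_cast; field_simp, ee_add,
      if_congr (Q := (N : ℤ) ∣ l.1 ∧ (δ * l.2.1 : ZMod (2 * N)) = r) (and_congr ?_ ?_) rfl rfl]
    · simp only [Int.cast_mul, Int.cast_ite, Int.cast_one, Int.cast_zero]
      ring
    · exact (dvd_cg (b := δ * l.1) ⟨2 * l'.1, by simp; ring⟩).trans
        ⟨c1.dvd_of_dvd_mul_left, fun d => d.mul_left _⟩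
    · simp only [Prod.snd_add, Prod.fst_add, Prod.smul_snd, Prod.smul_fst, smul_eq_mul, Int.cast_add,
        Int.cast_mul, Int.cast_natCast, z, zero_mul, add_zero]
  have k := crt3 n0 (mul_ne_zero two_ne_zero n0) d0 c1 c2 (by simp) dvd_rfl c2.symm
    (f := fun l => ph N δ r l * ee (bil l m / (2 * N * δ : ℕ))) fun l l' d1 d2 d3 => by
      rw [ph_congr r d1 d2 d3, ee_dvd (by positivity) (bil_dvd (by simp [mul_assoc]) d1 d2 d3 m)]
  simp only [e] at k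
  rw [B3_mul, B3_N (unit ho hc (by norm_num)), show (B3 δ δ fun l => J((2 * N : ℕ) | δ) * (cg δ l * ee (bil l m / δ))) =
    J((2 * N : ℕ) | δ) * T3 δ m by simp only [T3, B3, mul_sum], T3_eq ho hs] at k
  rw [ft, ← mul_assoc 2, show (2 * (N * δ : ℕ) : ℂ) = (2 * N * δ : ℕ) by push_cast; ring]
  refine (congrArg _ k).trans ?_
  have j : (J(2 | δ) : ℂ) * J(2 | δ) = 1 := by exact_mod_cast J_cop (Nat.coprime_two_left.2 ho)
  have s : √(2 * (N * δ : ℕ) ^ 3 : ℝ) = N * δ * √(2 * N * δ) := by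
    rw [show (2 * (N * δ : ℕ) ^ 3 : ℝ) = (N * δ) ^ 2 * (2 * N * δ) by push_cast; ring,
      Real.sqrt_mul (by positivity), Real.sqrt_sq (by positivity)]
  rw [sum_eq_single (m.2.1 : ZMod (2 * N)) (fun s _ hs => by simp [ph_eq, hs.symm]) (by simp),
    ph_eq, sm, kap, s, Nat.cast_mul, jacobiSym.mul_left]
  generalize ZMod.stdAddChar (-((δ : ZMod (2 * N))⁻¹ * r * m.2.1) : ZMod (2 * N)) = w
  split_ifs with a b b
  · push_cast
    field_simp
    linear_combination gs δ * J(N | δ) * cg δ m * w / (√(2 * N * δ : ℝ) : ℝ) * j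
  · exact absurd ⟨a, rfl⟩ b
  · exact absurd b.1 a
  · simp

end Ps

open Ps

variable {N p e : ℕ} [NeZero N]

/-- the data of the smoothing -/
structure Sm (N p e : ℕ) : Prop where
  pr : p.Prime
  one : (2 * N : ℤ) ∣ p - 1
  odd : Odd e
  sq : Squarefree e
  cop : N.Coprime e
  res : J(p | e) = 1

theorem Sm.cp (h : Sm N p e) : p.Coprime e := by
  by_contra c
  have := NeZero.mk h.sq.ne_zero
  exact one_ne_zero (h.res.symm.trans (jacobiSym.eq_zero_iff_not_coprime.2 c))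

theorem Sm.nd (h : Sm N p e) : ¬ p ∣ 2 * N * e := fun d => by
  rcases (h.pr.dvd_mul).1 d with d | d
  · exact (Nat.prime_iff_prime_int.1 h.pr).not_dvd_one ((dvd_sub_right (dvd_refl (p : ℤ))).1
      (Dvd.dvd.trans (by exact_mod_cast d) h.one))
  · exact h.pr.coprime_iff_not_dvd.1 h.cp d

theorem Sm.zm (h : Sm N p e) : (p : ZMod (2 * N)) = 1 := by
  exact_mod_cast Hd.cast_eq (n := 2 * N) (a := p) (b := 1) (by exact_mod_cast h.one)

/-- `ps = (T_p - p - 1) ph` -/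
theorem ps_hk (h : Sm N p e) (r : ZMod (2 * N)) :
    (fun l => (ps N p e r l : ℂ)) = hk p fun l => ph N e r l := funext fun l => by
  rw [hk_ph h.pr h.nd h.sq h.res, h.zm, one_mul, ps, Int.cast_mul]

theorem ft_ps (h : Sm N p e) (r : ZMod (2 * N)) (m : Fm) :
    ft (N * e * p ^ 2) (fun l => ps N p e r l) m = ∑ s, sm N e r s * ps N p e s m := by
  rw [ps_hk h, (hk_main (mul_ne_zero (NeZero.ne N) h.sq.ne_zero) h.pr.ne_zero fun l m =>
    congrArg Int.cast (ph_congr r (by simp) ⟨m.2.1, by push_cast; ring⟩ (by simp))).2,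
    funext (Ps.ft_ph h.odd h.sq h.cop r), hk_lin]
  simp only [← ps_hk h]

theorem tm_ps (h : Sm N p e) {r : ZMod (2 * N)} {l : Fm} (k : ps N p e r l ≠ 0) :
    ∃ n : ℤ, disc l = p ^ 2 * (e * n) ∧ In N e (-n) r ∧
      ee (-(disc l : ℂ) / (4 * (N * e * p ^ 2 : ℕ))) = tm N e r := by
  obtain ⟨⟨a, ha⟩, hb, ⟨d, hd⟩, -⟩ := ph_ne (ps_ne k).2
  obtain ⟨n, rfl⟩ := ((Nat.isCoprime_iff_coprime.2 h.cp).pow_left (m := 2)).dvd_of_dvd_mul_left
    (hd ▸ (ps_ne k).1)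
  obtain ⟨b, hb'⟩ := dvd_val (n := 2 * N) l.2.1
  obtain ⟨c, hc⟩ := h.one
  have n1 : (N : ℂ) ≠ 0 := Nat.cast_ne_zero.2 (NeZero.ne N)
  have d1 : (e : ℂ) ≠ 0 := Nat.cast_ne_zero.2 h.sq.ne_zero
  have p1 : (p : ℂ) ≠ 0 := Nat.cast_ne_zero.2 h.pr.ne_zero
  have i : In N e (-n) r := ⟨a * l.2.2 + b * l.2.1 + N * b ^ 2 + c * (1 + N * c) * e * n, by
    rw [disc, ha, sub_eq_iff_eq_add.1 hc] at hd
    rw [← hb, sub_eq_iff_eq_add.1 hb']
    push_cast
    linear_combination hd⟩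
  have : ((e * n : ℤ) : ZMod (4 * N)) = (((r.val : ℤ) ^ 2 : ℤ) : ZMod (4 * N)) :=
    (Hd.cast_eq (by simpa [In, sub_eq_add_neg] using i)).symm
  refine ⟨n, by rw [hd]; ring, i, ?_⟩
  push_cast at this
  rw [tm, ← this, ← mul_assoc, ZMod.inv_mul_of_unit _ (Ps.unit h.odd h.cop dvd_rfl), one_mul,
    ← Int.cast_neg (R := ZMod (4 * N)), ← ee_std, hd]
  congr 1
  push_cast
  field_simp

theorem sum_om (hp : p.Prime) (b : ℤ) : ∑ c ∈ range (p ^ 2), (om p (0, b, c) : ℂ) = 0 := by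
  have p0 : (p : ℤ) ≠ 0 := Nat.cast_ne_zero.2 hp.ne_zero
  have pp := Nat.prime_iff_prime_int.1 hp
  by_cases d : (p : ℤ) ∣ b
  swap
  · refine sum_eq_zero fun c _ => ?_
    rw [show om p (0, b, c) = 0 from by_contra fun h => d (pp.dvd_of_dvd_pow (n := 2)
      ((dvd_pow_self _ two_ne_zero).trans (by simpa [disc] using om_ne h))), Int.cast_zero]
  obtain ⟨b, rfl⟩ := d
  have k (i : ℕ) : (p : ℤ) ∣ i ∧ i < p ↔ i = 0 := ⟨fun h => Nat.eq_zero_of_dvd_of_lt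
    (Int.natCast_dvd_natCast.1 h.1) h.2, fun h => by simp [h, hp.pos]⟩
  have e (i j : ℕ) (hi : i ∈ range p) (hj : j ∈ range p) : (om p (0, p * b, (i + p * j : ℕ)) : ℂ) =
      1 + (if i = 0 then (if (p : ℤ) ∣ b then 0 else 1) - (p : ℂ) - 1 +
        if j = 0 then (if (p : ℤ) ∣ b then (p : ℂ) else 0) else 0 else 0) := by
    split_ifs with hi0 hb hj0 hj0
    any_goals subst hi0
    any_goals rw [show ((0, p * b, (0 + p * j : ℕ)) : Fm) = (p : ℤ) • ((0, b, j) : Fm) by simp,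
      om_smul hp.ne_zero]
    · simp [hb, hj0]
      ring
    · rw [if_neg fun h => hj0 ((k j).1 ⟨h.2.2, mem_range.1 hj⟩), J_dvd hp.one_lt (by
        simpa [disc] using dvd_pow hb two_ne_zero)]
      push_cast
      ring
    any_goals
      rw [if_neg fun h => hb h.2.1, show disc (0, b, j) = b ^ 2 by simp [disc],
        jacobiSym.sq_one' (gcd_one hp hb)]
      push_cast
      ring
    rw [om, if_neg fun h => hi0 ((k i).1 ⟨by simpa using h.2.2, mem_range.1 hi⟩),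
      if_pos (by simp [disc, mul_pow])]
    simp
  rw [sq, sum_box2, sum_congr rfl fun i hi => sum_congr rfl fun j hj => e i j hi hj]
  simp only [sum_add_distrib, sum_comm (s := range p) (t := range p) (f := fun i j =>
    if i = 0 then _ else _), sum_ite_eq', mem_range, hp.pos, if_true, sum_const, card_range,
    nsmul_eq_mul]
  split_ifs <;> ring

/-- the sums at the cusps -/
theorem sum_ps (h : Sm N p e) (r : ZMod (2 * N)) (γ : SL(2, ℤ)) (b : ℤ) :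
    ∑ c ∈ range (N * e * p ^ 2), ps N p e r (fa (0, b, c) γ) = 0 := by
  have c1 : IsCoprime ((N * e : ℕ) : ℤ) (p ^ 2 : ℕ) := Nat.isCoprime_iff_coprime.2
    ((h.pr.coprime_iff_not_dvd.2 fun d => h.nd (mul_assoc 2 N e ▸ d.mul_left 2)).symm.pow_right 2)
  have q : P1 (N * e) fun c => ph N e r (fa (0, b, c) γ) := fun x y ⟨k, d⟩ => by
    rw [sub_eq_iff_eq_add.1 d]
    refine ph_congr r ⟨k * γ 1 0 ^ 2, ?_⟩ ⟨k * γ 1 0 * γ 1 1, ?_⟩ ⟨k * γ 1 1 ^ 2, ?_⟩ <;>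
      simp only [fa] <;> push_cast <;> ring
  have o : P1 (p ^ 2) fun c => om p (0, b, c) := fun x y d =>
    om_congr h.pr.ne_zero (by simp) (by simp) (by exact_mod_cast d)
  have n0 := mul_ne_zero (NeZero.ne N) h.sq.ne_zero
  have p0 := pow_ne_zero 2 h.pr.ne_zero
  have z : ∑ v ∈ range (p ^ 2), om p (0, b, (N * e : ℕ) * v) = 0 := by
    have := crt1 one_ne_zero p0 dvd_rfl isCoprime_one_left (one_dvd _) c1.symm
      (f := fun c => om p (0, b, c)) (by rwa [one_mul])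
    rw [one_mul, show ∑ c ∈ range (p ^ 2), om p (0, b, c) = 0 by exact_mod_cast sum_om h.pr b] at this
    simpa using this.symm
  simp only [ps, om_fa]
  rw [crt1 n0 p0 dvd_rfl c1 dvd_rfl c1.symm (f := fun c => om p (0, b, c) *
    ph N e r (fa (0, b, c) γ)) fun x y d => congrArg₂ _ (o x y (Dvd.dvd.trans (by simp) d))
      (q x y (Dvd.dvd.trans (by simp) d))]
  refine sum_eq_zero fun u _ => ?_
  refine (sum_congr rfl (g := fun v : ℕ => om p (0, b, (N * e : ℕ) * v) *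
    ph N e r (fa (0, b, (p ^ 2 : ℕ) * u) γ)) fun v _ => congrArg₂ _ (o _ _ (by simp))
      (q _ _ (by simp))).trans ?_
  rw [← sum_mul, z, zero_mul]

/-- **row PHS** -/
theorem phs (h : Sm N p e) :
    (∀ r, Per (N * e * p ^ 2) fun l => ps N p e r l) ∧
    (∀ r m, ft (N * e * p ^ 2) (fun l => ps N p e r l) m = ∑ s, sm N e r s * ps N p e s m) ∧
    (∀ r l, ps N p e r l ≠ 0 → ee (-(disc l : ℂ) / (4 * (N * e * p ^ 2 : ℕ))) = tm N e r) ∧
    (∀ r l, ∀ γ ∈ Gamma0 N, ps N p e r (fa l γ) = ps N p e r l) ∧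
    (∀ r l, ps N p e (-r) (-l) = eps e * ps N p e r l) ∧
    (∀ r (γ : SL(2, ℤ)) (b : ℤ),
      ∑ c ∈ range (N * e * p ^ 2), ps N p e r (fa (0, b, c) γ) = 0) ∧
    (∀ r, ps N p e r 0 = 0) ∧
    2 * N * kap N e ^ 2 = eps e ∧ 2 * N * normSq (kap N e) = 1 := by
  have n0 : (0 : ℝ) < 2 * N := by have := NeZero.pos N; positivity
  have n1 : (N : ℂ) ≠ 0 := Nat.cast_ne_zero.2 (NeZero.ne N)
  have j := J_cop h.cop
  refine ⟨ps_per h.pr.ne_zero, ft_ps h, fun r l k => (tm_ps h k).choose_spec.2.2,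
    fun r l γ => ps_fa h.odd r l, ps_neg h.sq, sum_ps h, fun r => ps_zero, ?_, ?_⟩
  · rw [kap_eq h.odd h.sq, div_pow, mul_pow, e4_sq h.odd, ← ofReal_pow, Real.sq_sqrt n0.le, sq,
      ← Int.cast_mul, j]
    push_cast
    field_simp
  · rw [kap_eq h.odd h.sq, map_div₀, map_mul, e4_norm, normSq_intCast, normSq_ofReal,
      Real.mul_self_sqrt n0.le, ← Int.cast_mul, j, Int.cast_one, mul_one, mul_one_div_cancel n0.ne']

/-- the theta kernels of `ps` -/
theorem th_ps (h : Sm N p e) (r : ZMod (2 * N)) {τ w : ℂ} (hτ : 0 < τ.im) (hw : 0 < w.im) :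
    th0 (N * e * p ^ 2) (fun l => ps N p e r l) τ w =
      th0 (N * e) (fun l => ph N e r l) τ (p * w) +
        ∑ j ∈ range p, th0 (N * e) (fun l => ph N e r l) τ ((w + j) / p) -
          (p + 1) * th0 (N * e) (fun l => ph N e r l) τ w ∧
    th1 (N * e * p ^ 2) (fun l => ps N p e r l) τ w =
      p ^ 2 * th1 (N * e) (fun l => ph N e r l) τ (p * w) +
        ∑ j ∈ range p, th1 (N * e) (fun l => ph N e r l) τ ((w + j) / p) -
          (p + 1) * p * th1 (N * e) (fun l => ph N e r l) τ w := by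
  rw [ps_hk h]
  exact th_hk (Nat.mul_pos (NeZero.pos N) h.odd.pos) h.pr.pos hτ hw (Kf.ph_bd N e r)

/-- the same through the operator on invariant functions -/
theorem th0_ps (h : Sm N p e) (r : ZMod (2 * N)) {τ : ℂ} (hτ : 0 < τ.im) (z : ℍ) :
    th0 (N * e * p ^ 2) (fun l => ps N p e r l) τ z =
      (Tdiv p - (p + 1 : ℂ) • 1 : Module.End ℂ (ℍ → ℂ))
        (fun w : ℍ => th0 (N * e) (fun l => ph N e r l) τ w) z := by
  have l2 : (0 : ℝ) < p := Nat.cast_pos.2 h.pr.pos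
  rw [(th_ps h r hτ z.im_pos).1]
  refine congrArg₂ _ (congrArg₂ _ ?_ (sum_congr rfl fun j _ => ?_)) rfl <;> beta_reduce <;> rw [coe_of]
  · simp [l2, z.im_pos]
  · simp [div_natCast_im, l2, z.im_pos]

omit [NeZero N] in
theorem Pz1.sm (h : Pz1 N p) : Sm N p 1 :=
  ⟨h.pr, Dvd.dvd.trans ⟨2, by ring⟩ h.one, odd_one, squarefree_one, N.coprime_one_right,
    jacobiSym.one_right _⟩

/-- **row PHS for `e = 1`** -/
theorem phs1 (h : Pz1 N p) :
    (∀ r, Per (N * p ^ 2) fun l => ps N p 1 r l) ∧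
    (∀ r m, ft (N * p ^ 2) (fun l => ps N p 1 r l) m = ∑ s, sm N 1 r s * ps N p 1 s m) ∧
    (∀ r l, ps N p 1 r l ≠ 0 → ee (-(disc l : ℂ) / (4 * (N * p ^ 2 : ℕ))) = tm N 1 r) ∧
    (∀ r l, ∀ γ ∈ Gamma0 N, ps N p 1 r (fa l γ) = ps N p 1 r l) ∧
    (∀ r l, ps N p 1 (-r) (-l) = ps N p 1 r l) ∧
    (∀ r (γ : SL(2, ℤ)) (b : ℤ), ∑ c ∈ range (N * p ^ 2), ps N p 1 r (fa (0, b, c) γ) = 0) ∧
    (∀ r, ps N p 1 r 0 = 0) ∧ 2 * N * kap N 1 ^ 2 = 1 ∧ 2 * N * normSq (kap N 1) = 1 := by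
  simpa only [mul_one, eps, jacobiSym.one_right, one_mul, Int.cast_one] using phs h.sm

theorem ps_bd (r : ZMod (2 * N)) (l : Fm) : ‖(ps N p e r l : ℂ)‖ ≤ p + 1 := by
  rw [ps, Int.cast_mul, norm_mul, ← mul_one (p + 1 : ℝ)]
  refine mul_le_mul ?_ (Kf.ph_bd N e r l) (norm_nonneg _) (by positivity)
  have : (0 : ℝ) ≤ p := p.cast_nonneg
  rw [om]
  split_ifs
  · simpa using by positivity
  · push_cast
    refine (norm_sub_le _ _).trans ?_
    rcases jacobiSym.trichotomy (disc l / p ^ 2) p with e | e | e <;> simp [e, add_comm]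
  · simp
  · simpa using by positivity

end Vale.Agent.P014T.Z

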