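import Vale.Agent.P004Z.Kf.Ari

/-!
# P014T, block Z1: arithmetic of the smoothed test functions
-/

set_option autoImplicit false
set_option linter.all false

open Finset
open scoped NumberTheorySymbols Classical

noncomputable section

namespace Vale.Agent.P014T.Z

open Vale.Agent.P004Z Vale.Agent.P004Z.Kf Vale.Agent.P004Z.Kf.Ar Vale.Agent.P004Z.Hd
  Vale.Agent.P004Z.Gq

/-- the weights of the second smoothing -/
def rh (p j : ℕ) : ℤ := if j = 0 then 1 - p else 1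

/-- the smoothed sum over the translates -/
def tv (p : ℕ) (φ : Fm → ℤ) (l : Fm) : ℤ :=
  ∑ j ∈ Finset.range p, rh p j * Function.extend (up p j) φ 0 l

namespace A1

/-- the weighted sum over the translates -/
def tw (p : ℕ) (ρ : ℤ → ℤ) (φ : Fm → ℤ) (l : Fm) : ℤ :=
  ∑ j ∈ range p, ρ j * Function.extend (up p j) φ 0 l

/-- invariance under the translations -/
def Tr (φ : Fm → ℤ) : Prop :=
  ∀ a b c t : ℤ, φ (a, b + 2 * a * t, a * t ^ 2 + b * t + c) = φ (a, b, c)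

variable {p M M₀ : ℕ} {ρ : ℤ → ℤ} {φ φ' : Fm → ℤ}

theorem per_j (h0 : p ≠ 0) (hρ : P1 p ρ) (hT : Tr φ) (l : Fm) :
    P1 p fun j => ρ j * Function.extend (up p j) φ 0 l := by
  rintro j j' ⟨t, ht⟩
  obtain rfl : j = j' + p * t := by linarith
  simp only
  rw [hρ (j' + p * t) j' ⟨t, by ring⟩,
    ext_of (x := 1) (j' := j') (l' := l) (φ' := φ) h0 (fun m' e => ?_) fun k => ?_, one_mul]
  · obtain ⟨a, b, c⟩ := m'
    refine ⟨(a, b + 2 * a * (-t), a * (-t) ^ 2 + b * (-t) + c), ?_, by rw [hT, one_mul]⟩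
    rw [← e]
    simp only [up]
    refine Prod.ext ?_ (Prod.ext ?_ ?_) <;> simp only <;> ring
  · obtain ⟨⟨a, b, c⟩, rfl⟩ := k
    refine ⟨(a, b + 2 * a * t, a * t ^ 2 + b * t + c), ?_⟩
    simp only [up]
    refine Prod.ext ?_ (Prod.ext ?_ ?_) <;> simp only <;> ring

theorem tor_tw (h0 : p ≠ 0) (hρ : P1 p ρ)
    (hu : ∀ u u' : ℤ, (p : ℤ) ∣ u * u' - 1 → ∀ j, ρ (u' * j) = ρ j) (hφ : Tor M₀ φ) (hT : Tr φ)
    (hM : M₀ * p ^ 2 ∣ M) : Tor M (tw p ρ φ) := by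
  obtain ⟨k, rfl⟩ := hM
  refine ⟨fun l m => sum_congr rfl fun j _ => ?_, fun u u' ⟨t, ht⟩ l => ?_⟩
  · rw [ext_of (x := 1) (j' := j) (l' := l) (φ' := φ) h0 (fun m' e => ?_) fun c => ?_, one_mul]
    · obtain ⟨a, b, c⟩ := m'
      refine ⟨(a + M₀ * (p ^ 2 * k * m.1), b + 2 * M₀ * (p * k * (m.2.1 - m.1 * j)),
        c + M₀ * (k * (m.2.2 - 2 * m.2.1 * j + m.1 * j ^ 2))), ?_, ?_⟩
      · rw [← e]
        simp only [up]
        refine Prod.ext ?_ (Prod.ext ?_ ?_) <;> simp only <;> push_cast <;> ring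
      · rw [one_mul]
        exact hφ.per (a, b, c) (_, _, _)
    · obtain ⟨⟨b, h1⟩, c, h2⟩ := mem_up.1 c
      push_cast at h1 h2
      exact mem_up.2 ⟨⟨b - 2 * M₀ * (p * k * (m.2.1 - m.1 * j)), by linear_combination h1⟩,
        c - M₀ * (k * (m.2.2 - 2 * m.2.1 * j + m.1 * j ^ 2)), by linear_combination h2⟩
  · push_cast at ht
    have hp : (p : ℤ) ∣ u * u' - 1 := ⟨M₀ * p * k * t, by linear_combination ht⟩
    rw [tw, tw, ← sum_unit h0 (per_j h0 hρ hT _) hp]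
    refine sum_congr rfl fun j _ => ?_
    rw [ext_of (x := 1) (j' := j) (l' := l) (φ' := φ) h0 (fun m' e => ?_) fun c => ?_, one_mul,
      hu u u' hp]
    · obtain ⟨a, b, c⟩ := m'
      refine ⟨(u * a, b + 2 * M₀ * (-(p * k * t * a * j)), u' * (c + M₀ * (k * t * a * j ^ 2))),
        ?_, ?_⟩
      · rw [← e]
        simp only [up]
        refine Prod.ext rfl (Prod.ext ?_ ?_) <;> simp only
        · linear_combination (2 * a * j) * ht
        · linear_combination (u' * a * j ^ 2) * ht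
      · have e1 := hφ.tor u u' ⟨p ^ 2 * k * t, by linear_combination ht⟩
          (a, b + 2 * M₀ * (-(p * k * t * a * j)), c + M₀ * (k * t * a * j ^ 2))
        have e2 := hφ.per (a, b, c) (0, -(p * k * t * a * j), k * t * a * j ^ 2)
        simp only [mul_zero, add_zero] at e1 e2
        rw [one_mul, e1, e2]
    · obtain ⟨⟨b, h1⟩, c, h2⟩ := mem_up.1 c
      simp only at h1 h2
      refine mem_up.2 ⟨⟨b + 2 * M₀ * p * k * t * l.1 * j, by
        linear_combination h1 + (2 * l.1 * j) * ht⟩, u * c - M₀ * k * t *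
          (l.2.2 - l.2.1 * j + l.1 * j ^ 2 + u * u' * l.1 * j ^ 2), ?_⟩
      linear_combination u * h2 - (l.2.2 - l.2.1 * j + l.1 * j ^ 2 + u * u' * l.1 * j ^ 2) * ht

theorem tw_smul (h0 : p ≠ 0) {β : ℤ} (hβ : IsCoprime β p) (h : ∀ m, φ' (β • m) = φ m) (l : Fm) :
    tw p ρ φ l = tw p ρ φ' (β • l) := by
  refine sum_congr rfl fun j _ => ?_
  rw [ext_of (x := 1) (j := j) (j' := j) (l := β • l) (l' := l) (φ := φ') (φ' := φ) h0
    (fun m' e => ⟨β • m', ?_, by rw [h, one_mul]⟩) fun c => ?_, one_mul]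
  · rw [← e]
    simp only [up, Prod.smul_mk, Prod.smul_fst, Prod.smul_snd, smul_eq_mul]
    refine Prod.ext rfl (Prod.ext ?_ ?_) <;> simp only <;> ring
  · obtain ⟨a, b⟩ := mem_up.1 c
    simp only [Prod.smul_fst, Prod.smul_snd, smul_eq_mul] at a b
    exact mem_up.2 ⟨hβ.symm.dvd_of_dvd_mul_left (a.trans (dvd_of_eq (by ring))),
      hβ.pow_right.symm.dvd_of_dvd_mul_left (b.trans (dvd_of_eq (by ring)))⟩

theorem tw_gc (h0 : p ≠ 0) {d : ℕ} (hc : p.Coprime d)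
    (h : ∀ m, φ' m = if (d : ℤ) ∣ disc m then φ m * gc d m else 0) (l : Fm) :
    tw p ρ φ' l = if (d : ℤ) ∣ disc l then tw p ρ φ l * gc d l else 0 := by
  have c3 : IsCoprime (d : ℤ) p := (Nat.isCoprime_iff_coprime.2 hc).symm
  have key : ∀ j : ℤ, Function.extend (up p j) φ' 0 l =
      (if (d : ℤ) ∣ disc l then gc d l else 0) * Function.extend (up p j) φ 0 l :=
    fun j => ext_of h0 (fun m e => ⟨m, e, by
      have e1 : (d : ℤ) ∣ disc l ↔ (d : ℤ) ∣ disc m := by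
        rw [← e, disc_up]
        exact ⟨fun c => c3.pow_right.dvd_of_dvd_mul_left c, fun c => c.mul_left _⟩
      rw [h]
      simp only [e1]
      by_cases k : (d : ℤ) ∣ disc m
      · rw [if_pos k, if_pos k, ← e, gc_up hc k, mul_comm]
      · simp [k]⟩) id
  simp only [tw, key, sum_mul]
  split_ifs
  · exact sum_congr rfl fun j _ => by ring
  · simp

theorem tw_ne (h0 : p ≠ 0) {l : Fm} (h : tw p ρ φ l ≠ 0) :
    ∃ (j : ℤ) (m : Fm), up p j m = l ∧ φ m ≠ 0 := by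
  obtain ⟨j, -, hj⟩ := exists_ne_zero_of_sum_ne_zero h
  have h1 := right_ne_zero_of_mul hj
  by_cases k : ∃ m, up p j m = l
  · obtain ⟨m, rfl⟩ := k
    rw [(up_inj h0 _).extend_apply] at h1
    exact ⟨j, m, rfl, h1⟩
  · rw [Function.extend_apply' _ _ _ k] at h1
    exact (h1 rfl).elim

/-- `rh` on the integers -/
def rz (p : ℕ) (j : ℤ) : ℤ := if (p : ℤ) ∣ j then 1 - p else 1

theorem tv_eq (p : ℕ) (φ : Fm → ℤ) : tv p φ = tw p (rz p) φ := by
  funext l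
  refine sum_congr rfl fun j hj => ?_
  rw [rh, rz, if_congr (P := j = 0) (Q := (p : ℤ) ∣ (j : ℤ)) ⟨fun e => by simp [e], fun e =>
    Nat.eq_zero_of_dvd_of_lt (Int.natCast_dvd_natCast.1 e) (mem_range.1 hj)⟩ rfl rfl]

theorem rz_p1 (p : ℕ) : P1 p (rz p) := fun x y h => by
  rw [rz, rz, if_congr (dvd_iff_dvd_of_dvd_sub h) rfl rfl]

theorem rz_unit (u u' : ℤ) (h : (p : ℤ) ∣ u * u' - 1) (j : ℤ) : rz p (u' * j) = rz p j := by
  obtain ⟨t, ht⟩ := h
  refine if_congr ⟨fun ⟨s, hs⟩ => ⟨u * s - t * j, by linear_combination u * hs - j * ht⟩,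
    fun c => c.mul_left _⟩ rfl rfl

theorem sum_rh (h0 : p ≠ 0) (X Y : ℤ) :
    ∑ j ∈ range p, rh p j * (if j = 0 then X else Y) = (1 - p) * (X - Y) := by
  obtain ⟨q, rfl⟩ := Nat.exists_eq_succ_of_ne_zero h0
  rw [sum_range_succ']
  simp [rh]
  ring

end A1

open A1

variable {p M M₀ : ℕ} {φ φ' : Fm → ℤ}

theorem tv_tor (h0 : p ≠ 0) (hφ : Tor M₀ φ) (hT : Tr φ) (hM : M₀ * p ^ 2 ∣ M) :
    Tor M (tv p φ) := by
  rw [tv_eq]
  exact tor_tw h0 (rz_p1 p) rz_unit hφ hT hM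

theorem tv_smul (h0 : p ≠ 0) {β : ℤ} (hβ : IsCoprime β p) (h : ∀ m, φ' (β • m) = φ m) (l : Fm) :
    tv p φ l = tv p φ' (β • l) := by
  rw [tv_eq, tv_eq]
  exact tw_smul h0 hβ h l

theorem tv_gc (h0 : p ≠ 0) {d : ℕ} (hc : p.Coprime d)
    (h : ∀ m, φ' m = if (d : ℤ) ∣ disc m then φ m * gc d m else 0) (l : Fm) :
    tv p φ' l = if (d : ℤ) ∣ disc l then tv p φ l * gc d l else 0 := by
  rw [tv_eq, tv_eq]
  exact tw_gc h0 hc h l

theorem tv_ne (h0 : p ≠ 0) {l : Fm} (h : tv p φ l ≠ 0) :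
    ∃ (j : ℤ) (m : Fm), up p j m = l ∧ φ m ≠ 0 := by
  rw [tv_eq] at h
  exact tw_ne h0 h

theorem tv_c (h0 : p ≠ 0) (φ : Fm → ℤ) (k : ℤ) : tv p φ (0, 0, k) = 0 := by
  have e := sum_rh h0 (Function.extend (up p 0) φ 0 (0, 0, k))
    (Function.extend (up p 0) φ 0 (0, 0, k))
  rw [sub_self, mul_zero] at e
  refine (sum_congr rfl fun j _ => ?_).trans e
  rw [ite_self, ext_of (x := 1) (j' := 0) (l' := (0, 0, k)) (φ' := φ) h0
    (fun m e => ⟨m, ?_, (one_mul _).symm⟩) fun c => ?_, one_mul]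
  · obtain ⟨a, b, c⟩ := m
    simp only [up, Prod.mk.injEq] at e ⊢
    obtain ⟨rfl, e1, e2⟩ := e
    exact ⟨rfl, by linear_combination e1, by linear_combination e2 + j * e1⟩
  · rw [mem_up] at c ⊢
    simpa using c

theorem tv_a (hp : p.Prime) (φ : Fm → ℤ) (k Y : ℤ)
    (h : ∀ s j : ℤ, k = p ^ 2 * s → ¬ (p : ℤ) ∣ j → φ (k, -(2 * p * s * j), s * j ^ 2) = Y) :
    tv p φ (k, 0, 0) = (1 - p) * (φ (k, 0, 0) - if (p : ℤ) ^ 2 ∣ k then Y else 0) := by
  have h0 := hp.ne_zero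
  rw [← sum_rh h0]
  refine sum_congr rfl fun j hj => ?_
  congr 1
  by_cases c : j = 0
  · subst c
    have e : (k, (0 : ℤ), (0 : ℤ)) = up p ((0 : ℕ) : ℤ) (k, 0, 0) := by simp [up]
    rw [if_pos rfl]
    conv_lhs => rw [e, (up_inj h0 _).extend_apply]
  · have nj : ¬ (p : ℤ) ∣ (j : ℤ) := fun e =>
      c (Nat.eq_zero_of_dvd_of_lt (Int.natCast_dvd_natCast.1 e) (mem_range.1 hj))
    rw [if_neg c]
    split_ifs with c'
    · obtain ⟨s, hs⟩ := c'
      have e : (k, (0 : ℤ), (0 : ℤ)) = up p j (k, -(2 * p * s * j), s * j ^ 2) := by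
        simp only [up]
        refine Prod.ext rfl (Prod.ext ?_ ?_) <;> simp only <;> rw [hs] <;> ring
      rw [e, (up_inj h0 _).extend_apply, h s j hs nj]
    · refine Function.extend_apply' _ _ _ fun e => c' ?_
      have e2 := (mem_up.1 e).2
      simp only [zero_mul, sub_zero, zero_add] at e2
      have cj : IsCoprime ((p : ℤ) ^ 2) ((j : ℤ) ^ 2) :=
        ((Nat.prime_iff_prime_int.1 hp).irreducible.coprime_iff_not_dvd.2 nj).pow
      exact cj.dvd_of_dvd_mul_right e2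

end Vale.Agent.P014T.Z
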