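import Vale.Agent.P014T.Z.Defs
import Vale.Agent.P014T.Z.Ari0
import Vale.Agent.P004Z.Kf.Mt
import Vale.Agent.P004Z.Kf.Li
import Vale.Agent.P004Z.Lf.St
import Vale.Agent.P004Z.Ar.Ao2
import Vale.Agent.P004Z.Gl.Glue
import Vale.Agent.P014T.Ht.Glx

/-! # P014T, block Z1: the rows -/

open Complex UpperHalfPlane MeasureTheory Filter Topology CongruenceSubgroup
open scoped Real MatrixGroups ComplexConjugate NumberTheorySymbols Classical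

noncomputable section

namespace Vale.Agent.P014T.Z

open P004Z P004Z.Kf P004Z.Ar
open P004N (S2 QE TE RN Pr ALw EF)
open P004Z.Lf (sn)
open P004Z.Fin (Ov Far Pk)
open P004Z.H (sp Fo GG tt PlC iE io cj lam)
open Vale.Agent.P022.H218.L3 Vale.Agent.P004H.H666 Vale.Agent.P004M.TE
open Vale.Agent.P022K.F0.Cf (od ev)

/-- Hecke polynomials -/
abbrev FA (N : ℕ) : Type := FreeAlgebra ℤ (PA (2 * N * 1))

/-- the eigenvalue -/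
abbrev lmb {N : ℕ} (a : ℕ → ℤ) (P : FA N) : ℤ := FreeAlgebra.lift ℤ (fun l : PA (2 * N * 1) => a l.1) P

/-- projectors -/
def Pj (N : ℕ) (a : ℕ → ℤ) (P : FA N) : Prop := ∀ g c, S2 N g → QE g c →
  ∃ κ : ℂ, FreeAlgebra.lift ℤ (fun l : PA (2 * N * 1) => TcL l.1) P c = fun n => κ * a n

/-- a projector in weight `3/2` -/
def PJ3 : Prop := ∀ (N : ℕ) [NeZero N] (a : ℕ → ℤ), ∃ P : FA N, lmb a P ≠ 0 ∧ ∀ c, Adm 1 c →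
  ∃ x, IsS 1 x ∧ Eig 1 (2 * N * 1) a x ∧ ∀ y, IsS 1 y → pr y (Gl.act 1 P c) = Gl.B y x

/-! ## divisors -/

def EXD : Prop := ∀ (N d S : ℕ) (β : ℤ), 0 < N → Hg N d β → S ≠ 0 →
  ∃ p, Dz N p d β ∧ (S : ℤ) ∣ p - 1

def DIV1 : Prop := ∀ (N : ℕ) [NeZero N],
  (∀ (n : ℕ) r, Inv N (Zp N 1 n r) ∧ Dv N (cs (Zp N 1 n r)) ∧ (0 < n →
    Zd N 1 n r = Zp N 1 n r + Zp N 1 n (-r)) ∧
    ∀ z, Zp N 1 n r z ≠ 0 → 0 < n ∧ In N 1 n r ∧ ∃ l, disc l = -n ∧ evq l z = 0) ∧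
  ∀ l : ℕ, l.Prime → ¬ l ∣ 2 * N * 1 → ∀ c : PP N, Zc 1 (Tt 1 l c) = Tdiv l (Zc 1 c)

def BD1 : Prop := ∀ (N : ℕ) [NeZero N] (p d : ℕ) (β : ℤ), Dz N p d β →
  Inv N (B1 N p d β) ∧ Dv N (cs (B1 N p d β)) ∧
  cs (B1 N p d β) = Tdiv p (cs (B0 N d β)) - (p + 1 : ℂ) • cs (B0 N d β) ∧
  (∀ s, Reps (Gamma0 N) (B1 N p d β) s → ∑ z ∈ s, B1 N p d β z = 0) ∧
  ∀ z, B1 N p d β z ≠ 0 → Zp N 1 (p ^ 2 * d) (β : ZMod (2 * N)) z ≠ 0 ∧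
    ∀ (n : ℕ) l, disc l = -n → evq l z = 0 → IsSquare (1 * d * n)

/-- the divisors through the ideal classes of `K` -/
def KL1 : Prop := ∀ (N : ℕ) [NeZero N] (p d M k : ℕ) (β : ℤ), Dz N p d β → 2 * N * p ∣ M →
  M ∣ (2 * N * p) ^ k → ∃ (β' : ℤ) (t : Finset Fm) (w : Fm → ℍ), (2 * N : ℤ) ∣ β' - β ∧
    Cm d M β' t w ∧ ∀ (A : Type) [AddCommGroup A] (Φ : ℍ → A), Inv N Φ →
      (∀ s, Reps (Gamma0 N) (B1 N p d β) s → ∑ z ∈ s, B1 N p d β z • Φ z =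
        ∑ Q ∈ t, ∑ j ∈ Finset.range p, rh p j • Φ (ofComplex ((j + w Q) / p))) ∧
      ∀ s, Reps (Gamma0 N) (B0 N d β) s → ∑ z ∈ s, B0 N d β z • Φ z = ∑ Q ∈ t, Φ (w Q) ∧
        ∑ z ∈ s, B0 N d β z • Φ z = ∑ Q ∈ t, Φ (ofComplex (w Q / p)) ∧
        ∑ z ∈ s, B0 N d β z • Φ z = ∑ Q ∈ t, Φ (ofComplex (p * w Q))

/-- the Fricke involution -/
def WN1 : Prop := ∀ (N : ℕ) [NeZero N] (p d : ℕ) (β : ℤ), Dz N p d β → 0 < ix N ∧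
  ∀ s F, Reps (Gamma0 N) (B1 N p d β) s → Inv N F → ∀ η C : ℂ,
    (∀ z z' : ℍ, (z' : ℂ) = -1 / (N * z) → F z' = η * F z + C) →
    ws (4 * N) (Zc 1 (U1 p (Finsupp.single (d, (β : ZMod (2 * N))) 1))) F =
      ix N * (1 + η) * evd s (B1 N p d β) F

/-! ## lifts -/

def LIFT1 : Prop := ∀ (N : ℕ) [NeZero N] (p : ℕ), Pz1 N p → ∀ a (x : Cf N) c, Harm 1 a x c →
  ∃ Φ, Green (Gamma0 N) (Zc 1 (U1 p c)) Φ ∧ ∀ z : ℍ,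
    (∀ i ∈ c.support, ∀ l, disc l = -((p : ℤ) ^ 2 * i.1) → evq l z ≠ 0) →
    Tendsto (reg1 p a x z) atTop (𝓝 (Φ z))

def EXP1 : Prop := ∀ (N : ℕ) [NeZero N] (p : ℕ), Pz1 N p →
  ∀ (a : ℤ → ZMod (2 * N) → ℤ) (c : PP N), Harm 1 (fun n r => (a n r : ℂ)) 0 c →
    ∃ Φ, Green (Gamma0 N) (Zc 1 (U1 p c)) Φ ∧ ∃ (k : ℕ) (b : ℕ → ℤ) (C Y : ℝ), 0 < k ∧
      ∀ z : ℍ, Y < z.im → ∃ S, HasSum (fun j : ℕ => Bo.bx 1 b j * ee (j * z)) S ∧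
        k * (Φ z).re = C + S.re

def BOR1 : Prop := ∀ (N : ℕ) [NeZero N] (p : ℕ), Pz1 N p → ∀ c : PP N, WH 1 c →
  Prin (Gamma0 N) (Zc 1 (U1 p c))

/-! ## the kernel -/

/-- the `log q` parts -/
def ka1 {N : ℕ} (p d : ℕ) (β : ℤ) (q n : ℕ) (r : ZMod (2 * N)) : ℚ :=
  (∑ k ∈ Pm (p ^ 4 * d * n), 2 * ∑ i ∈ k.2.divisorsAntidiagonal,
    tv p (ps N p d (β * r)) (-i.1, k.1, i.2) * i.2.factorization q : ℤ)

def KER1 : Prop := ∀ (N : ℕ) [NeZero N] (p d : ℕ) (β : ℤ) (s : Finset ℍ), Dz N p d β →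
  Reps (Gamma0 N) (B1 N p d β) s → Lgs (N := N) 1 d (ka1 p d β) ∧ ∃ ℓ : Cf N → ℂ,
    (∀ a x c (Φ : ℍ → ℂ), Harm 1 a x c → Off 1 d c →
      (∀ z ∈ s, Tendsto (reg1 p a x z) atTop (𝓝 (Φ z))) →
      evd s (B1 N p d β) Φ = pr (lg (ka1 p d β)) c + ℓ x) ∧ ℓ 0 = 0 ∧
    ∀ x, IsS 1 x → ∀ G a (k : ℂ), EF N G a → Van1 a 1 →
      (∀ z, shi d (β : ZMod (2 * N)) x z = k * G z) →
      ℓ x = -conj (k * (a p - p - 1) ^ 2 * L1 a / (√(N * d) : ℝ))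

/-! ## heights -/

/-- the degree -/
structure Dg {N : ℕ} {a : ℕ → ℤ} (D : Pz N a) (m : ℕ) : Prop where
  pos : 0 < m
  deg : ∀ t, D.Nc t → Dv N (cs (D.pb t)) ∧ ws (4 * N) (cs (D.pb t)) 1 = m

/-- **the area formula** -/
def DEGV : Prop := ∀ (N : ℕ) G a (D : Pz N a) (m : ℕ) (c : ℝ), RN N G a → Dg D m → Cov D.Λ c →
  (m * c * D.w ^ 2 : ℂ) = 4 * π ^ 2 * ix N * pet2 N G G

def ACT1 : Prop := ∀ (N : ℕ) [NeZero N] σ, ∃ c s χ, Act N 1 σ c s χ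

def OFF1 : Prop := ∀ (N : ℕ) [NeZero N] (p d : ℕ) (β : ℤ) (s : Finset ℍ), Dz N p d β →
  (∀ b ∈ s, Zp N 1 (p ^ 2 * d) (β : ZMod (2 * N)) b ≠ 0) → ∀ (n : ℕ) (r : ZMod (2 * N)),
  ¬ IsSquare (1 * d * n) →
  (∀ q V, Ov V q → Spl d q ∨ J(-(((1 : ℕ) : ℤ) * n) | q) = 1 → Far V s (Zd N 1 n r)) ∧
  {q : ℕ | ∃ V, Ov V q ∧ ¬ Far V s (Zd N 1 n r)}.Finite

/-- the local symbols at the finite places -/
def EXI1 : Prop := ∀ (N : ℕ) [NeZero N] (p d : ℕ) (β : ℤ) (s : Finset ℍ) a (D : Pz N a)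
  (B : ℍ → ℤ) (V : AbsoluteValue ℂ ℝ) (q : ℕ), Dz N p d β →
  (∀ b ∈ s, Zp N 1 (p ^ 2 * d) (β : ZMod (2 * N)) b ≠ 0) → ∑ b ∈ s, B b = 0 → Ov V q →
  ∃ I : (ℍ → ℤ) →+ ℝ, (∀ n, Far V s n → I n = 0) ∧
    ∀ n h t u, Dec D s n h t u → I n = Sy D B s V h t u

/-- `l` is the height pairing with `Y` -/
def Hp {A B : ℤ} (V : ℕ → AbsoluteValue ℂ ℝ) (Y : H.EC A B) (l : H.EC A B →+ ℝ) : Prop :=
  ∀ y Q : (Cv Qb (A : ℚ) (B : ℚ)).Point, iE y = Y →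
    l (iE Q) = H.hh (Gl.vq V) (y + Q) - H.hh (Gl.vq V) y - H.hh (Gl.vq V) Q

/-- the generating series of an additive map -/
def xg {N : ℕ} {a : ℕ → ℤ} (D : Pz N a) (l : ℂ →+ ℂ) : Cf N := fun n r =>
  if n = 0 then 0 else ws (4 * N) (cs (Zd N 1 n r)) (l ∘ D.I)

def GENX1 : Prop := ∀ (N : ℕ) [NeZero N] G a (D : Pz N a), RN N G a →
  (∀ c : PP N, (∀ r, c (0, r) = 0) → Dv N (Zc 1 c) ∧ ∀ P : FA N, (∀ r, Gl.act 1 P c (0, r) = 0) ∧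
    Zc 1 (Gl.act 1 P c) = FreeAlgebra.lift ℤ (fun l : PA (2 * N * 1) => Tdiv l.1) P (Zc 1 c)) ∧
  ∀ l, D.Ki l → IsS 1 (xg D l) ∧ Eig 1 (2 * N * 1) a (xg D l) ∧
    ∀ c : PP N, (∀ r, c (0, r) = 0) → pr (xg D l) c = ws (4 * N) (Zc 1 c) (l ∘ D.I) ∧
      ∀ P : FA N, pr (xg D l) (Gl.act 1 P c) = lmb a P * pr (xg D l) c

/-- a real valued additive map on the curve, as a map on `ℂ` -/
def lC {N : ℕ} {a : ℕ → ℤ} (D : Pz N a) (l : D.E →+ ℝ) : ℂ →+ ℂ :=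
  (Complex.ofRealHom.toAddMonoidHom.comp l).comp D.ex

/-- the arithmetic side: `J q` is the sum of the local symbols at the two places over `q` -/
structure Ao {N : ℕ} [NeZero N] {a : ℕ → ℤ} (D : Pz N a) (d : ℕ) (B : ℍ → ℤ) (s : Finset ℍ)
    (V : ℕ → AbsoluteValue ℂ ℝ) (m : ℕ) (l : D.E →+ ℝ) (J : ℕ → (ℍ → ℤ) →+ ℝ)
    (ι : ℕ → ℕ → ZMod (2 * N) → ℚ) : Prop where
  fo : ∀ b ∈ s, D.pi b ∈ Fo D.A D.B
  hp : Hp V (∑ b ∈ s, B b • D.pi b) l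
  lgs : Lgs 1 d ι
  far : ∀ q n, q.Prime → Far (V q) s n → Far (cV (V q)) s n → J q n = 0
  sy : ∀ q n h t u, q.Prime → Dec D s n h t u →
    J q n = Sy D B s (V q) h t u + Sy D B s (cV (V q)) h t u
  io : ∀ (q : ℕ) (c : PP N) n (x : ℚ), q.Prime → IsInt c → Off 1 d c → cs n = Zc 1 c →
    J q n = x * Real.log q → pr (fun n r => (ι q n r : ℂ)) c = x
  prin : ∀ c Φ, IsInt c → Off 1 d c → Prin (Gamma0 N) (Zc 1 c) → Green (Gamma0 N) (Zc 1 c) Φ →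
    evd s B Φ + pr (lg ι) c = 0
  ht : ∀ (P : FA N) c Φ Φ', Pj N a P → IsInt c → Off 1 d c → Green (Gamma0 N) (Zc 1 c) Φ →
    Green (Gamma0 N) (Zc 1 (Gl.act 1 P c)) Φ' →
    m * (evd s B Φ' + pr (lg ι) (Gl.act 1 P c)) = -2 * lmb a P * pr (xg D (lC D l)) c
  dec : ∀ (P : FA N) c Φ n, Pj N a P → IsInt c → Off 1 d c → Green (Gamma0 N) (Zc 1 c) Φ →
    cs n = Zc 1 (Gl.act 1 P c) → ∃ (k : ℕ) (u : ℂ), 0 < k ∧ D.ex u ∈ Fo D.A D.B ∧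
      (∀ l', D.Ki l' → m * l' u = k * lmb a P * pr (xg D l') c) ∧
      (∀ q : ℕ, q.Prime → ∃ x : ℚ, J q n = x * Real.log q) ∧
      ∀ t, D.Gd s (D.ex t) → D.Gd s (D.ex t + D.ex u) → ∃ h, Dec D s ((k : ℤ) • n) h t u

def ARO1 : Prop := ∀ (N : ℕ) [NeZero N] G a (D : Pz N a) (p d : ℕ) (β : ℤ) s V (m : ℕ),
  RN N G a → Dz N p d β → Reps (Gamma0 N) (B1 N p d β) s → PlC V → Dg D m →
  ∃ l J ι, Ao D d (B1 N p d β) s V m l J ι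

/-- the Heegner point -/
def yK {N : ℕ} {a : ℕ → ℤ} (D : Pz N a) (B : ℍ → ℤ) (s : Finset ℍ) : D.E := ∑ b ∈ s, B b • D.pi b

def YK1 : Prop := ∀ (N : ℕ) [NeZero N] G a (D : Pz N a) (p d : ℕ) (β : ℤ) s s₀, RN N G a →
  Dz N p d β → Reps (Gamma0 N) (B1 N p d β) s → Reps (Gamma0 N) (B0 N d β) s₀ →
  yK D (B1 N p d β) s = (a p - p - 1) • yK D (B0 N d β) s₀

/-- the Heegner point is rational -/
def YQ1 : Prop := ∀ (N : ℕ) [NeZero N] G a (D : Pz N a) (d : ℕ) (β : ℤ) s₀, RN N G a →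
  ALw N N G 1 → Van1 a 1 → Hg N d β → Reps (Gamma0 N) (B0 N d β) s₀ →
  (∀ z z' : ℍ, (z' : ℂ) = -1 / (N * z) → D.I z' = D.I z) ∧
  ∀ σ, sp σ (yK D (B0 N d β) s₀) = yK D (B0 N d β) s₀

/-! ## the glue -/

/-- the finite parts cancel prime by prime -/
def FINP : Prop := ∀ (N : ℕ) [NeZero N] G a (D : Pz N a) (p d : ℕ) (β : ℤ) s V m l J ι,
  RN N G a → Dz N p d β → Reps (Gamma0 N) (B1 N p d β) s → Ao D d (B1 N p d β) s V m l J ι →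
  ∀ c x, Adm 1 c → Off 1 d c → IsS 1 x → Eig 1 (2 * N * 1) a x →
    (∀ y, IsS 1 y → pr y c = Gl.B y x) → ∀ q,
      pr (fun n r => (ka1 p d β q n r : ℂ)) c + pr (fun n r => (ι q n r : ℂ)) (U1 p c) = 0

/-- the generating series of the heights is the Shintani lift -/
def MAIN : Prop := ∀ (N : ℕ) [NeZero N] G a (D : Pz N a) (p d : ℕ) (β : ℤ) s V m l J ι,
  RN N G a → Van1 a 1 → Dz N p d β → Reps (Gamma0 N) (B1 N p d β) s → Dg D m →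
  Ao D d (B1 N p d β) s V m l J ι →
  (2 * (√(N * d) : ℝ) * pet2 N G G) • xg D (lC D l) =
    (m * (a p - p - 1) * L1 a) • sn d (β : ZMod (2 * N)) G

/-- **the target** -/
def GZX : Prop := ∀ (N : ℕ) G a (D : Pz N a) (d : ℕ) (β : ℤ) s₀ (c : ℝ) V, RN N G a →
  ALw N N G 1 → Van1 a 1 → Hg N d β → Reps (Gamma0 N) (B0 N d β) s₀ → Cov D.Λ c → PlC V →
  ∃ y : (Cv Qb (D.A : ℚ) (D.B : ℚ)).Point, iE y = yK D (B0 N d β) s₀ ∧ (∀ g, ga g y = y) ∧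
    (2 * D.w ^ 2 * c * H.hh (Gl.vq V) y : ℝ) = π ^ 2 * (√d : ℝ) * L1 a * L0 a d

end Vale.Agent.P014T.Z
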