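import Vale.Agent.P014T.Z.Ker0
import Vale.Agent.P014T.Z.Phs
import Vale.Agent.P014T.Z.St
import Vale.Agent.P014T.Gx.One

/-! # P014T, block Z1: the data of the kernel without twist -/

open Complex MeasureTheory Filter Topology Set
open scoped Real ComplexConjugate NumberTheorySymbols UpperHalfPlane

noncomputable section

namespace Vale.Agent.P014T.Z

open P004N (S2 QE TE EF)
open P004Z P004Z.Kf P004Z.Du P004Z.Du.Pe Ka Gx
open UpperHalfPlane (ofComplex ofComplex_apply)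

namespace K1

variable {N : ℕ} [NeZero N] {p d M ν δ : ℕ} {β β' : ℤ} {z τ : ℂ} {x : Cf N}

theorem tv_law (hν : 0 < ν) (hp : 0 < p) (hτ : 0 < τ.im) (hz : 0 < z.im)
    {φ : ZMod (2 * N) → Fm → ℤ} {B : ℝ} (h : ∀ r l, ‖(φ r l : ℂ)‖ ≤ B) {r : ZMod (2 * N)}
    {g : ZMod (2 * N) → ℂ} (p1 : Per ν fun l => φ r l)
    (p2 : ∀ m, ft ν (fun l => φ r l) m = ∑ s, g s * φ s m) :
    th0 (ν * p ^ 2) (fun l => tv p (φ r) l) (-1 / τ) z =
      (hw τ)⁻¹ * ∑ s, g s * th0 (ν * p ^ 2) (fun l => tv p (φ s) l) τ z ∧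
    th1 (ν * p ^ 2) (fun l => tv p (φ r) l) (-1 / τ) z =
      -(τ * hw τ)⁻¹ * ∑ s, g s * th1 (ν * p ^ 2) (fun l => tv p (φ s) l) τ z := by
  have k : ∀ G : Fm → ℂ, (Summable fun l => ‖G l‖) →
      ∑' l, (∑ r, g r * φ r l) * G l = ∑ r, g r * ∑' l, φ r l * G l := fun G hG =>
    ((hasSum_sum fun r _ => (bsum (h r) hG).of_norm.hasSum.mul_left (g r)).congr_fun fun l => by
      simp only [Finset.sum_mul, mul_assoc]).tsum_eq
  have li : ∀ z : ℂ, 0 < z.im →
      th0 ν (fun l => ∑ r, g r * φ r l) τ z = ∑ r, g r * th0 ν (fun l => φ r l) τ z ∧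
      th1 ν (fun l => ∑ r, g r * φ r l) τ z = ∑ r, g r * th1 ν (fun l => φ r l) τ z := fun z hz => by
    have s := gsum hν hτ hz
    simp only [th0, th1, mul_assoc, k _ s.1, k _ s.2]
    simp only [Finset.mul_sum, mul_left_comm (g _), and_self]
  simp only [th_tv hν hp (S_pos hτ) hz (h _), th_tv hν hp hτ hz (h _),
    ths _ _ hν p1 τ _ hτ (im_j hp hz _), funext p2, li _ (im_j hp hz _), Finset.mul_sum,
    mul_left_comm]
  exact ⟨Finset.sum_comm, Finset.sum_comm⟩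

theorem th1_int' (hx : IsS δ x) (hν : 0 < ν) (hz : 0 < z.im) {φ : Fm → ℂ} {B : ℝ}
    (h : ∀ l, ‖φ l‖ ≤ B) (r : ZMod (2 * N)) :
    IntegrableOn (fun τ => fn x r τ * th1 ν φ τ z / τ.im ^ 2) FD := by
  have B0 : 0 < 1 + B := by linarith [(norm_nonneg _).trans (h 0)]
  have B1 : ((1 + B : ℝ) : ℂ) ≠ 0 := ofReal_ne_zero.2 B0.ne'
  refine ((th1_int hx hν hz (φ := fun l => ((1 + B : ℝ) : ℂ)⁻¹ * φ l) (fun l => ?_) r).const_mul
    ((1 + B : ℝ) : ℂ)).congr (.of_forall fun τ => ?_)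
  · rw [norm_mul, norm_inv, norm_real, Real.norm_of_nonneg B0.le, inv_mul_le_one₀ B0]
    linarith [h l]
  · simp only [th1, mul_assoc, tsum_mul_left]
    field_simp

/-- linearity of the lift -/
theorem sh_lin (hx : IsS δ x) (hν : 0 < ν) {ι : Type} (s : Finset ι) (c w : ι → ℂ)
    (hw : ∀ i, 0 < (w i).im) {φ : ZMod (2 * N) → Fm → ℂ} {B : ℝ} (h : ∀ r l, ‖φ r l‖ ≤ B)
    {F : ZMod (2 * N) → ℂ → ℂ}
    (e : ∀ r (τ : ℂ), 0 < τ.im → F r τ = ∑ i ∈ s, c i * th1 ν (φ r) τ (w i)) :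
    ∫ τ in FD, (∑ r, fn x r τ * F r τ) / τ.im ^ 2 =
      ∑ i ∈ s, c i * ∫ τ in FD, (∑ r, fn x r τ * th1 ν (φ r) τ (w i)) / τ.im ^ 2 := by
  simp only [Finset.sum_div, ← integral_const_mul]
  rw [← integral_finsetSum _ fun i _ => (integrable_finsetSum _ fun r _ =>
    th1_int' hx hν (hw i) (h r) r).const_mul _]
  refine setIntegral_congr_fun Sk.closed_FD.measurableSet fun τ hτ => ?_
  simp only [e _ τ hτ.2.2, Finset.mul_sum, Finset.sum_div]
  rw [Finset.sum_comm]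
  exact Finset.sum_congr rfl fun _ _ => Finset.sum_congr rfl fun _ _ => by ring

theorem ax (h : Pz1 N p) : Ax N p := ⟨h.pr, (Nat.modEq_iff_dvd.2 (by exact_mod_cast h.one)).symm⟩

theorem du (h : Z.Dz N p d β) : Du1 N d (β : ZMod (2 * N)) := by
  have m := h.dat.m8
  obtain ⟨u, hu⟩ := h.dat.rt
  obtain ⟨s, hs⟩ := Gq.sq_dvd (N := N) (by exact_mod_cast Gq.dvd_val (n := 2 * N) β)
  exact ⟨⟨Nat.odd_iff.2 (by omega), h.dat.sq, by omega, Nat.isCoprime_iff_coprime.1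
    (Hd.cop_d h.dat).of_mul_left_left.of_mul_left_right⟩, ⟨s + 4 * u, by linear_combination hs + hu⟩,
    (gau_row N p d β h.dat).2.2.2.2.1⟩

theorem spl (h : Z.Dz N p d β) : J(-d | p) = 1 ∧ J(p | d) = 1 := by
  have o := (ax h.toPz1).odd
  have := h.dat.spl p h.pr (fun e => o.not_two_dvd_nat (e ▸ dvd_rfl)) (dvd_mul_left _ _)
  exact ⟨this, (gau_row N p d β h.dat).2.2.2.2.2.1 p o ▸ this⟩

theorem smd (h : Z.Dz N p d β) : Sm N p d :=
  ⟨h.pr, h.toPz1.sm.one, (du h).ok.odd, h.dat.sq, (du h).ok.cop, (spl h).2⟩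

variable (p β) in
/-- the test function -/
abbrev qs (r : ZMod (2 * N)) : Fm → ℤ := tv p (ps N p 1 (β * r))

theorem pg_eq (h : Pz1 N p) (hM : 2 * N * p ^ 4 ∣ M) (hS : Sp M d β') (hβ : (2 * N : ℤ) ∣ β' - β)
    (r : ZMod (2 * N)) : pg d (qs p β r) = tv p (ps N p d (β * r)) :=
  funext fun l => ((ari1 r h.pr h.one hM hS hβ).2.2.1 l).symm

theorem cd (h : Z.Dz N p d β) (hM : 2 * N * p ^ 4 ∣ M) (hS : Sp M d β')
    (hβ : (2 * N : ℤ) ∣ β' - β) : Cd p (p ^ 4) M d β' (qs (N := N) p β) := by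
  have A := fun r : ZMod (2 * N) => ari1 r h.pr h.one hM hS hβ
  have k := ax h.toPz1
  have D := du h
  have p0 := h.pr.pos
  have N0 := NeZero.pos N
  have d0 : 0 < d := D.ok.odd.pos
  have E := pg_eq h.toPz1 hM hS hβ
  refine ⟨k.ok, hS, h.dat.m8, by positivity, ⟨_, fun r => tv_bd (ps_bd _)⟩, fun r => (A r).1,
    fun τ z hτ hz r => ?_, fun τ z hτ hz r => ?_, fun r l e => ?_, fun r => dz0 fun j => ?_,
    fun r => ?_⟩
  · simp only [← fun r => (A r).2.1, show N * p ^ 4 = N * 1 * p ^ 2 * p ^ 2 by ring, k.sm]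
    exact (tv_law (by positivity) p0 hτ hz ps_bd (ps_per p0.ne' r) (ft_ps h.toPz1.sm r)).1
  · obtain ⟨u, hu⟩ := D.un
    simp only [E, show N * p ^ 4 * d = N * d * p ^ 2 * p ^ 2 by ring]
    rw [(tv_law (by positivity) p0 hτ hz ps_bd (ps_per p0.ne' _) (ft_ps (smd h) _)).2,
      ← Equiv.sum_comp u.mulLeft]
    simp only [Units.mulLeft_apply, hu, fun s => star_eq_iff_star_eq.1 (sm_dual (D.dual k) r s) |>.symm,
      star_def, map_mul, map_neg, conj_I, neg_neg]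
  · rw [E] at e
    simpa only [k.In, Nat.cast_pow] using (A r).2.2.2.1 l e
  · simp [pg, ((A r).2.2.2.2 j).1]
  · have c : IsCoprime (p : ℤ) N := (Nat.isCoprime_iff_coprime.2 k.ok.cop).symm
    refine dz_poly (μ := N * d) (by positivity) p0 (B := 1) (g := fun j =>
      ((if (N : ℤ) ∣ j ∧ (β * r : ZMod (2 * N)) = 0 then gc d (j, 0, 0) else 0 : ℤ) : ℝ))
      (fun j m => ?_) (fun j => ?_) (fun j => ?_) (Finset.range 5)
      (fun i => (1 - p) * ![(1 : ℝ), -(p + 1), p - 1, p + 1, -p] (Fin.ofNat 5 i))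
      (by simp [Finset.sum_range_succ, Fin.ofNat]; ring)
      (by simp [Finset.sum_range_succ, Fin.ofNat]; ring) fun j => ?_
    · have q : ∀ t ∈ d.primeFactors, (t : ℤ) ∣ (N * d : ℕ) * m := fun t ht =>
        (Int.natCast_dvd_natCast.2 ((Nat.dvd_of_mem_primeFactors ht).mul_left N)).mul_right m
      have g2 : gc d (j + (N * d : ℕ) * m, 0, 0) = gc d (j, 0, 0) := Finset.prod_congr rfl
        fun t ht => by simp only [dvd_add_left (q t ht), Hd.J_congr (n := t)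
          (a := j + (N * d : ℕ) * m) (b := j) (by simpa using q t ht)]
      simp only [g2, dvd_add_left (show (N : ℤ) ∣ (N * d : ℕ) * m from ⟨d * m, by push_cast; ring⟩)]
    · split_ifs
      · simpa only [norm_intCast] using gc_bd d _
      · simp
    · have := Hd.gc_smul D.ok.sq (Hd.cop_d h.dat).of_mul_left_right (j, 0, 0)
      simp only [Prod.smul_mk, smul_eq_mul, mul_zero, (spl h).2, one_mul] at this
      simp only [this, Hd.dv_iff c]
    · simp only [pg, ((A r).2.2.2.2 j).2, disc, Finset.sum_range_succ, Fin.ofNat]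
      by_cases e : (N : ℤ) ∣ j ∧ (β * r : ZMod (2 * N)) = 0
      · simp [e]
        split_ifs <;> ring
      · simp [e]

/-- the lift of the test function -/
theorem sh_eq (h : Z.Dz N p d β) (hx : IsS 1 x) {G : ℍ → ℂ} {a : ℕ → ℤ} {k : ℂ}
    (e : EF N G a) (hk : ∀ z, shi d (β : ZMod (2 * N)) x z = k * G z) (hz : 0 < z.im) :
    ∫ τ in FD, (∑ r, fn x r τ * th1 (N * d * p ^ 2) (fun l => ps N p d (β * r) l) τ z) / τ.im ^ 2 =
      k * p * (a p - p - 1) * G (ofComplex z) := by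
  have D := du h
  have p0 := h.pr.pos
  have n : 0 < N * d := mul_pos (NeZero.pos N) D.ok.odd.pos
  have pn : ¬ p ∣ N := h.pr.coprime_iff_not_dvd.1 (ax h.toPz1).ok.cop.symm
  have pz : 0 < (p * z : ℂ).im := by simpa using mul_pos (Nat.cast_pos.2 p0) hz
  have S : ∀ z : ℂ, 0 < z.im → ∫ τ in FD, (∑ r, fn x r τ *
      th1 (N * d) (fun l => ph N d (β * r) l) τ z) / τ.im ^ 2 = k * G (ofComplex z) := fun z hz => by
    rw [← hk, shi, Hd.coe_of hz]
  rw [sh_lin hx n (Finset.range (p + 2)) (fun i => if i < p then 1 else if i = p then p ^ 2 else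
    -(p * (p + 1))) (fun i => if i < p then (i + z) / p else if i = p then p * z else z) (fun i => by
      split_ifs; exacts [im_j p0 hz i, pz, hz]) (fun r => ph_bd N d (β * r)) fun r τ hτ => ?_]
  · rw [Finset.sum_range_succ, Finset.sum_range_succ, Finset.sum_congr rfl fun i hi => by
      rw [if_pos (Finset.mem_range.1 hi), if_pos (Finset.mem_range.1 hi), S _ (im_j p0 hz i),
        one_mul], ← Finset.mul_sum, K1.hk h.pr pn e.qe e.te hz]
    simp only [lt_irrefl, if_false, if_true, Nat.not_lt.2 p.le_succ, Nat.succ_ne_self, S _ pz, S _ hz]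
    ring
  · rw [Finset.sum_range_succ, Finset.sum_range_succ, Finset.sum_congr rfl fun i hi => by
      rw [if_pos (Finset.mem_range.1 hi), if_pos (Finset.mem_range.1 hi), one_mul, add_comm],
      (th_ps (smd h) _ hτ hz).2]
    simp only [lt_irrefl, if_false, if_true, Nat.not_lt.2 p.le_succ, Nat.succ_ne_self]
    ring

theorem sh_tv (h : Z.Dz N p d β) (hM : 2 * N * p ^ 4 ∣ M) (hS : Sp M d β')
    (hβ : (2 * N : ℤ) ∣ β' - β) (hx : IsS 1 x) {G : ℍ → ℂ} {a : ℕ → ℤ} {k : ℂ}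
    (e : EF N G a) (hk : ∀ z, shi d (β : ZMod (2 * N)) x z = k * G z) (hz : 0 < z.im) :
    SH (N * p ^ 4 * d) (Ka.pf d (qs p β)) x z = k * p ^ 2 * (a p - p - 1) *
      (a p * G (ofComplex z) - p * G (ofComplex (p * z)) - G (ofComplex (z / p))) := by
  have p0 := h.pr.pos
  have n : 0 < N * d * p ^ 2 := by
    have := NeZero.pos N
    have := (du h).ok.odd.pos
    positivity
  have pn : ¬ p ∣ N := h.pr.coprime_iff_not_dvd.1 (ax h.toPz1).ok.cop.symm
  simp only [SH, Ka.pf, pg_eq h.toPz1 hM hS hβ, ofReal_intCast,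
    show N * p ^ 4 * d = N * d * p ^ 2 * p ^ 2 by ring]
  rw [sh_lin hx n (Finset.range p) (fun j => rh p j) (fun j => (j + z) / p) (im_j p0 hz)
    (fun r => ps_bd ((β : ZMod (2 * N)) * r)) fun r τ hτ => (th_tv n p0 hτ hz (ps_bd _)).2]
  simp only [sh_eq h hx e hk (im_j p0 hz _)]
  rw [rh_sum p0 fun j => k * p * (a p - p - 1) * G (ofComplex ((j + z) / p)), ← Finset.mul_sum,
    K1.hk h.pr pn e.qe e.te hz, Nat.cast_zero, zero_add]
  ring

/-- **the Petersson product with the kernel** -/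
theorem pet_eq (h : Z.Dz N p d β) (hM : 2 * N * p ^ 4 ∣ M) (hS : Sp M d β')
    (hβ : (2 * N : ℤ) ∣ β' - β) (hx : IsS 1 x) {G : ℍ → ℂ} {a : ℕ → ℤ} {k : ℂ}
    (e : EF N G a) (hk : ∀ z, shi d (β : ZMod (2 * N)) x z = k * G z) :
    pet (Ka.FK (N * p ^ 4 * d) p (Ka.pf d (qs p β))) (fn x) = conj (k * (a p - p - 1) *
      ((a p - p - 1) * L1 a - (a p - 2) * Real.log p * L0 a 1) / (√(N * d) : ℝ)) := by
  have p0 : (0 : ℝ) < p := Nat.cast_pos.2 h.pr.pos
  have p1 : (p : ℂ) ≠ 0 := Nat.cast_ne_zero.2 h.pr.ne_zero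
  obtain ⟨i1, e1⟩ := gc' e.pos e.s2 e.qe p0
  obtain ⟨i2, e2⟩ := gc' e.pos e.s2 e.qe (pow_pos p0 2)
  obtain ⟨i3, e3⟩ := gc' e.pos e.s2 e.qe one_pos
  rw [((cd h hM hS hβ).gk.fu p0 ((ax h.toPz1).isS.2 hx)).2, setIntegral_congr_fun measurableSet_Ioi
    (g := fun y : ℝ => k * p ^ 2 * (a p - p - 1) *
      (a p * (G (ofComplex (I * (p * y : ℝ))) * Real.log y) -
        p * (G (ofComplex (I * (p ^ 2 * y : ℝ))) * Real.log y) -
          G (ofComplex (I * (1 * y : ℝ))) * Real.log y)) fun y hy => ?_, integral_const_mul,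
    integral_sub (by exact (i1.const_mul _).sub (i2.const_mul _)) i3, integral_sub (i1.const_mul _)
      (i2.const_mul _), integral_const_mul, integral_const_mul, e1, e2, e3,
    show ((N * p ^ 4 * d : ℕ) : ℝ) = (p ^ 2) ^ 2 * (N * d) by push_cast; ring,
    Real.sqrt_mul (sq_nonneg _), Real.sqrt_sq (sq_nonneg _), Real.log_pow, Real.log_one]
  · congr 1
    push_cast
    field_simp
    ring
  · beta_reduce
    rw [sh_tv h hM hS hβ hx e hk (by simpa using mul_pos p0 hy),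
      show (p : ℂ) * (I * (p * y : ℝ)) = I * (p ^ 2 * y : ℝ) by push_cast; ring,
      show I * (p * y : ℝ) / (p : ℂ) = I * (1 * y : ℝ) by push_cast; field_simp]
    ring

theorem sp_of {t : Finset Fm} {w : Fm → ℍ} (h : Z.Dz N p d β) (k : Cm d ((2 * N * p) ^ 4) β' t w) :
    Sp ((2 * N * p) ^ 4) d β' := by
  have N0 := NeZero.pos N
  have p0 := h.pr.pos
  have m8 := h.dat.m8
  obtain ⟨Q, ⟨hQ, -⟩, -⟩ := k.t2 (1, 1, (d + 1) / 4) (by simp only [disc]; omega) one_pos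
  obtain ⟨e, -, ⟨a, ha⟩, ⟨b, hb⟩, ⟨c, hc⟩, -⟩ := k.t1 Q hQ
  refine ⟨by positivity, h.dat.sq, by omega, by omega,
    (Nat.isCoprime_iff_coprime.1 (by exact_mod_cast Hd.cop_d h.dat)).pow_left 4,
    a * Q.2.2 - b * Q.2.1 + ((2 * N * p) ^ 4 : ℕ) * b ^ 2, ?_⟩
  rw [disc] at e
  generalize (((2 * N * p) ^ 4 : ℕ) : ℤ) = M at *
  linear_combination e + 4 * Q.2.2 * ha - (β' + Q.2.1 - 2 * M * b) * hb

omit [NeZero N] in
theorem off (hp : p.Prime) {c : PP N} (o : Off 1 d c) : Off (p ^ 4) d c := fun i hi ⟨m, hm⟩ => by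
  obtain ⟨k, rfl⟩ : p ^ 2 ∣ m := (Nat.pow_dvd_pow_iff two_ne_zero).1 ⟨d * i.1, by
    linear_combination -hm⟩
  exact o i hi ⟨k, mul_left_cancel₀ (pow_ne_zero 4 hp.ne_zero) (by linear_combination hm)⟩

theorem lgs (h : Z.Dz N p d β) {κ : ℕ → ℕ → ZMod (2 * N) → ℚ} (k : Lgs (p ^ 4) d κ) : Lgs 1 d κ := by
  refine ⟨k.fin, k.prime, k.spl, fun q n r e => by_contra fun j => j ?_⟩
  by_cases c : q = p
  · exact k.spl q n r (.inr (c ▸ (spl h).1))
  refine k.van q n r ?_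
  rw [show -(((p ^ 4 : ℕ) : ℤ) * n) = (p ^ 2) ^ 2 * -((1 : ℕ) * n) by push_cast; ring,
    jacobiSym.mul_left, e, mul_one, jacobiSym.sq_one' (by
      exact_mod_cast ((Nat.coprime_primes h.pr (k.prime q n r j)).2 (Ne.symm c)).pow_left 2)]

end K1

open K1 in
/-- **row KER1** -/
theorem ker1 (K : KL1) : KER1 := fun N _ p d β s h hs => by
  obtain ⟨β', t, w, k1, k2, k4⟩ := K N p d _ 4 β h (dvd_pow_self _ four_ne_zero) dvd_rfl
  have hM : 2 * N * p ^ 4 ∣ (2 * N * p) ^ 4 := ⟨(2 * N) ^ 3, by ring⟩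
  have hS := sp_of h k2
  have D := cd h hM hS k1
  have p0 := h.pr.pos
  have p1 : (0 : ℝ) < p := Nat.cast_pos.2 p0
  have E : ka1 p d β = Ka.ka (p ^ 4) d (K1.qs (N := N) p β) := by
    funext q n r
    rw [ka1, Ka.ka, pg_eq h.toPz1 hM hS k1]
  rw [E]
  refine ⟨lgs h D.lgs, fun x => -pet (Ka.FK (N * p ^ 4 * d) p (Ka.pf d (K1.qs p β))) (fn x),
    fun a x c Φ H o hΦ => ?_, by simp [pet, fn], fun x hx G a k e V hk => ?_⟩
  swap
  · beta_reduce
    rw [pet_eq h hM hS k1 hx e hk, show L0 a 1 = 0 from V, mul_zero, sub_zero, ← mul_assoc,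
      mul_assoc k, ← sq]
  refine tendsto_nhds_unique (tendsto_finsetSum _ fun z hz => (hΦ z hz).const_mul _)
    ((D.main p1 k2 ((ax h.toPz1).harm.2 H) (off h.pr o)).congr fun v => ?_)
  have n : 0 < N * p ^ 2 := mul_pos (NeZero.pos N) (pow_pos p0 2)
  obtain ⟨q1, -, -, q4, -⟩ := phs1 h.toPz1
  have := (k4 ℂ (fun z => reg1 p a x z v) fun γ hγ z => by
    simp only [reg1, fun r τ => show th0 (N * p ^ 2) (fun l => ps N p 1 r l) τ (γ • z : ℍ) =
      th0 (N * p ^ 2) (fun l => ps N p 1 r l) τ z by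
        simpa only [q4 r _ γ hγ] using (((fta γ).2.2.2.2.2 _ _ n (q1 r)).2.2 τ z).1]).1 s hs
  simp only [zsmul_eq_mul] at this
  rw [this]
  refine Finset.sum_congr rfl fun Q _ => ?_
  simp only [reg1, ← integral_const_mul, Hd.coe_of (im_j p0 (w Q).im_pos _)]
  refine Eq.trans (setIntegral_congr_fun (Sk.compact_FT v).measurableSet fun τ j => ?_)
    (integral_finsetSum _ fun j _ => Integrable.const_mul (ContinuousOn.integrableOn_compact
    (Sk.compact_FT v) (ContinuousOn.mono (s := UH) ((continuousOn_finsetSum _ fun r _ =>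
      ((qs_diff (k := id) (H.sum r)).continuousOn.add (nh_c1 H.s r).continuousOn).mul
        (th0_cont n (im_j p0 (w Q).im_pos j) (ps_bd r))).div (by fun_prop)
          fun τ hτ => pow_ne_zero 2 (ofReal_ne_zero.2 (ne_of_gt hτ))) fun τ k => k.1.2.2)) _)
  simp only [← fun r => (ari1 r h.pr h.one hM hS k1).2.1, show N * p ^ 4 = N * p ^ 2 * p ^ 2 by ring,
    (th_tv n p0 j.1.2.2 (w Q).im_pos (ps_bd _)).1, Finset.mul_sum, Finset.sum_div]
  rw [Finset.sum_comm]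
  exact Finset.sum_congr rfl fun _ _ => Finset.sum_congr rfl fun _ _ => by ring

end Vale.Agent.P014T.Z
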