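import Vale.Agent.P014T.Z.Dv
import Vale.Agent.P014T.Z.St

/-!
# P014T, block Z1: the divisors `B0`, `B1` through the ideal classes
-/

set_option autoImplicit false
set_option linter.all false

open Complex UpperHalfPlane CongruenceSubgroup
open scoped MatrixGroups NumberTheorySymbols Classical

noncomputable section

namespace Vale.Agent.P014T.Z

open P004Z P004Z.Hd

variable {N p d : ℕ} {β : ℤ} {z : ℍ} {l : Fm}

namespace Kq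

theorem ph1 (r : ZMod (2 * N)) (l : Fm) :
    ph N 1 r l = if (N : ℤ) ∣ l.1 ∧ (l.2.1 : ZMod (2 * N)) = r then 1 else 0 := by
  simp [ph, gc]

theorem evq_smul (k : ℤ) (μ : Fm) (z : ℂ) : evq (k • μ) z = k * evq μ z := by
  simp only [evq, Prod.smul_fst, Prod.smul_snd, smul_eq_mul]
  push_cast
  ring

theorem disc_smul (k : ℤ) (μ : Fm) : disc (k • μ) = k ^ 2 * disc μ := by
  simp only [disc, Prod.smul_fst, Prod.smul_snd, smul_eq_mul]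
  ring

theorem sub_reps {Γ : Subgroup SL(2, ℤ)} {A B : ℍ → ℤ} {s : Finset ℍ} (hs : Reps Γ B s)
    (hA : ∀ γ ∈ Γ, ∀ z, A (γ • z) = A z) (h : ∀ z, A z ≠ 0 → B z ≠ 0) :
    Reps Γ A (s.filter fun z => A z ≠ 0) :=
  ⟨fun z hz => (Finset.mem_filter.1 hz).2, fun z hz => (hs.ex z (h z hz)).elim fun γ a =>
    ⟨γ, a.1, Finset.mem_filter.2 ⟨a.2, (hA γ a.1 z).symm ▸ hz⟩⟩, fun z hz w hw =>
      hs.uq z (Finset.mem_filter.1 hz).1 w (Finset.mem_filter.1 hw).1⟩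

theorem sum_sub {A : ℍ → ℤ} (s : Finset ℍ) {C : Type} [AddCommGroup C] (Φ : ℍ → C) :
    ∑ z ∈ s.filter fun z => A z ≠ 0, A z • Φ z = ∑ z ∈ s, A z • Φ z :=
  Finset.sum_filter_of_ne fun z _ h e => h (by rw [e, zero_smul])

theorem p_one (h : Pz1 N p) : (p : ZMod (2 * N)) = 1 := by
  obtain ⟨w, hw⟩ := h.one
  exact_mod_cast cast_eq (n := 2 * N) (a := p) (b := 1) ⟨2 * w, by push_cast; linear_combination hw⟩

theorem p_cop (h : Pz1 N p) : IsCoprime (p : ℤ) (2 * N * 1 : ℕ) := by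
  obtain ⟨w, hw⟩ := h.one
  exact ⟨1, -2 * w, by push_cast; linear_combination hw⟩

theorem ph_p (h : Pz1 N p) (r : ZMod (2 * N)) (μ : Fm) : ph N 1 r ((p : ℤ) • μ) = ph N 1 r μ := by
  simpa [p_one h] using ph_smul squarefree_one (p_cop h) r μ

/-- the form with the root `w / p` -/
def mu (p : ℕ) (Q : Fm) : Fm := (Q.1 * p, Q.2.1, Q.2.2 / p)

/-- the form with the root `p w` -/
def nu (p : ℕ) (Q : Fm) : Fm := (Q.1 / p, Q.2.1, Q.2.2 * p)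

theorem onto {t : Finset Fm} {f : Fm → Fm}
    (h4 : ∀ Q, disc Q = -d → 0 < Q.1 → ∃! Q', Q' ∈ t ∧ ∃ γ, fa Q γ = Q')
    (m1 : ∀ Q ∈ t, disc (f Q) = -d ∧ 0 < (f Q).1)
    (m2 : ∀ Q ∈ t, ∀ Q' ∈ t, ∀ γ, fa (f Q) γ = f Q' → Q = Q') :
    ∀ Q, disc Q = -d → 0 < Q.1 → ∃ i ∈ t, ∃ γ, fa Q γ = f i := fun Q a b => by
  choose g g1 γ g2 using fun Q : t => (h4 _ (m1 Q Q.2).1 (m1 Q Q.2).2).exists
  have inj : Function.Injective fun Q : t => (⟨g Q, g1 Q⟩ : t) := fun Q Q' e =>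
    Subtype.ext (m2 _ Q.2 _ Q'.2 (γ Q * (γ Q')⁻¹) (by
      rw [← fa_fa, g2, show g Q = g Q' from congrArg Subtype.val e, ← g2, fa_inv]))
  obtain ⟨Q₁, ⟨c1, γ₀, c2⟩, -⟩ := h4 Q a b
  obtain ⟨i, hi⟩ := Finite.injective_iff_surjective.1 inj ⟨Q₁, c1⟩
  exact ⟨i, i.2, γ₀ * (γ i)⁻¹, by
    rw [← fa_fa, c2, ← show g i = Q₁ from congrArg Subtype.val hi, ← g2, fa_inv]⟩

theorem sq_iff {k m : ℕ} (hk : k ≠ 0) : IsSquare (k ^ 2 * m) ↔ IsSquare m := by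
  rw [← Rat.isSquare_natCast_iff, ← Rat.isSquare_natCast_iff]
  have : (k : ℚ) ≠ 0 := Nat.cast_ne_zero.2 hk
  push_cast
  exact ⟨fun ⟨x, e⟩ => ⟨x / k, by field_simp; linear_combination e⟩,
    fun ⟨x, e⟩ => ⟨k * x, by rw [e]; ring⟩⟩

end Kq

open Kq

theorem pz_ndvd (h : Pz1 N p) : ¬ p ∣ 2 * N := fun e =>
  (Nat.prime_iff_prime_int.1 h.pr).not_unit ((p_cop h).isUnit_of_dvd' dvd_rfl (by
    exact_mod_cast e.mul_right 1))

theorem b0_val (h : disc l = -d) (hz : evq l z = 0) (a : 0 < l.1) :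
    B0 N d β z = ph N 1 β l := Zp_eq (by simpa using h) hz a

theorem b0_eq (h : disc l = -d) (hz : evq l z = 0) (a : 0 < l.1) (b : (N : ℤ) ∣ l.1)
    (c : (2 * N : ℤ) ∣ l.2.1 - β) : B0 N d β z = 1 := by
  rw [b0_val h hz a, ph1, if_pos ⟨b, cast_eq (by exact_mod_cast c)⟩]

theorem b0_ne (h : B0 N d β z ≠ 0) : ∃ l, disc l = -d ∧ evq l z = 0 ∧ 0 < l.1 ∧ (N : ℤ) ∣ l.1 ∧
    (2 * N : ℤ) ∣ l.2.1 - β := by
  obtain ⟨l, a1, a2, a3, a4⟩ := Zp_ne h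
  obtain ⟨b1, b2, -⟩ := ph_ne a4
  exact ⟨l, by simpa using a1, a2, a3, b1, by
    exact_mod_cast (ZMod.intCast_eq_intCast_iff_dvd_sub _ _ _).1 b2.symm⟩

theorem b0_one (h : B0 N d β z ≠ 0) : B0 N d β z = 1 := by
  obtain ⟨l, a1, a2, a3, a4, a5⟩ := b0_ne h
  exact b0_eq a1 a2 a3 a4 a5

theorem b0_inv : ∀ γ ∈ Gamma0 N, ∀ z, B0 N d β (γ • z) = B0 N d β z :=
  fun γ hγ => Zp_inv odd_one hγ

theorem b1_inv : ∀ γ ∈ Gamma0 N, ∀ z, B1 N p d β (γ • z) = B1 N p d β z := fun γ hγ z => by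
  simp only [B1, Pi.sub_apply, Pi.smul_apply, b0_inv γ hγ, Zp_inv odd_one hγ]

/-- `B0` through any system of forms -/
theorem b0_sum (N0 : 0 < N) (hβ : (4 * N : ℤ) ∣ β ^ 2 + d) (hc : IsCoprime (d : ℤ) N) {ι : Type}
    {T : Finset ι} {μ : ι → Fm} {w : ι → ℍ}
    (h1 : ∀ i ∈ T, disc (μ i) = -d ∧ evq (μ i) (w i) = 0 ∧ 0 < (μ i).1 ∧ (N : ℤ) ∣ (μ i).1 ∧
      (2 * N : ℤ) ∣ (μ i).2.1 - β)
    (ex : ∀ Q, disc Q = -d → 0 < Q.1 → ∃ i ∈ T, ∃ γ, fa Q γ = μ i)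
    (uq : ∀ i ∈ T, ∀ j ∈ T, ∀ γ, fa (μ i) γ = μ j → i = j) {s : Finset ℍ}
    (hs : Reps (Gamma0 N) (B0 N d β) s) {A : Type} [AddCommGroup A] {Φ : ℍ → A}
    (hΦ : ∀ γ ∈ Gamma0 N, ∀ z, Φ (γ • z) = Φ z) :
    ∑ z ∈ s, B0 N d β z • Φ z = ∑ i ∈ T, Φ (w i) := by
  rw [sum_reps b0_inv hs (T := T) (p := w) (fun z hz => ?_) (fun i hi j hj _ γ _ e => ?_) hΦ]
  · refine Finset.sum_congr rfl fun i hi => ?_
    obtain ⟨a1, a2, a3, a4, a5⟩ := h1 i hi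
    rw [b0_eq a1 a2 a3 a4 a5, one_smul]
  · obtain ⟨l, a1, a2, a3, a4, a5⟩ := b0_ne hz
    obtain ⟨i, hi, γ, e⟩ := ex l a1 a3
    obtain ⟨-, b2, -, b4, b5⟩ := h1 i hi
    refine ⟨i, hi, γ⁻¹, inv_mem ((cls N l β N0 (by rwa [a1, sub_neg_eq_add])
      (a1 ▸ hc.neg_left)).2 γ a4 a5 (e ▸ b4) (e ▸ b5)), ?_⟩
    rw [← e, root_fa] at b2
    rw [root_one a2 b2 a3.ne', inv_smul_smul]
  · obtain ⟨a1, a2, a3, -⟩ := h1 i hi
    obtain ⟨b1, b2, b3, -⟩ := h1 j hj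
    exact (uq j hj i hi γ (root_pos a2 ((root_fa _ γ _).2 (e ▸ b2))
      ((disc_fa _ _).trans (b1.trans a1.symm)) a3 (pos_fa (root_neg b2 b3.ne') b3 γ))).symm

theorem b1_eq (h : Pz1 N p) (z : ℍ) :
    B1 N p d β z = Bd N p d β z * Bd N p d β z + (1 - p) * B0 N d β z ∧
      (Bd N p d β z = 0 ∨ B0 N d β z = 0) := by
  have hp := h.pr
  have p0 : (0 : ℤ) < p := Nat.cast_pos.2 hp.pos
  have k : B0 N d β z ≠ 0 → ∃ μ : Fm, disc ((p : ℤ) • μ) = -(p ^ 2 * d) ∧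
      evq ((p : ℤ) • μ) z = 0 ∧ 0 < ((p : ℤ) • μ).1 := fun e => by
    obtain ⟨μ, a1, a2, a3, -⟩ := b0_ne e
    exact ⟨μ, by rw [disc_smul, a1, mul_neg], by rw [evq_smul, a2, mul_zero], mul_pos p0 a3⟩
  simp only [B1, Pi.sub_apply, Pi.smul_apply, smul_eq_mul]
  by_cases H : ∃ l : Fm, disc l = -(p ^ 2 * d) ∧ evq l z = 0 ∧ 0 < l.1
  · obtain ⟨l, a1, a2, a3⟩ := H
    have pd : (p : ℤ) ∣ disc l := a1 ▸ ⟨-(p * d), by ring⟩
    have e1 : Zp N 1 (p ^ 2 * d) (β : ZMod (2 * N)) z = ph N 1 β l :=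
      Zp_eq (by rw [a1]; push_cast; ring) a2 a3
    have e2 : Bd N p d β z = ph N 1 β l * gp p l := by
      rw [Bd, Zp_eq (by rw [a1]; push_cast; ring) a2 a3, ph1, ph, gc_def, hp.primeFactors,
        Finset.prod_singleton, Int.cast_mul, Int.cast_natCast, p_one h, mul_one]
      simp [pd]
    rw [e1, e2]
    by_cases c : (p : ℤ) ∣ l.1 ∧ (p : ℤ) ∣ l.2.2
    · obtain ⟨μ, rfl⟩ := mem_smul.2 ⟨c.1, dvd_b hp pd c.1, c.2⟩
      simp only at *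
      rw [disc_smul] at a1
      rw [evq_smul] at a2
      rw [gp, if_pos c.1, J_dvd hp.one_lt c.2, ph_p h, b0_val (l := μ)
        (mul_left_cancel₀ (pow_ne_zero 2 p0.ne') (a1.trans (by ring)))
        ((mul_eq_zero.1 a2).resolve_left (by exact_mod_cast hp.ne_zero))
        ((mul_pos_iff_of_pos_left p0).1 a3)]
      exact ⟨by ring, .inl (mul_zero _)⟩
    · have e3 : B0 N d β z = 0 := by
        by_contra e
        obtain ⟨μ, b1, b2, b3⟩ := k e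
        obtain rfl := root_pos a2 b2 (b1.trans a1.symm) a3 b3
        exact c ⟨dvd_mul_right _ _, dvd_mul_right _ _⟩
      have e4 : gp p l * gp p l = 1 := by
        rw [← sq, gp]
        split_ifs with a
        · exact jacobiSym.sq_one (gcd_one hp fun b => c ⟨a, b⟩)
        · exact jacobiSym.sq_one (gcd_one hp a)
      rw [e3, mul_mul_mul_comm, e4, ph1]
      exact ⟨by split_ifs <;> simp, .inr rfl⟩
  · have e1 : Zp N 1 (p ^ 2 * d) (β : ZMod (2 * N)) z = 0 := by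
      by_contra e
      obtain ⟨l, a1, a2, a3, -⟩ := Zp_ne e
      exact H ⟨l, by rw [a1]; push_cast; ring, a2, a3⟩
    have e2 : Bd N p d β z = 0 := by
      by_contra e
      obtain ⟨l, a1, a2, a3, -⟩ := Zp_ne e
      exact H ⟨l, by rw [a1]; push_cast; ring, a2, a3⟩
    have e3 : B0 N d β z = 0 := by
      by_contra e
      exact H ((k e).elim fun μ a => ⟨_, a⟩)
    simp [e1, e2, e3]

theorem b1_of_bd (h : Pz1 N p) (hz : Bd N p d β z ≠ 0) : B1 N p d β z ≠ 0 := by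
  rw [(b1_eq h z).1, (b1_eq h z).2.resolve_left hz, mul_zero, add_zero]
  exact mul_ne_zero hz hz

theorem b1_of_b0 (h : Pz1 N p) (hz : B0 N d β z ≠ 0) : B1 N p d β z = 1 - p := by
  rw [(b1_eq h z).1, (b1_eq h z).2.resolve_right hz, b0_one hz]
  ring

theorem b1_of_b0' (h : Pz1 N p) (hz : B0 N d β z ≠ 0) : B1 N p d β z ≠ 0 := by
  have := h.pr.one_lt
  rw [b1_of_b0 h hz]
  omega

/-- the support of `B1` -/
theorem b1_ne (h : Pz1 N p) (hz : B1 N p d β z ≠ 0) : ∃ l : Fm, disc l = -(p ^ 2 * d) ∧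
    evq l z = 0 ∧ 0 < l.1 ∧ (N : ℤ) ∣ l.1 ∧ (2 * N : ℤ) ∣ l.2.1 - β := by
  have e : B0 N (p ^ 2 * d) β z ≠ 0 := fun e => hz (by
    have e3 : B0 N d β z = 0 := by
      by_contra e'
      obtain ⟨μ, a1, a2, a3, -⟩ := b0_ne e'
      rw [b0_val (l := (p : ℤ) • μ) (by rw [disc_smul, a1]; push_cast; ring)
        (by rw [evq_smul, a2, mul_zero]) (mul_pos (Nat.cast_pos.2 h.pr.pos) a3), ph_p h,
        ← b0_val a1 a2 a3] at e
      exact e' e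
    rw [B0] at e
    simp [B1, e, e3])
  simpa using b0_ne e

theorem b1_reps [NeZero N] (h : Pz1 N p) {Γ : Subgroup SL(2, ℤ)} [Γ.FiniteIndex]
    (hΓ : Γ ≤ Gamma0 N) : ∃ s, Reps Γ (B1 N p d β) s :=
  ex_reps0 (fun γ hγ => b1_inv γ (hΓ hγ)) _ fun z hz =>
    (b1_ne h hz).imp fun l a => ⟨a.1, a.2.1, a.2.2.1⟩

theorem b0_sq (hd : d ≠ 0) (hz : B0 N d β z ≠ 0) (n : ℕ) (l : Fm) (a : disc l = -n)
    (b : evq l z = 0) : IsSquare (d * n) := by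
  obtain ⟨m, a1, a2, a3, -⟩ := b0_ne hz
  have e := root_sq a2 b
  rw [a, a1] at e
  have : IsSquare ((d * n : ℕ) : ℚ) := ⟨l.1 * d / m.1, by
    have : (m.1 : ℚ) ≠ 0 := Int.cast_ne_zero.2 a3.ne'
    have e' : (n * m.1 ^ 2 : ℚ) = d * l.1 ^ 2 := by
      exact_mod_cast (show n * m.1 ^ 2 = d * l.1 ^ 2 by linear_combination -e)
    field_simp
    push_cast
    linear_combination d * e'⟩
  exact Rat.isSquare_natCast_iff.1 this

theorem b1_sq (h : Pz1 N p) (hd : d ≠ 0) (hz : B1 N p d β z ≠ 0) (n : ℕ) (l : Fm)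
    (a : disc l = -n) (b : evq l z = 0) : IsSquare (d * n) := by
  obtain ⟨m, a1, a2, a3, a4, a5⟩ := b1_ne h hz
  have := b0_sq (N := N) (β := β) (d := p ^ 2 * d) (z := z)
    (mul_ne_zero (pow_ne_zero 2 h.pr.ne_zero) hd) (by
      rw [b0_eq (by rw [a1]; push_cast; ring) a2 a3 a4 a5]; exact one_ne_zero) n l a b
  rwa [mul_assoc, sq_iff h.pr.ne_zero] at this

/-- `B1 = (T_p - p - 1) B0` -/
theorem b1_hecke [NeZero N] (h : Dz N p d β) (z : ℍ) : B1 N p d β z =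
    B0 N d β (ofComplex (p * z)) + ∑ ν ∈ Finset.range p, B0 N d β (ofComplex ((z + ν) / p)) -
      (p + 1) * B0 N d β z := by
  have hp := h.pr
  have e := hp1 squarefree_one hp (by simpa using pz_ndvd h.toPz1) d (β : ZMod (2 * N)) z
  have s := h.dat.spl p hp (fun e => h.dat.ok.odd.not_two_dvd_nat (e ▸ dvd_rfl)) (dvd_mul_left _ _)
  rw [p_one h.toPz1, one_mul, if_neg fun c => hp.prime.not_unit (h.dat.sq p (sq p ▸ c)), Nat.cast_one,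
    one_mul, s, jacobiSym.one_right] at e
  simp only [B1, B0, Pi.sub_apply, Pi.smul_apply, smul_eq_mul, ← e]
  ring

theorem b1_tdiv [NeZero N] (h : Dz N p d β) : (fun z => (B1 N p d β z : ℂ)) =
    Tdiv p (fun z => B0 N d β z) - (p + 1 : ℂ) • fun z => (B0 N d β z : ℂ) := funext fun z => by
  rw [b1_hecke h]
  simp [Tdiv]

/-- the long form -/
theorem kl0 [NeZero N] {M k : ℕ} (h : Dz N p d β) (hM : 2 * N * p ∣ M) (hk : M ∣ (2 * N * p) ^ k) :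
    ∃ (β' : ℤ) (t : Finset Fm) (w : Fm → ℍ), (2 * N : ℤ) ∣ β' - β ∧
    (∀ Q ∈ t, disc Q = -d ∧ 0 < Q.1 ∧ (M : ℤ) ∣ Q.1 ∧ (2 * M : ℤ) ∣ Q.2.1 - β' ∧
      (M : ℤ) ∣ Q.2.2 ∧ evq Q (w Q) = 0) ∧
    (∀ Q, disc Q = -d → 0 < Q.1 → ∃! Q', Q' ∈ t ∧ ∃ γ, fa Q γ = Q') ∧
    (∀ s, Reps (Gamma0 N) (B1 N p d β) s → ∀ (A : Type) [AddCommGroup A] (Φ : ℍ → A),
      (∀ γ ∈ Gamma0 N, ∀ z, Φ (γ • z) = Φ z) → ∑ z ∈ s, B1 N p d β z • Φ z =
        ∑ Q ∈ t, ∑ j ∈ Finset.range p, rh p j • Φ (ofComplex ((j + w Q) / p))) ∧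
    (∀ Q ∈ t, ∀ j ∈ Finset.range p, B1 N p d β (ofComplex ((j + w Q) / p)) = rh p j) ∧
    ∀ s, Reps (Gamma0 N) (B0 N d β) s → ∀ (A : Type) [AddCommGroup A] (Φ : ℍ → A),
      (∀ γ ∈ Gamma0 N, ∀ z, Φ (γ • z) = Φ z) → ∑ z ∈ s, B0 N d β z • Φ z = ∑ Q ∈ t, Φ (w Q) ∧
        ∑ z ∈ s, B0 N d β z • Φ z = ∑ Q ∈ t, Φ (ofComplex (w Q / p)) ∧
        ∑ z ∈ s, B0 N d β z • Φ z = ∑ Q ∈ t, Φ (ofComplex (p * w Q)) := by
  obtain ⟨β', t, w, h1, h3, h4, h5⟩ := kl N p d M k β h.dat hM hk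
  have hp := h.pr
  have pp := Nat.prime_iff_prime_int.1 hp
  have N0 := NeZero.pos N
  have p0 : (0 : ℤ) < p := Nat.cast_pos.2 hp.pos
  have pc : (p : ℂ) ≠ 0 := Nat.cast_ne_zero.2 hp.ne_zero
  obtain ⟨m, rfl⟩ := hM
  obtain ⟨u, hu⟩ := h1
  have cd := (cop_d h.dat).symm
  have cN : IsCoprime (d : ℤ) N := cd.of_mul_right_left.of_mul_right_right
  have rt : (4 * N : ℤ) ∣ β ^ 2 + d := Dvd.dvd.trans ⟨4, by ring⟩ h.dat.rt
  have tq : ∀ Q ∈ t, ∀ Q' ∈ t, ∀ γ, fa Q γ = Q' → Q = Q' := fun Q hQ Q' hQ' γ e =>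
    (h4 Q (h3 Q hQ).1 (h3 Q hQ).2.1).unique ⟨hQ, 1, fa_one _⟩ ⟨hQ', γ, e⟩
  have im : ∀ (Q : Fm) (j : ℕ), 0 < ((j + w Q : ℂ) / p).im := fun Q j => by
    simp [div_natCast_im, (w Q).im_pos, hp.pos]
  have r4 : ∀ Q ∈ t, (4 * p : ℤ) ∣ β' ^ 2 + d := fun Q hQ => by
    obtain ⟨a1, -, ⟨a, a3⟩, ⟨b, a4⟩, -⟩ := h3 Q hQ
    push_cast at a3 a4
    rw [disc, a3] at a1
    exact ⟨2 * N * m * (a * Q.2.2 - b * Q.2.1 + 2 * N * p * m * b ^ 2), by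
      linear_combination a1 - (Q.2.1 + β' - 4 * N * p * m * b) * a4⟩
  have nβ : ∀ Q ∈ t, ¬ (p : ℤ) ∣ β' := fun Q hQ c => pp.not_unit
    (cd.of_mul_right_right.isUnit_of_dvd' ((dvd_add_right (dvd_pow c two_ne_zero)).1
      ((dvd_mul_left _ _).trans (r4 Q hQ))) dvd_rfl)
  have k2 : ∀ Q ∈ t, ∀ j : ℕ, Bd N p d β (ofComplex ((j + w Q) / p)) = J(-β' * j | p) :=
    fun Q hQ j => by
      obtain ⟨a1, a2, ⟨a, a3⟩, ⟨b, a4⟩, ⟨c, a5⟩, a6⟩ := h3 Q hQ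
      push_cast at a3 a4 a5
      rw [Bd, Zp_eq (l := ut p (-j) 1 Q) (by rw [disc_ut, a1]; push_cast; ring) (by
        rw [evq_ut one_ne_zero, coe_of (im Q j), ← a6]
        simp [mul_div_cancel₀ _ pc]) (mul_pos a2 (by positivity)), ph, if_pos ⟨⟨2 * p * m * a * p ^ 2,
          by simp only [ut, a3]; ring⟩, cast_eq ⟨p * (u + 2 * p * m * (b - a * j)), by
            simp only [ut]
            push_cast
            linear_combination p * (a4 + hu) - 2 * p * j * a3⟩, ⟨p * disc Q, by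
              rw [disc_ut]; ring⟩⟩, gc_def, hp.primeFactors, Finset.prod_singleton, gp,
        if_pos (show (p : ℤ) ∣ (ut p (-j) 1 Q).1 from (dvd_pow_self _ two_ne_zero).mul_left _)]
      exact J_congr ⟨2 * N * m * (a * j ^ 2 - 2 * b * j + c), by
        simp only [ut]
        linear_combination j ^ 2 * a3 - j * a4 + a5⟩
  have k3 : ∀ Q ∈ t, ∀ j ∈ Finset.range p, J(-β' * j | p) * J(-β' * j | p) =
      if j = 0 then 0 else 1 := fun Q hQ j hj => by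
    split_ifs with c
    · simp [c, jacobiSym.zero_left hp.one_lt]
    · rw [← sq]
      exact jacobiSym.sq_one (gcd_one hp fun e => (pp.dvd_or_dvd e).elim
        (fun e => nβ Q hQ (dvd_neg.1 e)) fun e =>
          c (Nat.eq_zero_of_dvd_of_lt (Int.natCast_dvd_natCast.1 e) (Finset.mem_range.1 hj)))
  have pq : ∀ Q ∈ t, (p : ℤ) * (Q.2.2 / p) = Q.2.2 := fun Q hQ =>
    Int.mul_ediv_cancel' (Dvd.dvd.trans ⟨2 * N * m, by push_cast; ring⟩ (h3 Q hQ).2.2.2.2.1)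
  have m1 : ∀ Q ∈ t, disc (mu p Q) = -d ∧ evq (mu p Q) (ofComplex (((0 : ℕ) + w Q) / p) : ℍ) = 0 ∧
      0 < (mu p Q).1 ∧ (N : ℤ) ∣ (mu p Q).1 ∧ (2 * N : ℤ) ∣ (mu p Q).2.1 - β := fun Q hQ => by
    obtain ⟨a1, a2, ⟨a, a3⟩, ⟨b, a4⟩, -, a6⟩ := h3 Q hQ
    push_cast at a3 a4
    refine ⟨?_, ?_, mul_pos a2 p0, ⟨2 * p * m * a * p, by simp only [mu, a3]; ring⟩,
      u + 2 * p * m * b, by simp only [mu]; linear_combination a4 + hu⟩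
    · rw [← a1]
      simp only [disc, mu]
      linear_combination -4 * Q.1 * pq Q hQ
    · have e : (p : ℂ) * ((Q.2.2 / p : ℤ) : ℂ) = Q.2.2 := by exact_mod_cast pq Q hQ
      rw [coe_of (im Q 0)]
      simp only [evq, mu] at a6 ⊢
      generalize ((Q.2.2 / p : ℤ) : ℂ) = y at e
      push_cast
      field_simp
      linear_combination a6 + e
  have m2 : ∀ Q ∈ t, ∀ Q' ∈ t, ∀ γ, fa (mu p Q) γ = mu p Q' → Q = Q' := fun Q hQ Q' hQ' γ e => by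
    have b : ∀ Q ∈ t, (2 * p : ℤ) ∣ (mu p Q).2.1 - β' := fun Q hQ =>
      Dvd.dvd.trans ⟨2 * N * m, by push_cast; ring⟩ (h3 Q hQ).2.2.2.1
    obtain ⟨c, hc⟩ := g0_dvd.1 ((cls p (mu p Q) β' hp.pos (by
      rw [(m1 Q hQ).1, sub_neg_eq_add]; exact r4 Q hQ) ((m1 Q hQ).1 ▸ cd.of_mul_right_right.neg_left)
      ).2 γ (dvd_mul_left _ _) (b Q hQ) (e ▸ dvd_mul_left _ _) (e ▸ b Q' hQ'))
    refine tq Q hQ Q' hQ' (mk (γ 0 0) (p * γ 0 1) c (γ 1 1) (by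
      linear_combination det' γ + γ 0 1 * hc)) ?_
    have q1 := pq Q hQ
    have q2 := pq Q' hQ'
    simp only [fa, mu, Prod.mk.injEq, hc] at e
    rw [fa_mk]
    refine Prod.ext (mul_left_cancel₀ p0.ne' ?_) (Prod.ext ?_ ?_) <;> simp only [val]
    · linear_combination e.1 - p * c ^ 2 * q1
    · linear_combination e.2.1 - 2 * c * γ 1 1 * q1
    · linear_combination p * e.2.2 - γ 1 1 ^ 2 * q1 + q2
  have m3 := onto h4 (fun Q hQ => ⟨(m1 Q hQ).1, (m1 Q hQ).2.2.1⟩) m2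
  have pa : ∀ Q ∈ t, (p : ℤ) * (Q.1 / p) = Q.1 := fun Q hQ =>
    Int.mul_ediv_cancel' (Dvd.dvd.trans ⟨2 * N * m, by push_cast; ring⟩ (h3 Q hQ).2.2.1)
  have n1 : ∀ Q ∈ t, disc (nu p Q) = -d ∧ evq (nu p Q) (ofComplex (p * w Q) : ℍ) = 0 ∧
      0 < (nu p Q).1 ∧ (N : ℤ) ∣ (nu p Q).1 ∧ (2 * N : ℤ) ∣ (nu p Q).2.1 - β := fun Q hQ => by
    obtain ⟨a1, a2, ⟨a, a3⟩, ⟨b, a4⟩, -, a6⟩ := h3 Q hQ
    have q1 := pa Q hQ
    push_cast at a3 a4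
    refine ⟨?_, ?_, (mul_pos_iff_of_pos_left p0).1 (q1.symm ▸ a2), ⟨2 * m * a,
      mul_left_cancel₀ p0.ne' (q1.trans (a3.trans (by ring)))⟩,
      u + 2 * p * m * b, by simp only [nu]; linear_combination a4 + hu⟩
    · rw [← a1]
      simp only [disc, nu]
      linear_combination -4 * Q.2.2 * q1
    · have e : (p : ℂ) * ((Q.1 / p : ℤ) : ℂ) = Q.1 := by exact_mod_cast q1
      rw [coe_of (by simp [hp.pos, (w Q).im_pos])]
      simp only [evq, nu] at a6 ⊢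
      push_cast
      linear_combination p * a6 + p * (w Q : ℂ) ^ 2 * e
  have n2 : ∀ Q ∈ t, ∀ Q' ∈ t, ∀ γ, fa (nu p Q) γ = nu p Q' → Q = Q' := fun Q hQ Q' hQ' γ e => by
    obtain ⟨b, a4⟩ := (h3 Q hQ).2.2.2.1
    obtain ⟨b', a5⟩ := (h3 Q' hQ').2.2.2.1
    have q1 := pa Q hQ
    have q2 := pa Q' hQ'
    push_cast at a4 a5
    simp only [fa, nu, Prod.mk.injEq] at e
    have d1 := det' γ
    obtain ⟨c, hc⟩ : (p : ℤ) ∣ γ 0 1 := by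
      refine (pp.dvd_or_dvd (show (p : ℤ) ∣ (2 * β') * γ 0 1 from ⟨2 * γ 0 0 * (Q'.2.2 -
        Q.2.2 * γ 1 1 ^ 2) - γ 0 1 * (4 * N * m * (b' - b) - 2 * Q.2.2 * γ 1 0 * γ 1 1) -
          8 * N * m * b * γ 0 1, ?_⟩)).resolve_left fun c => (pp.dvd_or_dvd c).elim (fun c =>
            h.dat.ok.odd.not_two_dvd_nat ((Nat.prime_dvd_prime_iff_eq hp Nat.prime_two).1
              (by exact_mod_cast c) ▸ dvd_rfl)) (nβ Q hQ)
      linear_combination 2 * γ 0 0 * e.2.2 - γ 0 1 * e.2.1 - γ 0 1 * a5 - γ 0 1 * a4 -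
        Q.2.1 * γ 0 1 * d1
    refine tq Q hQ Q' hQ' (mk (γ 0 0) c (p * γ 1 0) (γ 1 1) (by
      linear_combination d1 + γ 1 0 * hc)) ?_
    rw [hc] at e
    rw [fa_mk]
    refine Prod.ext ?_ (Prod.ext ?_ (mul_left_cancel₀ p0.ne' ?_)) <;> simp only [val]
    · linear_combination p * e.1 - γ 0 0 ^ 2 * q1 + q2
    · linear_combination e.2.1 - 2 * c * γ 0 0 * q1
    · linear_combination e.2.2 - p * c ^ 2 * q1
  have n3 := onto h4 (fun Q hQ => ⟨(n1 Q hQ).1, (n1 Q hQ).2.2.1⟩) n2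
  have iv : ∀ γ ∈ Gamma0 N, ∀ z, Bd N p d β (γ • z) = Bd N p d β z :=
    fun γ hγ => Zp_inv h.dat.ok.odd hγ
  refine ⟨β', t, w, ⟨u, hu⟩, h3, h4, fun s hs A _ Φ hΦ => ?_, fun Q hQ j hj => ?_,
    fun s hs A _ Φ hΦ => ⟨b0_sum N0 rt cN (μ := id) (fun Q hQ => ?_)
      (fun Q a b => (h4 Q a b).exists) tq hs hΦ, by
        simpa using b0_sum N0 rt cN m1 m3 m2 hs hΦ, b0_sum N0 rt cN n1 n3 n2 hs hΦ⟩⟩
  · have e1 := h5 _ (sub_reps hs iv fun z => b1_of_bd h.toPz1) A (fun z => Bd N p d β z • Φ z)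
      fun γ hγ z => by rw [iv γ hγ, hΦ γ hγ]
    have e2 := b0_sum N0 rt cN m1 m3 m2 (sub_reps hs b0_inv fun z => b1_of_b0' h.toPz1) hΦ
    rw [sum_sub] at e1 e2
    simp only [fun z => (b1_eq (d := d) (β := β) h.toPz1 z).1, add_smul, mul_smul,
      Finset.sum_add_distrib, ← Finset.smul_sum]
    rw [e1, e2, Finset.smul_sum, ← Finset.sum_add_distrib]
    refine Finset.sum_congr rfl fun Q hQ => ?_
    rw [← Finset.sum_erase_add _ _ (Finset.mem_range.2 hp.pos),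
      ← Finset.sum_erase_add _ _ (Finset.mem_range.2 hp.pos), smul_smul, k2 Q hQ,
      k3 Q hQ 0 (Finset.mem_range.2 hp.pos), if_pos rfl, zero_smul, add_zero, rh, if_pos rfl]
    congr 1
    refine Finset.sum_congr rfl fun j hj => ?_
    obtain ⟨j0, j1⟩ := Finset.mem_erase.1 hj
    rw [smul_smul, k2 Q hQ, k3 Q hQ j j1, rh, if_neg j0, if_neg j0]
  · rw [rh]
    split_ifs with c
    · obtain ⟨a1, a2, a3, a4, a5⟩ := m1 Q hQ
      rw [c]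
      exact b1_of_b0 h.toPz1 (by rw [b0_eq a1 a2 a3 a4 a5]; exact one_ne_zero)
    · have e := k3 Q hQ j hj
      rw [if_neg c, ← k2 Q hQ] at e
      rw [(b1_eq h.toPz1 _).1, e, (b1_eq h.toPz1 _).2.resolve_left
        (left_ne_zero_of_mul (e ▸ one_ne_zero)), mul_zero, add_zero]
  · obtain ⟨a1, a2, a3, ⟨b, a4⟩, -, a6⟩ := h3 Q hQ
    push_cast at a4
    exact ⟨a1, a6, a2, Dvd.dvd.trans ⟨2 * p * m, by push_cast; ring⟩ a3,
      u + 2 * p * m * b, by simp only [id]; linear_combination a4 + hu⟩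

/-- degree zero -/
theorem b1_deg [NeZero N] (h : Dz N p d β) {s : Finset ℍ} (hs : Reps (Gamma0 N) (B1 N p d β) s) :
    ∑ z ∈ s, B1 N p d β z = 0 := by
  obtain ⟨β', t, w, -, -, -, k, -⟩ := kl0 (k := 1) h dvd_rfl (by rw [pow_one])
  have e : ∑ j ∈ Finset.range p, rh p j = 0 := by simpa using A1.sum_rh h.pr.ne_zero 1 1
  simpa [e] using k s hs ℤ (fun _ => 1) fun _ _ _ => rfl

theorem dv_of {Γ : ℕ} {A : ℍ → ℤ} (hA : ∀ γ ∈ Gamma0 Γ, ∀ z, A (γ • z) = A z) {s : Finset ℍ}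
    (hs : Reps (Gamma0 Γ) A s) : Ar.Dv Γ (Ar.cs A) :=
  ⟨fun γ hγ z => congrArg Int.cast (hA γ hγ z), s, fun z hz => hs.ex z (Int.cast_ne_zero.1 hz)⟩

/-- **DIV1** -/
theorem div1 : DIV1 := fun N _ => ⟨fun n r =>
  have h := divs1 n r
  ⟨h.1, (h.2.2.2 _ inferInstance le_rfl).elim fun _ => dv_of h.1, fun a => funext (h.2.1 a),
    h.2.2.1⟩, fun l hl hn => hdiv0 squarefree_one hl hn⟩

/-- **BD1** -/
theorem bd1 : BD1 := fun N _ p d β h => ⟨b1_inv, (b1_reps h.toPz1 le_rfl).elim fun _ =>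
  dv_of b1_inv, b1_tdiv h, fun _ => b1_deg h, fun z hz => ⟨by
    obtain ⟨m, a1, a2, a3, a4, a5⟩ := b1_ne h.toPz1 hz
    exact (b0_eq (d := p ^ 2 * d) (by rw [a1]; push_cast; ring) a2 a3 a4 a5).trans_ne one_ne_zero,
  fun n l a b => (one_mul d).symm ▸ b1_sq h.toPz1 h.dat.sq.ne_zero hz n l a b⟩⟩

/-- **KL1** -/
theorem kl1 : KL1 := fun N _ p d M k β h hM hk => by
  obtain ⟨β', t, w, h1, h2, h3, h4, -, h5⟩ := kl0 h hM hk
  exact ⟨β', t, w, h1, ⟨h2, h3⟩, fun A _ Φ hΦ =>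
    ⟨fun s hs => h4 s hs A Φ hΦ, fun s hs => h5 s hs A Φ hΦ⟩⟩

end Vale.Agent.P014T.Z
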