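import Vale.Agent.P014T.Z.Lf2
import Vale.Agent.P014T.Z.Phs
import Vale.Agent.P014T.Z.St
import Vale.Agent.P014T.Gx.One

/-!
# P014T, block Z1: rows LIFT1, EXP1, BOR1 (helper87)
-/

set_option autoImplicit false
set_option linter.all false

open Complex Filter Topology CongruenceSubgroup Finset
open UpperHalfPlane hiding I
open scoped Real MatrixGroups NumberTheorySymbols ComplexConjugate

noncomputable section

namespace Vale.Agent.P014T.Z

open P004Z P014T.Gx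

namespace Lf

variable {N p e : ℕ} [NeZero N]

theorem tp1 (h : Pz1 N p) (k : Ax N e) : Tp e (p ^ 2) (ps N p 1) := by
  obtain ⟨p1, p2, -, p4, p5, p6, p7, -⟩ := phs1 h
  refine ⟨k.ok, pow_pos h.pr.pos 2, p1, fun r m => by rw [k.sm, p2], fun r l q => ?_,
    fun r l => by rw [k.eps, eps_one, one_mul, p5], p6, p7, p4, p + 1, by positivity, ps_bd⟩
  obtain ⟨n, a, b, -⟩ := tm_ps h.sm q
  exact ⟨n, by simpa using a, k.In ▸ b⟩

theorem bx_one (b : ℕ → ℤ) : Bo.bx 1 b = lb b := funext fun j => by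
  simp [Bo.bx, lb, gs, ee]

theorem exp0 (h : Pz1 N p) {a : ℤ → ZMod (2 * N) → ℤ} {c : PP N}
    (H : Harm 1 (fun n r => (a n r : ℂ)) 0 c) :
    ∃ Φ, Green (Gamma0 N) (Zc 1 (U1 p c)) Φ ∧ ∃ C Y : ℝ, ∀ z : ℍ, Y < z.im →
      ∃ S, HasSum (fun j : ℕ => lb (ex1 p fun i => 4 * a (i ^ 2) i) j * ee (j * z)) S ∧
        (Φ z).re = C + S.re := by
  obtain ⟨e, k⟩ := ax0 N
  have y : ∀ n r, (a n (-r) : ℂ) = a n r := fun n r => by
    simpa only [k.eps, eps_one, Int.cast_one, one_mul] using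
      Du.Pe.a_sym (Du.kp phi k.ok) (k.harm.2 H) n r
  rw [← zg_ps h]
  exact (tp1 h k).exp (k.harm.2 H) (ch_conj h.pr y) (ch_zero h.pr _) (ch_sum h y)

theorem zg_int (h : Pz1 N p) {a : ℤ → ZMod (2 * N) → ℤ} {c : PP N}
    (H : Harm 1 (fun n r => (a n r : ℂ)) 0 c) :
    ∃ n : ℍ → ℤ, Zc 1 (U1 p c) = fun z => (n z : ℂ) := by
  have hn : ∀ z, ∃ m : ℤ, (m : ℂ) = Zc 1 (U1 p c) z := fun z => zg_ps h c ▸
    Subring.mem_bot.1 (sum_mem fun i _ => by
      refine mul_mem ?_ (intCast_mem _ _)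
      rcases i.1.eq_zero_or_pos with h | h
      · exact (show c i = 0 from (congrArg (fun m => c (m, i.2)) h).trans (H.zero _)) ▸ zero_mem _
      · exact (show c i = _ from H.pp _ _ h) ▸ intCast_mem _ _)
  choose n hn using hn
  exact ⟨n, funext fun z => (hn z).symm⟩

/-- **the Borcherds product** with its exponents -/
theorem borx (h : Pz1 N p) {a : ℤ → ZMod (2 * N) → ℤ} {c : PP N}
    (H : Harm 1 (fun n r => (a n r : ℂ)) 0 c) {n : ℍ → ℤ} (hn : Zc 1 (U1 p c) = fun z => (n z : ℂ)) :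
    ∃ (l : ℕ) (Ψ : ℍ → ℂ), 0 < l ∧ Bp N (fun z => (2 * l : ℕ) * n z)
      (fun j => l * ex1 p (fun i => 4 * a (i ^ 2) i) j) Ψ := by
  obtain ⟨Φ, g, C, Y, e⟩ := exp0 h H
  exact bp_of (NeZero.pos N) (hn ▸ g) e

end Lf

open Lf

/-- **LIFT1** -/
theorem lift1 : LIFT1 := fun N _ p h a x c H => by
  obtain ⟨e, k⟩ := ax0 N
  have := (tp1 h k).lift (k.harm.2 H)
  rwa [zg_ps h, Nat.cast_pow] at this

/-- **EXP1** -/
theorem exp1 : EXP1 := fun N _ p h a c H => by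
  obtain ⟨Φ, g, C, Y, e⟩ := exp0 h H
  exact ⟨Φ, g, 1, _, C, Y, one_pos, by simpa only [bx_one, Nat.cast_one, one_mul] using e⟩

/-- **BOR1** -/
theorem bor0 : BOR1 := fun N _ p h c ⟨a, H⟩ => by
  obtain ⟨n, hn⟩ := zg_int h H
  obtain ⟨l, Ψ, l0, b⟩ := borx h H hn
  exact hn ▸ b.prin (by positivity)

end Vale.Agent.P014T.Z
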