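import Vale.Agent.P014T.Z.St
import Vale.Agent.P004Z.Ar.Wn
import Vale.Agent.P004Z.Th.Gau

/-! # P014T, block Z1: rows `WN1` and `EXD` -/

set_option autoImplicit false
set_option linter.all false

open UpperHalfPlane CongruenceSubgroup
open scoped MatrixGroups NumberTheorySymbols Classical

noncomputable section

namespace Vale.Agent.P014T.Z

open P004Z P004Z.Ar P004Z.Hd

namespace Wn

variable {M N n : ℕ} {z : ℍ}

theorem card_eq {R : Finset SL(2, ℤ)} (a : ∀ g ∈ R, g ∈ Gamma0 N)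
    (b : ∀ γ ∈ Gamma0 N, ∃ g ∈ R, g * γ ∈ Gamma0 M)
    (c : ∀ g ∈ R, ∀ g' ∈ R, g' * g⁻¹ ∈ Gamma0 M → g = g') :
    R.card = (Gamma0 M).relIndex (Gamma0 N) := by
  rw [Subgroup.relIndex, Subgroup.index, ← Nat.card_eq_finsetCard]
  refine Nat.card_congr (Equiv.ofBijective
    (fun g : R => QuotientGroup.mk ⟨g.1⁻¹, inv_mem (a _ g.2)⟩) ⟨fun g g' e => ?_, fun q => ?_⟩)
  · have := QuotientGroup.eq.1 e
    rw [Subgroup.mem_subgroupOf] at this
    exact Subtype.ext (c _ g'.2 _ g.2 (by simpa using this)).symm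
  · obtain ⟨γ, rfl⟩ := QuotientGroup.mk_surjective q
    obtain ⟨g, u, v⟩ := b γ.1 γ.2
    exact ⟨⟨g, u⟩, QuotientGroup.eq.2 (by rw [Subgroup.mem_subgroupOf]; simpa using v)⟩

theorem ix_rel (hM : 0 < M) (h : N ∣ M) :
    0 < (Gamma0 M).relIndex (Gamma0 N) ∧ Ix M N ((Gamma0 M).relIndex (Gamma0 N)) := by
  obtain ⟨R, a, b, c⟩ := cosets hM h
  rw [← card_eq a b c]
  refine ⟨Finset.card_pos.2 ((b 1 (one_mem _)).imp fun _ e => e.1),
    fun A F T p hA hF fr ex uq => ?_⟩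
  rw [ws_eq (hA.mono h) (hF.mono h) (T := R ×ˢ T) (p := fun i => i.1 • p i.2) (fun z hz => ?_)
    fun i hi j hj e γ d k => ?_, Finset.sum_product, ← nsmul_eq_mul, ← Finset.sum_const]
  · exact Finset.sum_congr rfl fun g hg => Finset.sum_congr rfl fun z _ => by
      rw [hA g (a g hg), hF g (a g hg)]
  · obtain ⟨w, d, γ, e, k⟩ := ex z hz
    obtain ⟨g, u, v⟩ := b γ e
    exact ⟨(g, w), Finset.mem_product.2 ⟨u, d⟩, _, v, by rw [mul_smul, k]⟩
  · obtain ⟨i1, i2⟩ := Finset.mem_product.1 hi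
    obtain ⟨j1, j2⟩ := Finset.mem_product.1 hj
    have k' : (j.1⁻¹ * γ * i.1) • p i.2 = p j.2 := by rw [mul_smul, mul_smul, k, inv_smul_smul]
    have u := uq _ i2 _ j2 _ (mul_mem (mul_mem (inv_mem (a _ j1)) (g0_le h d)) (a _ i1)) k'
    refine Prod.ext (c _ i1 _ j1 ?_) u
    rcases fr _ (hA _ (a _ i1) _ ▸ e) _ (k'.trans (congrArg p u.symm)) with v | v <;>
      rw [mul_assoc, inv_mul_eq_iff_eq_mul, ← eq_mul_inv_iff_mul_eq] at v
    · rwa [v, mul_one] at d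
    · rw [v, Gamma0_mem] at d
      simpa [Gamma0_mem] using d

variable [NeZero N]

theorem ix_row : 0 < ix N ∧ Ix (4 * N) N (ix N) :=
  ix_rel (mul_pos four_pos (NeZero.pos N)) (dvd_mul_left N 4)

theorem ph_fr1 (r : ZMod (2 * N)) (a b c : ℤ) :
    ph N 1 (-r) (N * c, -b, a) = ph N 1 r (N * a, b, c) := by
  simp [ph, gc]

theorem Zp_fr1 (r : ZMod (2 * N)) (z : ℍ) : Zp N 1 n (-r) (fr N z) = Zp N 1 n r z := by
  have d : ∀ a b c : ℤ, disc (N * c, -b, a) = disc (N * a, b, c) := fun a b c => by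
    simp only [disc]; ring
  by_cases H : ∃ a b c : ℤ, disc (N * a, b, c) = -(((1 : ℕ) : ℤ) * n) ∧ evq (N * a, b, c) z = 0 ∧
      0 < N * a
  · obtain ⟨a, b, c, h1, h2, h3⟩ := H
    rw [Zp_eq h1 h2 h3, Zp_eq ((d a b c).trans h1) (fr_form h2 h3).1 (fr_form h2 h3).2, ph_fr1]
  · have k : ∀ r z, Zp N 1 n r z ≠ 0 → ∃ a b c : ℤ, disc (N * a, b, c) = -(((1 : ℕ) : ℤ) * n) ∧
        evq (N * a, b, c) z = 0 ∧ 0 < N * a := fun r z e => by
      obtain ⟨⟨_, b, c⟩, h1, h2, h3, h4⟩ := Zp_ne e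
      obtain ⟨a, rfl : _ = _⟩ := (ph_ne h4).1
      exact ⟨a, b, c, h1, h2, h3⟩
    rw [of_not_not fun e => H (k r z e)]
    by_contra e
    obtain ⟨a, b, c, h1, h2, h3⟩ := k _ _ e
    exact H ⟨c, -b, a, (d a b c).trans h1, fr_fr (N := N) z ▸ fr_form h2 h3⟩

theorem inv_fr {X : Type} {F : ℍ → X} (h : Inv N F) : Inv N fun z => F (fr N z) := fun γ a z => by
  obtain ⟨g, c, u⟩ := fr_g0 a
  simp only [← u, h g c]

/-- a divisor and its image under the involution -/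
theorem ws_fr {B : ℍ → ℤ} (hB : Inv N B)
    (f : ∀ z, B z ≠ 0 ∨ B (fr N z) ≠ 0 → ∀ γ : SL(2, ℤ), γ • z = z → γ = 1 ∨ γ = -1)
    {s : Finset ℍ} {F : ℍ → ℂ} (hs : Reps (Gamma0 N) B s) (hF : Inv N F) :
    ws (4 * N) (cs B) F = ix N * evd s B F ∧
      ws (4 * N) (cs fun z => B (fr N z)) F = ix N * evd s B (fun z => F (fr N z)) := by
  have I := (ix_row (N := N)).2
  refine ⟨I _ F s id (fun γ a z => congrArg Int.cast (hB γ a z)) hF
    (fun z hz => f z (.inl (Int.cast_ne_zero.1 hz))) (fun z hz => by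
      obtain ⟨γ, a, b⟩ := hs.ex z (Int.cast_ne_zero.1 hz)
      exact ⟨_, b, γ, a, rfl⟩) hs.uq, ?_⟩
  rw [I _ F s (fr N) (fun γ a z => congrArg Int.cast (inv_fr hB γ a z)) hF
    (fun z hz => f z (.inr (Int.cast_ne_zero.1 hz))) (fun z hz => by
      obtain ⟨γ, a, b⟩ := hs.ex _ (Int.cast_ne_zero.1 hz)
      obtain ⟨g, c, u⟩ := fr_g0 a
      exact ⟨_, b, g, c, by rw [← u, fr_fr]⟩) fun z a w b γ c u => by
        obtain ⟨g, c', u'⟩ := fr_g0 c
        exact hs.uq z a w b g c' (by rw [← fr_fr (N := N) z, u', u, fr_fr])]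
  simp only [cs, fr_fr, evd]

theorem dv_fr {A : ℍ → ℂ} (h : Dv N A) : Dv N fun z => A (fr N z) := by
  obtain ⟨s, hs⟩ := h.fin
  refine ⟨inv_fr h.inv, s.image (fr N), fun z hz => ?_⟩
  obtain ⟨γ, a, b⟩ := hs _ hz
  obtain ⟨g, c, u⟩ := fr_g0 a
  exact ⟨g, c, Finset.mem_image.2 ⟨_, b, by rw [← u, fr_fr]⟩⟩

theorem p_cast {p : ℕ} (h : Pz1 N p) : (p : ZMod (2 * N)) = 1 := by
  have : ((p : ℤ) : ZMod (2 * N)) = (1 : ℤ) := cast_eq ((show ((2 * N : ℕ) : ℤ) ∣ 4 * N from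
    ⟨2, by push_cast; ring⟩).trans h.one)
  simpa using this

theorem p_odd {p : ℕ} (h : Pz1 N p) : p ≠ 2 := fun e => by
  have := Int.le_of_dvd (by simp [e]) h.one
  have := NeZero.pos N
  omega

theorem zc_u (D : DIV1) {p d : ℕ} {β : ℤ} (h : Dz N p d β) :
    Zc 1 (U1 p (Finsupp.single (d, (β : ZMod (2 * N))) 1)) =
      cs (B1 N p d β) + cs fun z => B1 N p d β (fr N z) := by
  have d0 : 0 < d := Nat.pos_of_ne_zero h.dat.sq.ne_zero
  have nd : ¬ p ^ 2 ∣ d := fun e => h.pr.not_isUnit (h.dat.sq p (by rwa [← sq]))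
  have j := h.dat.spl p h.pr (p_odd h.toPz1) (dvd_mul_left p N)
  have e1 := ((D N).1 d β).2.2.1 d0
  have e2 := ((D N).1 (p ^ 2 * d) β).2.2.1 (mul_pos (pow_pos h.pr.pos 2) d0)
  have f : ∀ n z, Zp N 1 n (β : ZMod (2 * N)) (fr N z) = Zp N 1 n (-β) z := fun n z => by
    rw [← Zp_fr1 (-β) z, neg_neg]
  funext z
  change pr (fun n r => (Zd N 1 n r z : ℂ)) _ = _
  simp only [U1, LinearMap.sub_apply, LinearMap.smul_apply, Module.End.one_apply, Gl.tt_single,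
    if_neg nd, sub_eq_add_neg, ← _root_.neg_smul, Gl.pr_add, Gl.pr_smul, Gl.pr_single, one_smul, add_zero,
    p_cast h.toPz1, one_mul, Nat.cast_one, j, jacobiSym.one_right, e1, e2, B1, B0, Pi.add_apply,
    cs, f, Pi.smul_apply, smul_eq_mul, Pi.neg_apply]
  push_cast
  ring

end Wn

open Wn in
theorem wn1 (D : DIV1) (B : BD1) : WN1 := fun N _ p d β h => ⟨ix_row.1, fun s F hs hF η C hC => by
  obtain ⟨b1, b2, -, b3, b4⟩ := B N p d β h
  have d8 : (d : ℤ) % 8 = 7 := by exact_mod_cast h.dat.m8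
  have p0 : (p : ℤ) ≠ 0 := Int.natCast_ne_zero.2 h.pr.ne_zero
  have f : ∀ (r : ZMod (2 * N)) z, Zp N 1 (p ^ 2 * d) r z ≠ 0 → ∀ γ : SL(2, ℤ), γ • z = z →
      γ = 1 ∨ γ = -1 := fun r z hz => by
    obtain ⟨l, a, b, -⟩ := Zp_ne hz
    exact free p0 d8 (by rw [a]; push_cast; ring) b
  obtain ⟨k, k'⟩ := ws_fr b1 (fun z hz => hz.elim (fun e => f _ z (b4 z e).1) fun e =>
    f (-β) z (by rw [← Zp_fr1, neg_neg]; exact (b4 _ e).1)) hs hF
  have dg : ∑ z ∈ s, (B1 N p d β z : ℂ) = 0 := by exact_mod_cast b3 s hs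
  have h4 := mul_pos four_pos (NeZero.pos N)
  rw [zc_u D h, ws_add (b2.mono h4 (dvd_mul_left N 4)) ((dv_fr b2).mono h4 (dvd_mul_left N 4)),
    k, k']
  simp only [hC _ _ (coe_fr _), evd, mul_add, Finset.sum_add_distrib, mul_left_comm _ η,
    ← Finset.mul_sum, ← Finset.sum_mul, dg]
  ring⟩

theorem exd : EXD := fun N d S β hN h hS => by
  have d0 := h.sq.ne_zero
  have m8 := h.m8
  obtain ⟨p, h1, h2, h3⟩ := Nat.exists_prime_gt_modEq_one (k := 4 * N * d * S) 2 (by positivity)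
  have e : ((4 * N * d * S : ℕ) : ℤ) ∣ p - 1 := by
    simpa using Nat.modEq_iff_dvd.1 h3.symm
  push_cast at e
  have o := h1.odd_of_ne_two h2.ne'
  refine ⟨p, ⟨⟨h1, ((dvd_mul_right _ _).mul_right _).trans e⟩, ⟨o, h1.squarefree, h1.one_lt, ?_⟩,
    h.sq, m8, fun q a b c => ?_, h.big, h.rt⟩, (dvd_mul_left _ _).trans e⟩
  · have := (((h3.of_mul_right S).of_mul_right d).of_mul_left 4).gcd_eq
    rw [Nat.gcd_one_left] at this
    exact Nat.Coprime.symm this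
  · rcases a.dvd_mul.1 c with c | c
    · exact h.spl q a b c
    · rw [(Nat.prime_dvd_prime_iff_eq a h1).1 c, Gq.J_flip (by omega) o,
        J_congr (b := 1) (((dvd_mul_left _ _).mul_right _).trans e), jacobiSym.one_left]

theorem Dz.hg {N p d : ℕ} {β : ℤ} (h : Dz N p d β) : Hg N d β :=
  ⟨h.dat.sq, h.dat.m8, fun q a b c => h.dat.spl q a b (c.mul_right _), h.dat.big, h.dat.rt⟩

end Vale.Agent.P014T.Z
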