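import Vale.Agent.P014T.Z.Act1
import Vale.Agent.P014T.Z.Wn
import Vale.Agent.P014T.An.Mel
import Vale.Agent.P004Z.Ar.Prt
import Vale.Agent.P004Z.Ar.Fun

/-! # P014T, block Z1: row `YQ1` -/

set_option autoImplicit false
set_option linter.all false

open UpperHalfPlane CongruenceSubgroup Filter Topology MeasureTheory Set
open scoped MatrixGroups NumberTheorySymbols Classical Real

noncomputable section

namespace Vale.Agent.P014T.Z

open P004Z P004Z.Ar P004Z.Hd P004Z.W2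
open P004N (RN ALw)
open P004Z.H (sp)

namespace Yq

variable {N : ℕ} {G : ℍ → ℂ} {a : ℕ → ℤ}

theorem sum_perm {A : Type} [AddCommGroup A] {B : ℍ → ℤ} {t : Finset ℍ} {s : ℍ → ℍ} {Φ : ℍ → A}
    (h : Reps (Gamma0 N) B t) (hB : Inv N B) (hΦ : Inv N Φ) (e : ∀ τ, B (s τ) = B τ)
    (i : ∀ τ τ', (∃ γ ∈ Gamma0 N, γ • s τ = s τ') → ∃ γ ∈ Gamma0 N, γ • τ = τ') :
    ∑ b ∈ t, B b • Φ (s b) = ∑ b ∈ t, B b • Φ b := by
  have k : ∀ b ∈ t, ∃ b' ∈ t, ∃ γ ∈ Gamma0 N, γ • s b = b' := fun b hb => by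
    obtain ⟨γ, h1, h2⟩ := h.ex (s b) (by rw [e]; exact h.sup b hb)
    exact ⟨_, h2, γ, h1, rfl⟩
  choose r r1 r2 using k
  have j : ∀ b hb b' hb', r b hb = r b' hb' → b = b' := fun b hb b' hb' q => by
    obtain ⟨γ, h1, h2⟩ := r2 b hb
    obtain ⟨γ', h3, h4⟩ := r2 b' hb'
    obtain ⟨g, h5, h6⟩ := i b b' ⟨γ'⁻¹ * γ, mul_mem (inv_mem h3) h1, by
      rw [mul_smul, h2, q, ← h4, inv_smul_smul]⟩
    exact h.uq _ hb _ hb' g h5 h6
  refine Finset.sum_bij r r1 j (fun b hb => ?_) fun b hb => ?_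
  · obtain ⟨c, hc, q⟩ := Finset.surj_on_of_inj_on_of_card_le r r1 (fun b b' hb hb' => j b hb b' hb')
      le_rfl b hb
    exact ⟨c, hc, q.symm⟩
  · obtain ⟨γ, h1, h2⟩ := r2 b hb
    rw [← h2, hB γ h1, hΦ γ h1, e]

theorem tend : Tendsto (fun y : ℝ => ofComplex (Complex.I * y)) atTop atImInfty :=
  tendsto_comap_iff.2 (tendsto_id.congr' ((eventually_gt_atTop 0).mono fun t k => by
    rw [Function.comp, ← coe_im, coe_ofI k]; simp))

/-- the primitive is invariant under the involution -/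
theorem I_fr (D : Pz N a) (h : RN N G a) (w : ALw N N G 1) (v : Van1 a 1) (z z' : ℍ)
    (e : (z' : ℂ) = -1 / (N * z)) : D.I z' = D.I z := by
  obtain ⟨C, hC⟩ := (prt.2 N G a D h).2 1 w
  simp only [Complex.ofReal_one, one_mul] at hC
  obtain ⟨L, hL⟩ := D.lim 1
  simp only [one_smul] at hL
  have n0 : (0 : ℝ) < N := Nat.cast_pos.2 h.pos
  have g := An.gd h.pos h.s2 h.qe (c_zero h.s2 h.qe)
  have t1 := hL.comp tend
  have t0 : Tendsto (fun y : ℝ => D.I (ofComplex (Complex.I * y))) (𝓝[Ici 0 \ {0}] 0)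
      (𝓝 (L + C)) := by
    rw [Ici_sdiff_left]
    refine ((t1.comp (tendsto_inv_nhdsGT_zero.atTop_div_const n0)).add_const C).congr'
      (eventually_mem_nhdsWithin.mono fun y (k : 0 < y) => (hC _ _ ?_).symm)
    have : (y : ℂ) ≠ 0 := Complex.ofReal_ne_zero.2 k.ne'
    have : (N : ℂ) ≠ 0 := Nat.cast_ne_zero.2 h.pos.ne'
    rw [coe_ofI k, coe_ofI (by positivity)]
    push_cast
    field_simp
    simp
  have key := integral_Ioi_of_hasDerivAt_of_tendsto
    (f := Function.update (fun y : ℝ => D.I (ofComplex (Complex.I * y))) 0 (L + C))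
    (f' := fun y => (D.w : ℂ)⁻¹ * (2 * π * Complex.I) * Complex.I * An.qs (fun n => (a n : ℂ)) y)
    (continuousWithinAt_update_same.2 t0) (fun y (k : 0 < y) => ?_) (g.int0.const_mul _)
    (t1.congr' ((eventually_ne_atTop 0).mono fun y k => (Function.update_of_ne k ..).symm))
  · rw [integral_const_mul, show ∫ y in Ioi (0 : ℝ), An.qs (fun n => (a n : ℂ)) y = 0 by
      simpa [Van1, tw, An.qs] using v, mul_zero, Function.update_self] at key
    rw [hC z z' e, show C = 0 by linear_combination key, add_zero]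
  · have p := (EF.prim_Pr h.qe (c_zero h.s2 h.qe)).smul (D.w : ℂ)⁻¹ (ofComplex (Complex.I * y))
    rw [← D.I_eq, coe_ofI k] at p
    refine ((p.comp (y : ℂ) ((hasDerivAt_id (y : ℂ)).const_mul Complex.I)).comp_ofReal.congr_deriv
      ?_).congr_of_eventuallyEq ((eventually_ne_nhds k.ne').mono fun y k => Function.update_of_ne k ..)
    rw [An.qs_eq h.qe k, Pi.smul_apply, smul_eq_mul]
    ring

end Yq

open Yq in
theorem yq1 : YQ1 := fun N _ G a D d β s₀ h w v _ hs => ⟨I_fr D h w v, fun σ => by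
  obtain ⟨c, s, A, -, z⟩ := act1' N σ
  obtain ⟨xm, p1, p2, p3⟩ := pk N a D h.pos
  obtain ⟨θ, hθ⟩ := IsAlgClosed.exists_pow_nat_eq (-(d : ℂ)) two_pos
  have hB : Inv N (B0 N d β) := (divs1 d _).1
  have : σ θ ^ 2 = θ ^ 2 := by rw [← map_pow, hθ, map_neg, map_natCast]
  simp only [yK, map_sum, map_zsmul, ← A.pi_eq D p1 p2 p3]
  rcases sq_eq_sq_iff_eq_or_eq_neg.1 this with e | e
  · exact sum_perm hs hB D.pi_inv (fun τ => (A.zp d _ τ θ (by simpa using hθ) e).trans (one_mul _))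
      fun τ τ' => (A.inj τ τ').1
  · have f : ∀ τ, D.pi (fr N τ) = D.pi τ := fun τ => congrArg D.ex (I_fr D h w v _ _ (coe_fr τ))
    rw [← sum_perm (s := fun τ => fr N (s τ)) hs hB D.pi_inv (fun τ => ?_) fun τ τ' ⟨γ, u, q⟩ => ?_]
    · simp only [f]
    · rw [B0, ← neg_neg (β : ZMod (2 * N)), Wn.Zp_fr1, z d _ τ θ hθ e]
    · obtain ⟨g, u', q'⟩ := fr_g0 u
      exact (A.inj τ τ').1 ⟨g, u', by rw [← fr_fr (N := N) (s τ), q', q, fr_fr]⟩⟩

end Vale.Agent.P014T.Z
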