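import Vale.Agent.P014T.Z.Glue
import Vale.Agent.P014T.Z.Aro
import Vale.Agent.P014T.Z.Act1
import Vale.Agent.P014T.Z.Lift
import Vale.Agent.P014T.Z.Kl
import Vale.Agent.P014T.Z.Genx
import Vale.Agent.P014T.Z.Fin
import Vale.Agent.P014T.Z.Wn
import Vale.Agent.P014T.Z.Ker1
import Vale.Agent.P014T.Z.Yq1
import Vale.Agent.P014T.Dg.Pz

/-! # P014T, block Z1: the closed rows -/

namespace Vale.Agent.P014T.Z

theorem degv : DEGV := fun _ _ _ D _ _ r h hc => (Dg.pz r D h.deg hc).trans (mul_assoc _ _ _).symm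

theorem wn : WN1 := wn1 div1 bd1

theorem genx : GENX1 := genx1 div1 bor0

theorem off : OFF1 := off1 div1

theorem aro : ARO1 := aro1 bd1 act1 off exi1 genx

theorem yk : YK1 := yk1 kl1

theorem ker : KER1 := ker1 kl1

/-- the finite parts cancel -/
theorem finp_all : FINP := finp bd1 lift1 bor0 ker

/-- the generating series -/
theorem main_all : MAIN := main bd1 lift1 bor0 ker genx

/-- **the formula of Gross and Zagier** -/
theorem gzx_all : GZX := gzx exd bd1 wn degv genx aro yk yq1 main_all

end Vale.Agent.P014T.Z
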