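import Vale.Agent.P014T.Z.St
import Vale.Agent.P014T.Gx.Glu
import Vale.Agent.P004Z.Ar.All

/-! # P014T, block Z1: the glue (rows `FINP`, `MAIN`, `GZX`) -/

set_option linter.all false

open Complex UpperHalfPlane MeasureTheory Filter Topology CongruenceSubgroup
open scoped Real MatrixGroups ComplexConjugate NumberTheorySymbols Classical

noncomputable section

namespace Vale.Agent.P014T.Z

open P004Z P004Z.Kf P004Z.Ar P014T.Gx
open P004Z.Gl hiding pr_lg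
open P004N (S2 QE TE RN Pr ALw EF)
open P004Z.Lf (sn)
open P004Z.H (sp Fo PlC iE)
open Vale.Agent.P004H.H666 Vale.Agent.P004M.TE

namespace Gu

variable {N : ℕ} [NeZero N] {p d : ℕ} {β : ℤ} {a : ℕ → ℤ} {G : ℍ → ℂ}
  {ι : ℕ → ℕ → ZMod (2 * N) → ℚ}

theorem nd (h : Pz1 N p) : ¬ p ∣ 2 * N * 1 := fun e => by
  have e1 : (p : ℤ) ∣ 4 * N := (Int.natCast_dvd_natCast.2 e).trans ⟨2, by push_cast; ring⟩
  have e3 : (p : ℤ) ∣ 1 := by simpa using dvd_sub (dvd_refl (p : ℤ)) (e1.trans h.one)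
  exact h.pr.one_lt.ne' (Nat.dvd_one.1 (Int.natCast_dvd_natCast.1 e3))

theorem du (h : Dz N p d β) : Du1 N d (β : ZMod (2 * N)) := by
  obtain ⟨u, -, -, -, j, -⟩ := gau_row N p d β h.dat
  have := h.dat.m8
  refine ⟨⟨Nat.odd_iff.2 (by omega), h.dat.sq, by omega, u.ok1.cop.coprime_mul_left_right⟩, ?_, j⟩
  have e := Gq.dvd_val (n := 2 * N) β
  rw [Nat.cast_mul, Nat.cast_ofNat] at e
  refine ((Gq.sq_dvd e).add ((show (4 * N : ℤ) ∣ 16 * N from ⟨4, by ring⟩).trans h.dat.rt)).trans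
    (dvd_of_eq ?_)
  ring

theorem spl (h : Dz N p d β) {q : ℕ} (hq : q.Prime) (e : q ∣ 2 * (N * p)) : Spl d q :=
  (hq.dvd_mul.1 e).elim (fun e => .inl ((Nat.prime_dvd_prime_iff_eq hq Nat.prime_two).1 e))
    fun e => (eq_or_ne q 2).imp_right fun k => h.dat.spl q hq k e

/-- the polynomial `T_p - p - 1` -/
def uP (h : Pz1 N p) : FA N :=
  FreeAlgebra.ι ℤ (⟨p, h.pr, nd h⟩ : PA (2 * N * 1)) - algebraMap ℤ _ (p + 1)

theorem act_u (h : Pz1 N p) : act 1 (uP h) = U1 (N := N) p := by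
  rw [act, uP, map_sub, AlgHom.commutes, FreeAlgebra.lift_ι_apply, U1,
    eq_intCast]
  refine congrArg _ (LinearMap.ext fun c => ?_)
  rw [Module.End.intCast_apply, ← Int.cast_smul_eq_zsmul ℂ]
  simp

theorem lmb_u (h : Pz1 N p) : lmb a (uP h) = a p - p - 1 := by
  rw [lmb, uP, map_sub, AlgHom.commutes, FreeAlgebra.lift_ι_apply]
  simp [sub_sub]

theorem al_ne (h : Pz1 N p) (hG : RN N G a) : (a p - p - 1 : ℂ) ≠ 0 := fun e =>
  (triv N G a hG p h.pr fun k => nd h ((k.mul_left 2).mul_right 1)).1 (by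
    have : ((a p : ℤ) : ℂ) = ((p + 1 : ℤ) : ℂ) := by push_cast; linear_combination e
    exact_mod_cast this)

theorem pj_u (h : Pz1 N p) (hG : RN N G a) {P : FA N} (hP : Pj N a P) : Pj N a (uP h * P) := by
  intro g c h1 h2
  obtain ⟨κ, e⟩ := hP g c h1 h2
  refine ⟨κ * (a p - p - 1), funext fun n => ?_⟩
  have t := hG.te p h.pr (fun k => nd h ((k.mul_left 2).mul_right 1)) n
  rw [map_mul, Module.End.mul_apply, e, uP, map_sub, AlgHom.commutes, FreeAlgebra.lift_ι_apply,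
    eq_intCast, LinearMap.sub_apply, Module.End.intCast_apply, Pi.sub_apply, Pi.smul_apply,
    zsmul_eq_mul]
  change Tc p _ n - _ = _
  simp only [Tc]
  push_cast
  split_ifs at t ⊢ <;> linear_combination κ * t

theorem lgs_uq (hp : p.Prime) (sp : Spl d p) (h : Lgs 1 d ι) : Lgs 1 d (uq p ι) := by
  have z : ∀ q n r, ι q (p ^ 2 * n) (p * r) = 0 → ι q n r = 0 →
      (p ^ 2 ∣ n → ι q (n / p ^ 2) ((p : ZMod (2 * N))⁻¹ * r) = 0) → uq p ι q n r = 0 :=
    fun q n r h1 h2 h3 => by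
      rw [uq, h1, h2]
      split_ifs with k <;> simp [h3, k]
  refine ⟨fun n r => (((h.fin (p ^ 2 * n) (p * r)).union (h.fin n r)).union
    (h.fin (n / p ^ 2) ((p : ZMod (2 * N))⁻¹ * r))).subset fun q hq => ?_, fun q n r hq => ?_,
    fun q n r s => z q n r (h.spl _ _ _ s) (h.spl _ _ _ s) fun _ => h.spl _ _ _ s,
    fun q n r e => ?_⟩
  · by_contra e
    simp only [Set.mem_union, Set.mem_ofPred_eq, not_or, not_not] at e
    exact hq (z q n r e.1.1 e.1.2 fun _ => e.2)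
  · by_contra e
    have k : ∀ n r, ι q n r = 0 := fun n r => by_contra fun k => e (h.prime q n r k)
    exact hq (z q n r (k _ _) (k _ _) fun _ => k _ _)
  · by_cases hq : q.Prime
    swap
    · have k : ∀ n r, ι q n r = 0 := fun n r => by_contra fun k => hq (h.prime q n r k)
      exact z q n r (k _ _) (k _ _) fun _ => k _ _
    rcases eq_or_ne p q with rfl | k
    · exact z p n r (h.spl _ _ _ sp) (h.spl _ _ _ sp) fun _ => h.spl _ _ _ sp
    have j : ∀ m : ℕ, J(-(((1 : ℕ) : ℤ) * (p ^ 2 * m : ℕ)) | q) = J(-(((1 : ℕ) : ℤ) * m) | q) :=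
      fun m => by
        rw [show -(((1 : ℕ) : ℤ) * (p ^ 2 * m : ℕ)) = p ^ 2 * -(((1 : ℕ) : ℤ) * m) by
          push_cast; ring, jacobiSym.mul_left, jacobiSym.pow_left, jacobiSym.sq_one (by
            rw [Int.gcd_natCast_natCast]; exact (Nat.coprime_primes hp hq).2 k), one_mul]
    exact z q n r (h.van _ _ _ (by rw [j, e])) (h.van _ _ _ e) fun c =>
      h.van _ _ _ (by rw [← j, Nat.mul_div_cancel' c, e])

theorem pr_uq (q : ℕ) (c : PP N) :
    pr (fun n r => (uq p ι q n r : ℂ)) c = pr (fun n r => (ι q n r : ℂ)) (U1 p c) := by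
  have e : (fun n r => (uq p ι q n r : ℂ)) = TT 1 p (fun n r => (ι q n r : ℂ)) +
      (-(p + 1) : ℂ) • fun n r => (ι q n r : ℂ) := by
    funext n r
    simp only [uq, TT, Pi.add_apply, Pi.smul_apply, smul_eq_mul, Nat.cast_one, one_mul,
      jacobiSym.one_right]
    split_ifs <;> push_cast <;> ring
  rw [e, add_pr, smul_pr, ← pr_tt, U1, LinearMap.sub_apply, sub_eq_add_neg, pr_add,
    LinearMap.smul_apply, ← _root_.neg_smul, pr_smul]
  rfl

theorem pr_fs {κ : ℕ → ℕ → ZMod (2 * N) → ℚ} (h : Lgs 1 d κ) (c : PP N) :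
    pr (lg κ) c = ∑ᶠ q : ℕ, pr (fun n r => (κ q n r : ℂ)) c * (Real.log q : ℝ) := by
  obtain ⟨T, -, h1, h2⟩ := Gl.pr_lg h c
  rw [h2, finsum_eq_sum_of_support_subset]
  intro q hq
  by_contra e
  exact hq (mul_eq_zero_of_left (Finset.sum_eq_zero fun i hi => by simp [h1 q e i hi]) _)

theorem lg_uq (hp : p.Prime) (sp : Spl d p) (h : Lgs 1 d ι) (c : PP N) :
    pr (lg (uq p ι)) c = pr (lg ι) (U1 p c) := by
  simp only [pr_fs h, pr_fs (lgs_uq hp sp h), pr_uq]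

theorem io_u (h : Pz1 N p) {c : PP N} (hc : c ∈ IO 1 d) : U1 p c ∈ IO 1 d :=
  act_u h ▸ io_lift (uP h) c hc

variable {s : Finset ℍ}

theorem far (hB : BD1) (h : Dz N p d β) (hs : Reps (Gamma0 N) (B1 N p d β) s) {c : PP N}
    (ho : Off 1 d c) {k : ℕ} (hk : k ≠ 0) : ∀ z ∈ s, ∀ i ∈ c.support, ∀ l,
      disc l = -((k : ℤ) ^ 2 * i.1) → evq l z ≠ 0 := fun z hz i hi l h1 h2 => by
  have := ((hB N p d β h).2.2.2.2 z (hs.sup z hz)).2 (k ^ 2 * i.1) l (by exact_mod_cast h1) h2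
  rw [mul_left_comm, sq_iff hk] at this
  exact ho i hi this

theorem zc0 (hB : BD1) (h : Dz N p d β) (hs : Reps (Gamma0 N) (B1 N p d β) s) {c : PP N}
    (ho : Off 1 d c) {z : ℍ} (hz : z ∈ s) : Zc 1 c z = 0 :=
  zc_zero (by simpa using far hB h hs ho one_ne_zero z hz)

theorem l1_conj (a : ℕ → ℤ) : conj (L1 a) = L1 a := by
  rw [L1, ← integral_conj]
  congr 1
  funext y
  rw [map_mul, conj_ofReal, tw, conj_tsum]
  congr 2
  funext n
  rw [map_mul, map_intCast, ee, ← exp_conj]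
  simp only [map_mul, conj_ofReal, conj_I, map_natCast, map_ofNat]
  congr 2
  ring

theorem pet_conj (N : ℕ) (G : ℍ → ℂ) : conj (pet2 N G G) = pet2 N G G := by
  rw [pet2]
  refine ((starAddEquiv (R := ℂ)).map_finsum _).trans (finsum_congr fun q => ?_)
  refine integral_conj.symm.trans (congrArg _ (funext fun z => ?_))
  simp only [petersson, map_mul, map_div₀, map_pow, map_zpow₀, conj_conj, conj_ofReal]
  ring

variable {D : Pz N a} {V : ℕ → AbsoluteValue ℂ ℝ} {m : ℕ} {l : D.E →+ ℝ}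
  {J : ℕ → (ℍ → ℤ) →+ ℝ}

theorem ki (l : D.E →+ ℝ) : D.Ki (lC D l) := fun u hu => by simp [lC, (D.ker u).2 hu]

/-- the finite parts cancel -/
theorem fin (hB : BD1) (hL : LIFT1) (hO : BOR1) (hK : KER1) (hG : RN N G a) (h : Dz N p d β)
    (hs : Reps (Gamma0 N) (B1 N p d β) s) (A : Ao D d (B1 N p d β) s V m l J ι) {c : PP N}
    (hc : Adm 1 c) (ho : Off 1 d c) {x : Cf N} (hx : IsS 1 x) (he : Eig 1 (2 * N * 1) a x) {μ : ℂ}
    (hp : ∀ y, IsS 1 y → pr y c = μ * B y x) (q : ℕ) :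
    pr (fun n r => (ka1 p d β q n r : ℂ)) c + pr (fun n r => (ι q n r : ℂ)) (U1 p c) = 0 := by
  obtain ⟨hκ, ℓ, K0, K1, -⟩ := hK N p d β s h hs
  have sp := spl h h.pr ((dvd_mul_left _ _).mul_left _)
  obtain ⟨hd, ed⟩ := lgs_add hκ (lgs_uq h.pr sp A.lgs)
  have e : ∀ c : PP N, pr (fun n r => ((ka1 p d β q n r + uq p ι q n r : ℚ) : ℂ)) c =
      pr (fun n r => (ka1 p d β q n r : ℂ)) c + pr (fun n r => (ι q n r : ℂ)) (U1 p c) := fun c => by
    rw [← pr_uq, ← add_pr]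
    exact pr_congr fun i _ => by simp
  rw [← e]
  change pr (fun n r => (((ka1 p d β + uq p ι :) q n r : ℚ) : ℂ)) c = 0
  by_cases k : q.Prime ∧ ¬ Spl d q
  swap
  · refine Finset.sum_eq_zero fun i _ => mul_eq_zero_of_right _ (Rat.cast_eq_zero.2 ?_)
    by_contra z
    exact k ⟨hd.prime _ _ _ z, fun k => z (hd.spl _ _ _ k)⟩
  obtain ⟨y, hy, y1, y2⟩ := serre_off1 (d := d) (fun n r => (((ka1 p d β + uq p ι :) q n r : ℚ) : ℂ))
    fun c hc ho => by
      refine pr_lg_zero hd (WH.int hc) ?_ q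
      obtain ⟨a', ha'⟩ := id hc
      obtain ⟨Φ, h1, h2⟩ := hL N p h.toPz1 _ _ _ ha'
      have i := io_u h.toPz1 (d := d) ⟨WH.int hc, ho⟩
      have h3 := A.prin _ Φ i.1 i.2 (hO N p h.toPz1 c hc) h1
      rw [K0 _ _ _ Φ ha' ho fun z hz => h2 z (far hB h hs ho h.pr.ne_zero z hz), K1,
        add_zero] at h3
      rw [ed, add_pr, lg_uq h.pr sp A.lgs, h3]
  rw [← y1 _ hc ho, hp y hy, tr1 hG h.dat.sq (dvd_mul_right _ _) hx he hy k.1
    (fun e => k.2 (spl h k.1 (e.trans ⟨p, by ring⟩))) (fun e => k.2 (.inr e)), mul_zero]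
  intro n r e e'
  exact y2 n r e (by rw [hd.van q n r e', Rat.cast_zero]) (by rw [hd.van q n _ e', Rat.cast_zero])

/-- the height formula for complex coefficients -/
theorem htc (hB : BD1) (hL : LIFT1) (hG : RN N G a) (h : Dz N p d β)
    (hs : Reps (Gamma0 N) (B1 N p d β) s) (A : Ao D d (B1 N p d β) s V m l J ι) {P : FA N}
    (hP : Pj N a P) {c : PP N} (hc : c ∈ MM N 1 d) :
    ∃ Φ, Green (Gamma0 N) (Zc 1 (act 1 (uP h.toPz1 * P * uP h.toPz1) c)) Φ ∧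
      m * (evd s (B1 N p d β) Φ + pr (lg ι) (act 1 (uP h.toPz1 * P * uP h.toPz1) c)) =
        -2 * lmb a (uP h.toPz1 * P) * pr (xg D (lC D l)) (U1 p c) := by
  set Q := uP h.toPz1 * P * uP h.toPz1 with hQ
  let R : PP N → Prop := fun c => ∃ Φ, Green (Gamma0 N) (Zc 1 (act 1 Q c)) Φ ∧
    m * (evd s (B1 N p d β) Φ + pr (lg ι) (act 1 Q c)) =
      -2 * lmb a (uP h.toPz1 * P) * pr (xg D (lC D l)) (U1 p c)
  have R0 : R 0 := by
    refine ⟨0, ?_, by simp [evd, pr_zero]⟩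
    rw [map_zero]
    exact green_zero
  have R1 : ∀ (k : ℂ) (c c' : PP N), c ∈ MM N 1 d → c' ∈ MM N 1 d → R c → R c' →
      R (k • c + c') := by
    rintro k c c' hc hc' ⟨Φ, h1, h2⟩ ⟨Φ', h1', h2'⟩
    obtain ⟨Ψ, h3, h4⟩ := green_comb k h1 h1'
    refine ⟨Ψ, by rw [map_add, map_smul, zc_comb]; exact h3, ?_⟩
    have : evd s (B1 N p d β) Ψ = k * evd s (B1 N p d β) Φ + evd s (B1 N p d β) Φ' := by
      simp only [evd, Finset.mul_sum, ← Finset.sum_add_distrib]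
      refine Finset.sum_congr rfl fun z hz => ?_
      rw [h4 z (zc0 hB h hs (mm_off (mm_act Q c hc)) hz) (zc0 hB h hs (mm_off (mm_act Q c' hc')) hz)]
      ring
    rw [this, map_add, map_smul, map_add, map_smul, pr_add, pr_add, pr_smul, pr_smul]
    linear_combination k * h2 + h2'
  change R c
  induction hc using Submodule.span_induction with
  | mem c hc =>
    have hm : c ∈ MM N 1 d := Submodule.subset_span hc
    obtain ⟨a1, x1, h1⟩ := exh1 (mm_adm hm)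
    obtain ⟨a2, x2, h2⟩ := exh1 (mm_adm (mm_act (P * uP h.toPz1) c hm))
    obtain ⟨Φ, g1, -⟩ := hL N p h.toPz1 _ _ _ h1
    obtain ⟨Φ', g2, -⟩ := hL N p h.toPz1 _ _ _ h2
    obtain ⟨i, -, rfl⟩ := hc
    have i1 := io_u h.toPz1 (d := d) ⟨bb_int i, mm_off hm⟩
    have e1 : act 1 Q (bb 1 i) = U1 p (act 1 (P * uP h.toPz1) (bb 1 i)) := by
      rw [hQ, mul_assoc, act, map_mul, ← act_u h.toPz1]
      rfl
    have e2 : act 1 Q (bb 1 i) = act 1 (uP h.toPz1 * P) (U1 p (bb 1 i)) := by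
      rw [hQ, act, map_mul, ← act_u h.toPz1]
      rfl
    rw [← e1] at g2
    refine ⟨Φ', g2, ?_⟩
    rw [e2] at g2 ⊢
    exact A.ht _ _ Φ Φ' (pj_u h.toPz1 hG hP) i1.1 i1.2 g1 g2
  | zero => exact R0
  | add c c' hc hc' k k' => simpa using R1 1 c c' hc hc' k k'
  | smul k c hc t => simpa using R1 k c 0 hc (zero_mem _) t R0

end Gu

open Gu

/-- **row `FINP`** -/
theorem finp (hB : BD1) (hL : LIFT1) (hO : BOR1) (hK : KER1) : FINP :=
  fun N _ G a D p d β s V m l J ι hG h hs A c x hc ho hx he hp =>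
    fin hB hL hO hK hG h hs A hc ho hx he (μ := 1) (by simpa using hp)

/-- **row `MAIN`** -/
theorem main (hB : BD1) (hL : LIFT1) (hO : BOR1) (hK : KER1) (hX : GENX1) : MAIN := by
  intro N _ G a D p d β s V m l J ι hG hV h hs hm A
  have hN := hG.pos
  have u := du h
  have pz := h.toPz1
  have α := al_ne pz hG
  obtain ⟨hx, he, -⟩ := (hX N G a D hG).2 _ (ki l)
  obtain ⟨P, P0, hP⟩ := proj N (2 * N * 1) G a hG (by positivity) ⟨2, by ring⟩
  obtain ⟨hκ, ℓ, K0, -, K2⟩ := hK N p d β s h hs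
  have r0 : ((√(N * d : ℝ) : ℝ) : ℂ) ≠ 0 := ofReal_ne_zero.2 (Real.sqrt_ne_zero'.2 (by
    have := u.ok.odd.pos
    positivity))
  have key := keyx2 u hG (S := 2 * N * 1) (by positivity) (dvd_mul_right _ _) hx he
    (t := m * cS N 1 d * (a p - p - 1) * L1 a / (2 * (√(N * d : ℝ) : ℝ))) fun y hy ey => by
      obtain ⟨c, hc, hcy⟩ := ex_c1 u hG (S := 2 * N * 1) (by positivity) (dvd_mul_right _ _) hy ey
      have hk := pr_act1 (dvd_mul_right _ _) hy ey (P * uP pz) c 1 (by simpa using hcy)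
      have hc' := mm_act (P * uP pz) c hc
      obtain ⟨Φ, g1, g2⟩ := htc hB hL hG h hs A hP hc
      obtain ⟨a', x', h'⟩ := exh1 (mm_adm hc')
      obtain ⟨Φ', g3, g5⟩ := hL N p pz _ _ _ h'
      have g4 := K0 _ _ _ Φ' h' (mm_off hc') fun z hz =>
        g5 z (far hB h hs (mm_off hc') pz.pr.ne_zero z hz)
      have e0 : act 1 (uP pz * P * uP pz) c = U1 p (act 1 (P * uP pz) c) := by
        rw [mul_assoc, act, map_mul, ← act_u pz]
        rfl
      have o := mm_off (mm_act (uP pz * P * uP pz) c hc)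
      rw [e0] at g1 g2 o
      obtain ⟨C, hC⟩ := Bo.gu N _ Φ Φ' hN g1 g3
      have e1 : evd s (B1 N p d β) Φ' = evd s (B1 N p d β) Φ := by
        have h0 : ∑ z ∈ s, (B1 N p d β z : ℂ) = 0 := by exact_mod_cast (hB N p d β h).2.2.2.1 s hs
        rw [evd, evd, Finset.sum_congr rfl fun z hz => by
          rw [hC z (zc0 hB h hs o hz), mul_add], Finset.sum_add_distrib,
          ← Finset.sum_mul, h0, zero_mul, add_zero]
      have e2 : x' = (lmb a (P * uP pz) : ℂ) • y := eq_of_B1 _ hy h'.s fun z hz => by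
        rw [B, ← (pair1 h').2 z hz, hk z hz, mul_one]
      have e3 := K2 x' h'.s G a _ ⟨hG.pos, hG.s2, hG.qe, hG.one, hG.te⟩ hV
        (congrFun (eigx1 u hG (S := 2 * N * 1) (by positivity) h'.s (by
          rw [e2, ← add_zero (_ • y)]
          exact eig_comb _ ey fun l _ _ => by funext n r; simp [TT])))
      have f : pr (lg (ka1 p d β)) (act 1 (P * uP pz) c) +
          pr (lg ι) (U1 p (act 1 (P * uP pz) c)) = 0 := by
        obtain ⟨hd, ed⟩ := lgs_add hκ (lgs_uq pz.pr (spl h h.pr ((dvd_mul_left _ _).mul_left _))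
          A.lgs)
        rw [← lg_uq pz.pr (spl h h.pr ((dvd_mul_left _ _).mul_left _)) A.lgs, ← add_pr, ← ed,
          pr_fs hd]
        refine finsum_eq_zero_of_forall_eq_zero fun q => mul_eq_zero_of_left ?_ _
        rw [← fin hB hL hO hK hG h hs A (mm_adm hc') (mm_off hc') hy ey hk q, ← pr_uq, ← add_pr]
        exact pr_congr fun i _ => by simp
      rw [← e1, g4, add_right_comm, f, zero_add, e3, ← act_u pz, pr_eig he, hcy _ hx, e2,
        B_conj y] at g2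
      have g6 := congrArg conj g2
      simp only [lmb, map_mul, map_neg, conj_conj, map_natCast, map_intCast, map_ofNat,
        Pi.smul_apply, smul_eq_mul] at g6
      rw [show FreeAlgebra.lift ℤ _ (uP pz) = _ from lmb_u pz] at g6
      push_cast at g6
      have P1 : ((FreeAlgebra.lift ℤ (fun l : PA (2 * N * 1) => a l.1) P : ℤ) : ℂ) ≠ 0 :=
        Int.cast_ne_zero.2 P0
      refine mul_left_cancel₀ (mul_ne_zero P1 (pow_ne_zero 2 α)) ?_
      field_simp at g6 ⊢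
      linear_combination g6
  obtain ⟨e, w⟩ := ax0 N
  have n := w.cS (d := d) ▸ cS_ne (u.dual w)
  have n' := pet2_ne hG
  rw [key, smul_smul]
  congr 1
  rw [show m * cS N 1 d * (a p - p - 1) * L1 a / (2 * (√(N * d : ℝ) : ℝ)) /
    (cS N 1 d * pet2 N G G) = m * (a p - p - 1) * L1 a / (2 * (√(N * d : ℝ) : ℝ) * pet2 N G G) by
      field_simp]
  simp only [map_div₀, map_mul, map_sub, map_one, map_natCast, map_intCast, map_ofNat, conj_ofReal,
    l1_conj, pet_conj]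
  field_simp

/-- **row `GZX`** -/
theorem gzx (hE : EXD) (hB : BD1) (hW : WN1) (hD : DEGV) (hX : GENX1) (hA : ARO1) (hY : YK1)
    (hQ : YQ1) (hM : MAIN) : GZX := by
  intro N G a D d β s₀ c V hG hAL hV hg hs₀ hc pl
  have : NeZero N := ⟨hG.pos.ne'⟩
  obtain ⟨p, h, -⟩ := hE N d 1 β hG.pos hg one_ne_zero
  have u := du h
  have pz := h.toPz1
  have α := al_ne pz hG
  obtain ⟨s, hs⟩ := (Ar.ws_row N hG.pos).2.2.2.2.1 _ (hB N p d β h).2.1
  obtain ⟨m, m0, m1⟩ := deg (ae plc fun_row) Ar.ws_row N a D hG.pos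
  obtain ⟨l, J, ι, A⟩ := hA N G a D p d β s V m hG h hs pl ⟨m0, m1⟩
  obtain ⟨q1, q2⟩ := hQ N G a D d β s₀ hG hAL hV hg hs₀
  obtain ⟨y, hy⟩ := H.Fo.ex (P := yK D (B0 N d β) s₀) ((Set.finite_singleton _).subset (by
    rintro _ ⟨σ, rfl⟩
    exact q2 σ))
  refine ⟨y, hy, fun g => ?_, ?_⟩
  · obtain ⟨σ, hσ⟩ := H.ex_ext g
    exact Gl.iE_inj (by rw [← H.sp_iE hσ, hy, q2])
  obtain ⟨β', b1, b2⟩ := H.ex_bil _ (H.hh_par (a := D.A) (b := D.B) (Gl.pl_vq pl) (by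
    simp only [map_intCast]
    exact_mod_cast mul_ne_zero (by norm_num) D.par.disc))
  have e1 : iE ((a p - p - 1) • y) = yK D (B1 N p d β) s := by
    rw [map_zsmul, hy, hY N G a D p d β s s₀ hG h hs hs₀]
  have e2 : l (yK D (B1 N p d β) s) = (a p - p - 1) ^ 2 * (2 * H.hh (Gl.vq V) y) := by
    rw [← e1, A.hp _ _ e1, ← b1, ← b2]
    simp only [map_zsmul, AddMonoidHom.zsmul_apply, zsmul_eq_mul]
    push_cast
    ring
  have e3 : evd s (B1 N p d β) (lC D l ∘ D.I) = (l (yK D (B1 N p d β) s) : ℝ) := by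
    simp only [evd, yK, map_sum, map_zsmul, zsmul_eq_mul]
    push_cast
    rfl
  obtain ⟨i0, w⟩ := hW N p d β h
  have z0 : ∀ r, Finsupp.single (d, (β : ZMod (2 * N))) (1 : ℂ) (0, r) = 0 := fun r =>
    Finsupp.single_eq_of_ne fun e => u.ok.odd.pos.ne (congrArg Prod.fst e)
  obtain ⟨x1, x2⟩ := hX N G a D hG
  obtain ⟨-, -, x3⟩ := x2 _ (ki l)
  have e4 := (x3 _ z0).2 (uP pz)
  rw [(x3 _ ((x1 _ z0).2 (uP pz)).1).1, act_u, w s _ hs (fun γ hγ z =>
    congrArg (fun t => ((l t : ℝ) : ℂ)) (D.pi_inv γ hγ z)) 1 0 (fun z z' e => by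
      simp [q1 z z' e]), e3, e2, lmb_u, pr_single, one_mul] at e4
  have e5 := congrFun (congrFun (hM N G a D p d β s V m l J ι hG hV h hs ⟨m0, m1⟩ A) d) β
  simp only [Pi.smul_apply, smul_eq_mul, sn_co1 u hG.s2 hG.qe] at e5
  have e6 := hD N G a D m c hG ⟨m0, m1⟩ hc
  have s1 : ((√(d : ℝ) : ℝ) : ℂ) ^ 2 = d := by
    rw [← ofReal_pow, Real.sq_sqrt (by positivity)]; rfl
  have n1 : ((√(N : ℝ) : ℝ) : ℂ) ≠ 0 :=
    ofReal_ne_zero.2 (Real.sqrt_ne_zero'.2 (Nat.cast_pos.2 hG.pos))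
  have n2 : ((√(d : ℝ) : ℝ) : ℂ) ≠ 0 :=
    ofReal_ne_zero.2 (Real.sqrt_ne_zero'.2 (Nat.cast_pos.2 u.ok.odd.pos))
  have n3 : (m : ℂ) ≠ 0 := Nat.cast_ne_zero.2 m0.ne'
  rw [Real.sqrt_mul (by positivity), ← s1] at e5
  push_cast at e4 e5 ⊢
  refine mul_left_cancel₀ (mul_ne_zero (mul_ne_zero (pow_ne_zero 2 α) n1) (mul_ne_zero n2 n3)) ?_
  rw [L0]
  linear_combination π ^ 2 * (a p - p - 1 : ℂ) * e5 +
    2 * π ^ 2 * (√(N : ℝ) : ℝ) * (√(d : ℝ) : ℝ) * pet2 N G G * e4 +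
    2 * (a p - p - 1 : ℂ) ^ 2 * (√(N : ℝ) : ℝ) * (√(d : ℝ) : ℝ) * H.hh (Gl.vq V) y * e6

end Vale.Agent.P014T.Z
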