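import Vale.Agent.P014T.Z.Ka2

/-! # P014T, block Z1: the holomorphic geodesic kernel -/

open Complex MeasureTheory Filter Topology Set
open scoped Real ComplexConjugate NumberTheorySymbols UpperHalfPlane

noncomputable section

namespace Vale.Agent.P014T.Z.Ka

open P004Z P004Z.Kf P004Z.Du P004Z.Du.Pe

variable {N : ℕ} [NeZero N] {δ A : ℕ} {φ : ZMod (2 * N) → Fm → ℝ} {c₀ : ℝ}

/-- the data -/
structure Fd (δ A : ℕ) (φ : ZMod (2 * N) → Fm → ℝ) : Prop where
  ok : Ok N δ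
  gk : Gk δ (N * A) φ
  sup : ∀ r l, φ r l ≠ 0 → ∃ n : ℤ, disc l = A * n ∧ In N δ n r
  z1 : ∀ r, Dz fun k => φ r (0, 0, k)
  z2 : ∀ r, Dz fun k => φ r (k, 0, 0)

variable (A) in
/-- sums over the forms of discriminant `A n` whose geodesic meets the imaginary axis -/
def sg (f : ZMod (2 * N) → Fm → ℝ) : Cf N := fun n r =>
  ∑ q ∈ Pm (A * n), 2 * ∑ i ∈ q.2.divisorsAntidiagonal, (f r (-i.1, q.1, i.2) : ℂ)

namespace Fd

variable (h : Fd δ A φ)
include h

theorem pos : 0 < A := Nat.pos_of_mul_pos_left h.gk.pos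

theorem sp' (hc : 0 < c₀) (r : ZMod (2 * N)) (l : Fm) (v : ℝ)
    (k : (Tl (N * A) c₀ (φ r) l v : ℂ) ≠ 0) :
    ∃ n : ℤ, disc l = A * n ∧ In N δ n r ∧ (l.1 * l.2.2 = 0 → l.2.1 ≠ 0) := by
  have a := h.sup r
  by_contra j
  refine k (ofReal_eq_zero.2 ?_)
  by_cases e : l = (0, 0, 0)
  · exact e ▸ tl0 (h.gk.tf hc r) (h.z1 r) (h.z2 r) v
  simp only [Tl, RR, tt]
  split_ifs with h1 h2
  · have e' : l.2.1 ≠ 0 := fun i => e (Prod.ext h1.1 (Prod.ext i h1.2))
    have : ∀ k, φ r (0, l.2.1, k) = 0 ∧ φ r (k, l.2.1, 0) = 0 := fun k => by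
      refine ⟨by_contra fun i => ?_, by_contra fun i => ?_⟩ <;>
        exact j ((a _ i).imp fun n u => ⟨by simpa [disc, h1] using u.1, u.2, fun _ => e'⟩)
    simp [this]
  · simp
  · simp [show φ r l = 0 from by_contra fun i =>
      j ((a _ i).imp fun n u => ⟨u.1, u.2, fun e => absurd (mul_eq_zero.1 e) h2⟩)]

theorem ex {l : Fm} {n : ℤ} (e : disc l = A * n) : disc l / A = n ∧ xx (N * A) l = n / (4 * N) := by
  have := h.pos
  have := NeZero.pos N
  rw [xx, e, Int.mul_ediv_cancel_left _ (by positivity)]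
  push_cast
  exact ⟨rfl, by field_simp⟩

theorem lim (hc : 0 < c₀) {a : ℤ → ZMod (2 * N) → ℂ} {x : Cf N} {c : PP N} (H : Harm δ a x c)
    (o : ∀ i ∈ c.support, ¬ IsSquare (A * i.1)) : Tendsto (fun v => ∑ r, ∑' l, a (-(disc l / A)) r *
      Tl (N * A) c₀ (φ r) l v) atTop (𝓝 (pr (sg A fun r => lt c₀ (φ r)) c)) := by
  have d0 := h.pos
  rw [pr, Finsupp.sum_of_support_subset _ (s := c.support.image Prod.fst ×ˢ Finset.univ)
    (fun i hi => Finset.mem_product.2 ⟨Finset.mem_image_of_mem _ hi, Finset.mem_univ _⟩) _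
    (by simp), Finset.sum_product_right]
  refine tendsto_finsetSum _ fun r _ => ?_
  have a4 := h.sup r
  have s := H.sum r I (by simp)
  refine Eq.mp (congrArg (fun x => Tendsto _ _ (𝓝 x)) (HasSum.tsum_eq ?_)) ((h.gk.tf hc r).lim
    (C := ∑' n : ℤ, ‖a n r * ee (n * I / (4 * N))‖) (tsum_nonneg fun _ => norm_nonneg _)
    (fun l v e => by_contra fun k => ?_) fun l k => ?_)
  · refine (hasSum_sum fun n _ => (sum_D (f := fun l => lt c₀ (φ r) l) (fun l => by
      simp [lt, h.gk.odd, neg_div, div_neg]) _).mul_left _).congr_fun fun l => ?_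
    by_cases p : φ r l = 0
    · simp [lt, p]
    obtain ⟨n, e, -⟩ := a4 l p
    split_ifs with j
    · have n0 : 0 < n := (mul_pos_iff_of_pos_left (a := (A : ℤ)) (by positivity)).1 (by
        rw [← e, disc]; nlinarith [sq_nonneg l.2.1])
      lift n to ℕ using n0.le
      rw [(h.ex e).1, ← H.pp n r (Int.natCast_pos.1 n0), Finset.sum_eq_single n (fun b _ k => ?_)
        fun k => ?_, if_pos ⟨by exact_mod_cast e, j⟩]
      · rw [if_neg fun i => k (mul_left_cancel₀ d0.ne'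
          (by exact_mod_cast i.1.symm.trans e)), mul_zero]
      · rw [Finsupp.notMem_support_iff.1 fun i => k (Finset.mem_image_of_mem _ i), zero_mul]
    · simp [j]
  · obtain ⟨k1, k2⟩ := mul_ne_zero_iff.1 k
    obtain ⟨n, e1, -, e2⟩ := h.sp' hc r l v k2
    rw [(h.ex e1).1] at k1
    rw [disc, mul_assoc, e, mul_zero, sub_zero] at e1
    have n0 : 0 < n := (mul_pos_iff_of_pos_left (a := (A : ℤ)) (by positivity)).1
      (e1 ▸ sq_pos_of_ne_zero (e2 e))
    lift n to ℕ using n0.le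
    exact o (n, r) (Finsupp.mem_support_iff.2 (H.pp n r (Int.natCast_pos.1 n0) ▸ k1))
      (Int.isSquare_natCast_iff.1 ⟨l.2.1, by push_cast; linear_combination -e1⟩)
  · obtain ⟨n, e, -⟩ := a4 l k
    have := s.le_tsum (-n) fun _ _ => norm_nonneg _
    rw [norm_mul, Kf.ee_norm, ← le_div_iff₀ (Real.exp_pos _), div_eq_mul_inv, ← Real.exp_neg] at this
    rw [(h.ex e).1, (h.ex e).2]
    refine this.trans_eq ?_
    rw [show ((-n : ℤ) * I / (4 * N) : ℂ) = (-(n / (4 * N)) : ℝ) * I by push_cast; ring, mul_I_im,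
      ofReal_re, neg_neg, mul_neg]

theorem st (hc : 0 < c₀) {a : ℤ → ZMod (2 * N) → ℂ} {x : Cf N} {c : PP N} (H : Harm δ a x c)
    (o : ∀ i ∈ c.support, ¬ IsSquare (A * i.1)) :
    Tendsto (fun v => ∫ τ in FT v, ∑ r, hf a x r τ * Lo (FK (N * A) 1 φ r) τ) atTop
      (𝓝 (pr (sg A fun r => lt c₀ (φ r)) c - pet (FK (N * A) c₀ φ) (fn x))) := by
  refine (by_lim (kp phi h.ok) (fun r => (h.gk.tf hc r).ser) (fun r l v k => ?_)
    (fun τ => h.gk.lw hc) H (h.lim hc H o)).congr fun v =>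
      setIntegral_congr_fun (Sk.compact_FT v).measurableSet fun τ j => ?_
  · obtain ⟨n, e, i, -⟩ := h.sp' hc r l v k
    simpa only [(h.ex e).1, (h.ex e).2, true_and] using i
  · simp only [fun r => (((h.gk.tf hc r).ser.main.2 τ j.1.2.2).unique
      ((h.gk.tf one_pos r).ser.main.2 τ j.1.2.2))]

/-- **the pairing with the holomorphic kernel** -/
theorem f0 {a : ℤ → ZMod (2 * N) → ℂ} {x : Cf N} {c : PP N} (H : Harm δ a x c)
    (o : ∀ i ∈ c.support, ¬ IsSquare (A * i.1)) :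
    pr (sg A φ) c = conj ((∫ y in Ioi (0 : ℝ), SH (N * A) φ x (I * y)) / (√(N * A : ℕ) : ℝ)) := by
  have e0 := Real.exp_pos 1
  have e := tendsto_nhds_unique (h.st one_pos H o) (h.st e0 H o)
  obtain ⟨i1, e1⟩ := h.gk.fu one_pos H.s
  obtain ⟨i2, e2⟩ := h.gk.fu e0 H.s
  simp only [one_mul] at i1 e1
  let F : ℝ → ℂ := fun y => SH (N * A) φ x (I * y) * Real.log y - SH (N * A) φ x (I * y)
  have k : EqOn (fun y : ℝ => SH (N * A) φ x (I * (Real.exp 1 * y : ℝ)) * Real.log y)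
      (fun y => F (Real.exp 1 * y)) (Ioi 0) := fun y hy => by
    simp only [F, Real.log_mul e0.ne' (ne_of_gt hy), Real.log_exp, ofReal_add, ofReal_one]
    ring
  have i3 := (integrableOn_Ioi_comp_mul_left_iff F 0 e0).1 (i2.congr_fun k measurableSet_Ioi)
  rw [mul_zero] at i3
  have i4 : IntegrableOn (fun y : ℝ => SH (N * A) φ x (I * y)) (Ioi 0) :=
    (i1.sub i3).congr (.of_forall fun y => sub_sub_cancel _ _)
  rw [setIntegral_congr_fun measurableSet_Ioi k, integral_comp_mul_left_Ioi F 0 e0, mul_zero,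
    integral_sub i1 i4, real_smul, ofReal_inv, div_mul_eq_mul_div,
    mul_inv_cancel_left₀ (ofReal_ne_zero.2 e0.ne'), sub_div, map_sub] at e2
  rw [ofReal_one, one_div_mul_eq_div] at e1
  have : pr (sg A fun r => lt 1 (φ r)) c = pr (sg A fun r => lt (Real.exp 1) (φ r)) c +
      pr (sg A φ) c := by
    simp only [pr, Finsupp.sum, sg, ← Finset.sum_add_distrib, ← mul_add]
    refine Finset.sum_congr rfl fun _ _ => congrArg _ (Finset.sum_congr rfl fun q _ => congrArg _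
      (Finset.sum_congr rfl fun i hi => ?_))
    obtain ⟨e, m0⟩ := Nat.mem_divisorsAntidiagonal.1 hi
    obtain ⟨j1, j2⟩ := mul_ne_zero_iff.1 (e.trans_ne m0)
    have j1 : (i.1 : ℝ) ≠ 0 := Nat.cast_ne_zero.2 j1
    have j2 : (i.2 : ℝ) ≠ 0 := Nat.cast_ne_zero.2 j2
    rw [← ofReal_add]
    simp only [lt, Int.cast_neg, Int.cast_natCast, Nat.abs_cast, div_self j2, ← div_div,
      one_pow, div_one]
    rw [Real.log_div (div_ne_zero j2 (neg_ne_zero.2 j1)) (by positivity), Real.log_pow, Real.log_exp]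
    congr 1
    push_cast
    ring
  linear_combination e - this + e1 - e2

end Fd

end Vale.Agent.P014T.Z.Ka
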