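import Vale.Agent.P014T.Z.Defs
import Vale.Agent.P004Z.Th.Phi
import Vale.Agent.P004Z.Hd.He

/-!
# P014T, block Z1: the smoothed test function, definitions (helper41)
-/

set_option autoImplicit false
set_option linter.all false

open CongruenceSubgroup
open scoped NumberTheorySymbols MatrixGroups

namespace Vale.Agent.P014T.Z

open P004Z P004Z.Hd P004Z.Gq

variable {N p e : ℕ} {l m : Fm} {r : ZMod (2 * N)}

theorem disc_smul (k : ℤ) (l : Fm) : disc (k • l) = k ^ 2 * disc l := by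
  simp only [disc, Prod.smul_fst, Prod.smul_snd, smul_eq_mul]
  ring

theorem dv_fa {k : ℤ} (l : Fm) (γ : SL(2, ℤ)) :
    (k ∣ (fa l γ).1 ∧ k ∣ (fa l γ).2.1 ∧ k ∣ (fa l γ).2.2) ↔ k ∣ l.1 ∧ k ∣ l.2.1 ∧ k ∣ l.2.2 :=
  ⟨fun h => fa_inv l γ ▸ dvd_fa h.1 h.2.1 h.2.2 γ⁻¹, fun h => dvd_fa h.1 h.2.1 h.2.2 γ⟩

theorem om_fa (l : Fm) (γ : SL(2, ℤ)) : om p (fa l γ) = om p l := by simp only [om, dv_fa, disc_fa]

theorem om_neg (l : Fm) : om p (-l) = om p l := by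
  simp only [om, disc_neg, Prod.fst_neg, Prod.snd_neg, dvd_neg]

theorem om_zero : om p 0 = 0 := by simp [om]

theorem om_ne (h : om p l ≠ 0) : (p : ℤ) ^ 2 ∣ disc l := by
  rw [om] at h
  split_ifs at h with a b c
  · exact absurd rfl h
  · obtain ⟨μ, rfl⟩ := mem_smul.2 a
    exact ⟨_, disc_smul _ _⟩
  · exact c
  · exact absurd rfl h

/-- on multiples of `p` -/
theorem om_smul (hp : p ≠ 0) (l : Fm) : om p ((p : ℤ) • l) =
    if (p : ℤ) ∣ l.1 ∧ (p : ℤ) ∣ l.2.1 ∧ (p : ℤ) ∣ l.2.2 then 0 else J(disc l | p) - p := by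
  have p0 : (p : ℤ) ≠ 0 := Nat.cast_ne_zero.2 hp
  rw [om, if_pos (mem_smul.1 ⟨l, rfl⟩), disc_smul, Int.mul_ediv_cancel_left _ (pow_ne_zero 2 p0)]
  simp only [Prod.smul_fst, Prod.smul_snd, smul_eq_mul, sq, mul_dvd_mul_iff_left p0]

theorem disc_dvd {n : ℤ} (a : n ∣ l.1 - m.1) (b : n ∣ l.2.1 - m.2.1) (c : n ∣ l.2.2 - m.2.2) :
    n ∣ disc l - disc m := by
  rw [show disc l - disc m = (l.2.1 - m.2.1) * (l.2.1 + m.2.1) - ((l.1 - m.1) * (4 * l.2.2) +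
    (l.2.2 - m.2.2) * (4 * m.1)) by simp only [disc]; ring]
  exact (b.mul_right _).sub ((a.mul_right _).add (c.mul_right _))

theorem om_congr (hp : p ≠ 0) (a : (p : ℤ) ^ 2 ∣ l.1 - m.1) (b : (p : ℤ) ^ 2 ∣ l.2.1 - m.2.1)
    (c : (p : ℤ) ^ 2 ∣ l.2.2 - m.2.2) : om p l = om p m := by
  have d : (p : ℤ) ∣ p ^ 2 := dvd_pow_self _ two_ne_zero
  have p0 : (p : ℤ) ≠ 0 := Nat.cast_ne_zero.2 hp
  have k := and_congr (dvd_cg (d.trans a)) (and_congr (dvd_cg (d.trans b)) (dvd_cg (d.trans c)))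
  by_cases h : (p : ℤ) ∣ m.1 ∧ (p : ℤ) ∣ m.2.1 ∧ (p : ℤ) ∣ m.2.2
  · obtain ⟨μ, rfl⟩ := mem_smul.2 h
    obtain ⟨μ', rfl⟩ := mem_smul.2 (k.2 h)
    simp only [Prod.smul_fst, Prod.smul_snd, smul_eq_mul, sq, ← mul_sub,
      mul_dvd_mul_iff_left p0] at a b c
    simp only [om_smul hp, dvd_cg a, dvd_cg b, dvd_cg c, J_congr (disc_dvd a b c)]
  · rw [om, om, if_neg h, if_neg (k.not.2 h)]
    simp only [dvd_cg (disc_dvd a b c)]

/-- scaling by a number prime to `p` -/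
theorem om_unit (hp : p ≠ 0) {k : ℤ} (hk : IsCoprime k p) (l : Fm) : om p (k • l) = om p l := by
  have d1 := fun c => dv_iff (c := c) hk
  have d2 := fun c => dv_iff (c := c) (hk.pow_right (n := 2))
  by_cases h : (p : ℤ) ∣ l.1 ∧ (p : ℤ) ∣ l.2.1 ∧ (p : ℤ) ∣ l.2.2
  · obtain ⟨μ, rfl⟩ := mem_smul.2 h
    simp only [smul_comm k, om_smul hp, Prod.smul_fst, Prod.smul_snd, smul_eq_mul, d1, disc_smul,
      jacobiSym.mul_left, jacobiSym.sq_one' (Int.isCoprime_iff_gcd_eq_one.1 hk), one_mul]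
  · simp only [om, Prod.smul_fst, Prod.smul_snd, smul_eq_mul, d1, if_neg h, disc_smul,
      dv_iff (hk.pow (m := 2) (n := 2))]

theorem ps_ne (h : ps N p e r l ≠ 0) : (p : ℤ) ^ 2 ∣ disc l ∧ ph N e r l ≠ 0 :=
  ⟨om_ne (left_ne_zero_of_mul h), right_ne_zero_of_mul h⟩

theorem ps_zero : ps N p e r 0 = 0 := by rw [ps, om_zero, zero_mul]

theorem ps_fa (h : Odd e) (r : ZMod (2 * N)) (l : Fm) {γ : SL(2, ℤ)} (hγ : γ ∈ Gamma0 N) :
    ps N p e r (fa l γ) = ps N p e r l := by rw [ps, ps, om_fa, ph_fa h r l hγ]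

theorem ps_neg (h : Squarefree e) (r : ZMod (2 * N)) (l : Fm) :
    ps N p e (-r) (-l) = eps e * ps N p e r l := by rw [ps, ps, om_neg, ph_neg h, mul_left_comm]

theorem ps_congr (hp : p ≠ 0) (r : ZMod (2 * N)) (a : ((N * e * p ^ 2 : ℕ) : ℤ) ∣ l.1 - m.1)
    (b : ((2 * (N * e * p ^ 2) : ℕ) : ℤ) ∣ l.2.1 - m.2.1)
    (c : ((N * e * p ^ 2 : ℕ) : ℤ) ∣ l.2.2 - m.2.2) : ps N p e r l = ps N p e r m := by
  push_cast at a b c
  rw [ps, ps, om_congr hp ((dvd_mul_left _ _).trans a) (((dvd_mul_left _ _).mul_left _).trans b)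
    ((dvd_mul_left _ _).trans c), ph_congr r (by push_cast; exact (dvd_mul_right _ _).trans a)
      (by push_cast; exact Dvd.dvd.trans ⟨p ^ 2, by ring⟩ b)
      (by push_cast; exact (dvd_mul_right _ _).trans c)]

theorem ps_per (hp : p ≠ 0) (r : ZMod (2 * N)) : Per (N * e * p ^ 2) fun l => ps N p e r l :=
  fun l m => congrArg _ (ps_congr hp r (by simp) ⟨m.2.1, by push_cast; ring⟩ (by simp))

end Vale.Agent.P014T.Z
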