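import Vale.Agent.P014T.Z.Ari0
import Vale.Agent.P014T.Z.Defs

/-!
# P014T, block Z1: arithmetic of the smoothed test functions
-/

set_option autoImplicit false
set_option linter.all false

open Finset
open scoped NumberTheorySymbols Classical

noncomputable section

namespace Vale.Agent.P014T.Z

open Vale.Agent.P004Z Vale.Agent.P004Z.Kf Vale.Agent.P004Z.Kf.Ar Vale.Agent.P004Z.Hd
  Vale.Agent.P004Z.Gq A1

namespace A1

variable {N p : ℕ} {l l' : Fm}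

/-- all entries are divisible by `k` -/
def Dv (k : ℤ) (l : Fm) : Prop := k ∣ l.1 ∧ k ∣ l.2.1 ∧ k ∣ l.2.2

theorem om_eq (p : ℕ) (l : Fm) : om p l = if Dv p l then (if Dv (p ^ 2) l then 0
    else J(disc l / p ^ 2 | p) - p) else if (p : ℤ) ^ 2 ∣ disc l then 1 else 0 := by
  exact if_congr Iff.rfl (if_congr Iff.rfl rfl rfl) rfl

theorem Dv.disc {k : ℤ} (h : Dv k l) : k ^ 2 ∣ disc l := by
  obtain ⟨⟨a, ha⟩, ⟨b, hb⟩, c, hc⟩ := h
  exact ⟨b ^ 2 - 4 * a * c, by rw [P004Z.disc, ha, hb, hc]; ring⟩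

theorem om_of (h0 : p ≠ 0) {u x : ℤ} (hu : IsCoprime u p)
    (h1 : ∀ k : ℤ, k ∣ (p : ℤ) ^ 2 → (Dv k l ↔ Dv k l'))
    (h2 : disc l = u ^ 2 * disc l' + p ^ 2 * x) (h3 : Dv p l' → (p : ℤ) ∣ x) :
    om p l = om p l' := by
  have e : (p : ℤ) ^ 2 ∣ disc l ↔ (p : ℤ) ^ 2 ∣ disc l' := by
    rw [h2, dvd_add_left (dvd_mul_right _ _)]
    exact ⟨fun c => hu.pow.symm.dvd_of_dvd_mul_left c, fun c => c.mul_left _⟩
  have p2 : (p : ℤ) ^ 2 ≠ 0 := pow_ne_zero 2 (Int.natCast_ne_zero.2 h0)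
  simp only [om_eq, e, h1 p (dvd_pow_self _ two_ne_zero), h1 _ dvd_rfl]
  by_cases h : Dv p l'
  · obtain ⟨D, hD⟩ := h.disc
    obtain ⟨y, rfl⟩ := h3 h
    rw [if_pos h, if_pos h, h2, hD, show u ^ 2 * (p ^ 2 * D) + p ^ 2 * (p * y) =
      p ^ 2 * (D * u ^ 2 + p * y) by ring, Int.mul_ediv_cancel_left _ p2,
      Int.mul_ediv_cancel_left _ p2, J_congr (a := D * u ^ 2 + p * y) (b := D * u ^ 2)
        ⟨y, by ring⟩, jacobiSym.mul_left, jacobiSym.sq_one' (Int.isCoprime_iff_gcd_eq_one.1 hu),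
      mul_one]
  · rw [if_neg h, if_neg h]

theorem om_tor (h0 : p ≠ 0) {M : ℕ} (hM : p ^ 2 ∣ M) : Tor M (om p) := by
  obtain ⟨k, rfl⟩ := hM
  refine ⟨fun l m => ?_, fun u u' ⟨t, ht⟩ l => ?_⟩
  · refine om_of h0 (u := 1) (x := 4 * k * (l.2.1 * m.2.1 - l.1 * m.2.2 - l.2.2 * m.1 +
      p ^ 2 * k * (m.2.1 ^ 2 - m.1 * m.2.2))) isCoprime_one_left (fun q hq => ?_) ?_ ?_
    · have hq' : q ∣ ((p ^ 2 * k : ℕ) : ℤ) := by push_cast; exact hq.mul_right _
      exact and_congr (dvd_add_left (hq'.mul_right _)) (and_congr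
        (dvd_add_left ((hq'.mul_left _).mul_right _)) (dvd_add_left (hq'.mul_right _)))
    · simp only [disc]
      push_cast
      ring
    · rintro ⟨a, b, c⟩
      exact Dvd.dvd.mul_left (dvd_add (dvd_sub (dvd_sub (b.mul_right _) (a.mul_right _))
        (c.mul_right _)) (((dvd_pow_self _ two_ne_zero).mul_right _).mul_right _)) _
  · push_cast at ht
    refine om_of h0 (u := 1) (x := -4 * k * t * l.2.2 * l.1) isCoprime_one_left (fun q hq => ?_)
      ?_ fun h => h.1.mul_left _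
    · obtain ⟨s, hs⟩ := hq
      rw [hs] at ht
      exact and_congr ⟨fun ⟨w, hw⟩ => ⟨u' * w - s * k * t * l.1, by
          linear_combination u' * hw - l.1 * ht⟩, fun c => c.mul_left _⟩
        (and_congr Iff.rfl ⟨fun ⟨w, hw⟩ => ⟨u * w - s * k * t * l.2.2, by
          linear_combination u * hw - l.2.2 * ht⟩, fun c => c.mul_left _⟩)
    · simp only [disc]
      linear_combination (-4 * l.1 * l.2.2) * ht

theorem om_tr (h0 : p ≠ 0) : Tr (om p) := fun a b c t => by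
  refine om_of h0 (u := 1) (x := 0) isCoprime_one_left (fun q _ => ?_) ?_ fun _ => dvd_zero _
  · refine and_congr_right fun (ha : q ∣ a) => ?_
    simp only
    rw [dvd_add_left ((ha.mul_left 2).mul_right t)]
    exact and_congr_right fun hb => dvd_add_right (dvd_add (ha.mul_right _) (hb.mul_right _))
  · simp only [disc]
    ring

theorem om_smul (h0 : p ≠ 0) {β : ℤ} (hβ : IsCoprime β p) (l : Fm) : om p (β • l) = om p l := by
  refine om_of h0 (u := β) (x := 0) hβ (fun q hq => ?_) ?_ fun _ => dvd_zero _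
  · have c : IsCoprime q β := (hβ.pow_right.of_isCoprime_of_dvd_right hq).symm
    have e : ∀ x : ℤ, q ∣ β * x ↔ q ∣ x := fun x => ⟨c.dvd_of_dvd_mul_left, fun d => d.mul_left _⟩
    exact and_congr (e _) (and_congr (e _) (e _))
  · simp only [disc, Prod.smul_fst, Prod.smul_snd, smul_eq_mul]
    ring

theorem om_ne (h : om p l ≠ 0) : (p : ℤ) ^ 2 ∣ disc l := by
  by_contra c
  rw [om_eq, if_neg fun d : Dv p l => c d.disc, if_neg c] at h
  exact h rfl

theorem om_zero (hp : 1 < p) (h : disc l = 0) {s : ℤ}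
    (h1 : ∀ k : ℤ, k ∣ (p : ℤ) ^ 2 → (Dv k l ↔ k ∣ s)) :
    om p l = 1 - (p + 1) * (if (p : ℤ) ∣ s then 1 else 0) +
      p * if (p : ℤ) ^ 2 ∣ s then 1 else 0 := by
  simp only [om_eq, h, h1 p (dvd_pow_self _ two_ne_zero), h1 _ dvd_rfl, Int.zero_ediv,
    jacobiSym.zero_left hp, if_pos (dvd_zero _)]
  by_cases a : (p : ℤ) ^ 2 ∣ s
  · simp [a, (dvd_pow_self _ two_ne_zero).trans a]
  · by_cases b : (p : ℤ) ∣ s <;> simp [a, b]

theorem ph_one (r : ZMod (2 * N)) (l : Fm) :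
    ph N 1 r l = if (N : ℤ) ∣ l.1 ∧ (l.2.1 : ZMod (2 * N)) = r then 1 else 0 := by
  simp [ph, gc]

theorem ph_tor {M : ℕ} (hM : 2 * N ∣ M) (r : ZMod (2 * N)) : Tor M (ph N 1 r) := by
  obtain ⟨k, rfl⟩ := hM
  refine ⟨fun l m => ?_, fun u u' ⟨t, ht⟩ l => ?_⟩ <;> rw [ph_one, ph_one]
  · refine if_congr (and_congr (dvd_iff_dvd_of_dvd_sub ⟨2 * k * m.1, by push_cast; ring⟩) ?_) rfl rfl
    rw [cast_eq (b := l.2.1) ⟨2 * k * m.2.1, by push_cast; ring⟩]
  · push_cast at ht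
    exact if_congr (and_congr_left' ⟨fun ⟨w, hw⟩ => ⟨u' * w - 2 * k * t * l.1, by
      linear_combination u' * hw - l.1 * ht⟩, fun c => c.mul_left _⟩) rfl rfl

theorem ph_tr (r : ZMod (2 * N)) : Tr (ph N 1 r) := fun a b c t => by
  rw [ph_one, ph_one]
  refine if_congr (and_congr_right fun ⟨s, hs⟩ => ?_) rfl rfl
  simp only at hs ⊢
  rw [cast_eq (b := b) ⟨s * t, by rw [hs]; push_cast; ring⟩]

theorem ps_tor (h0 : p ≠ 0) (r : ZMod (2 * N)) : Tor (2 * N * p ^ 2) (ps N p 1 r) := by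
  have a := om_tor h0 (dvd_mul_left (p ^ 2) (2 * N))
  have b := ph_tor (dvd_mul_right (2 * N) (p ^ 2)) r
  exact ⟨fun l m => by rw [ps, ps, a.per, b.per], fun u u' h l => by
    rw [ps, ps, a.tor u u' h, b.tor u u' h]⟩

theorem ps_tr (h0 : p ≠ 0) (r : ZMod (2 * N)) : Tr (ps N p 1 r) := fun a b c t => by
  rw [ps, ps, om_tr h0, ph_tr]

end A1

theorem ari1 {N : ℕ} [NeZero N] {p d M : ℕ} {β β' : ℤ} (r : ZMod (2 * N)) (hp : p.Prime)
    (h4 : (4 * N : ℤ) ∣ p - 1) (hM : 2 * N * p ^ 4 ∣ M) (hS : Sp M d β')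
    (hβ : (2 * N : ℤ) ∣ β' - β) :
    Tor M (tv p (ps N p 1 (β * r))) ∧
    (∀ l, tv p (ps N p 1 r) l = tv p (ps N p 1 (β * r)) (β' • l)) ∧
    (∀ l, tv p (ps N p d (β * r)) l =
      if (d : ℤ) ∣ disc l then tv p (ps N p 1 (β * r)) l * gc d l else 0) ∧
    (∀ l, tv p (ps N p d (β * r)) l ≠ 0 → ∃ n : ℤ, disc l = p ^ 4 * d * n ∧ In N 1 n r) ∧
    ∀ k : ℤ, tv p (ps N p 1 (β * r)) (0, 0, k) = 0 ∧ tv p (ps N p 1 (β * r)) (k, 0, 0) =
      if (N : ℤ) ∣ k ∧ (β * r : ZMod (2 * N)) = 0 then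
        (1 - p : ℤ) * (1 - (p + 1) * (if (p : ℤ) ∣ k then 1 else 0) +
          (p - 1) * (if (p : ℤ) ^ 2 ∣ k then 1 else 0) +
          (p + 1) * (if (p : ℤ) ^ 3 ∣ k then 1 else 0) - p * (if (p : ℤ) ^ 4 ∣ k then 1 else 0))
      else 0 := by
  have h0 := hp.ne_zero
  have p0 : (p : ℤ) ≠ 0 := Int.natCast_ne_zero.2 h0
  have cM : IsCoprime (d : ℤ) M := (Nat.isCoprime_iff_coprime.2 hS.cop).symm
  have dM : (2 * N * p ^ 4 : ℤ) ∣ M := by exact_mod_cast hM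
  have d1 : (p : ℤ) ∣ M := (Dvd.intro_left (2 * N * p ^ 3 : ℤ) (by ring)).trans dM
  have d2 : (2 * N : ℤ) ∣ M := (dvd_mul_right _ _).trans dM
  have cβ : IsCoprime β' M := by
    obtain ⟨s, hs⟩ := hS.rt
    obtain ⟨a, b, e⟩ := cM
    exact ⟨-a * β', b + 4 * a * s, by linear_combination e - a * hs⟩
  have c1 : IsCoprime β' p := cβ.of_isCoprime_of_dvd_right d1
  have c2 : IsCoprime β' (2 * N) := cβ.of_isCoprime_of_dvd_right d2
  have c3 : IsCoprime (d : ℤ) p := cM.of_isCoprime_of_dvd_right d1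
  have c4 : p.Coprime d := Nat.isCoprime_iff_coprime.1 c3.symm
  have eβ : (β' : ZMod (2 * N)) = β := cast_eq (by exact_mod_cast hβ)
  obtain ⟨w, hw⟩ := h4
  refine ⟨tv_tor h0 (ps_tor h0 _) (ps_tr h0 _) ((dvd_of_eq (by ring)).trans hM),
    tv_smul h0 c1 fun m => ?_, tv_gc h0 c4 fun m => ?_, fun l hl => ?_,
    fun k => ⟨tv_c h0 _ k, ?_⟩⟩
  · rw [ps, ps, om_smul h0 c1, ph_one, ph_one]
    congr 1
    refine if_congr (and_congr ⟨fun c => c2.of_mul_right_right.symm.dvd_of_dvd_mul_left c,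
      fun c => c.mul_left _⟩ ?_) rfl rfl
    obtain ⟨a, b, e⟩ := c2
    have e1 : (a : ZMod (2 * N)) * β' = 1 := by
      exact_mod_cast cast_eq (n := 2 * N) (a := a * β') (b := 1) ⟨-b, by
        push_cast; linear_combination e⟩
    rw [← eβ]
    simp only [Prod.smul_fst, Prod.smul_snd, smul_eq_mul, Int.cast_mul]
    exact (IsUnit.of_mul_eq_one_right _ e1).mul_right_inj
  · rw [ps, ps, ph_one, ph]
    by_cases k : (d : ℤ) ∣ disc m <;> simp [k]
  · obtain ⟨j, m, rfl, hm⟩ := tv_ne h0 hl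
    obtain ⟨⟨a, ha⟩, hb, hd, -⟩ := ph_ne (right_ne_zero_of_mul hm)
    obtain ⟨n, hn⟩ := c3.pow_right.symm.mul_dvd (om_ne (left_ne_zero_of_mul hm)) hd
    refine ⟨n, by rw [disc_up, hn]; ring, ?_⟩
    have e1 : (2 * N : ℤ) ∣ m.2.1 - β' * r.val := by
      have := (ZMod.intCast_eq_intCast_iff_dvd_sub (β' * r.val) m.2.1 (2 * N)).1 (by
        simp [hb, eβ])
      exact_mod_cast this
    obtain ⟨s, hs⟩ := sq_dvd e1
    obtain ⟨t, ht⟩ := ((mul_dvd_mul_left 4 ((dvd_mul_left _ 2).trans d2)).trans hS.rt)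
    have c5 : IsCoprime (4 * N : ℤ) d := by
      have c6 := (cM.of_isCoprime_of_dvd_right d2).symm
      rw [show (4 * N : ℤ) = 2 * (2 * N) by ring]
      exact c6.of_mul_left_left.mul_left c6
    refine c5.dvd_of_dvd_mul_left ⟨s + t * r.val ^ 2 - a * m.2.2 - w * (p + 1) * d * n, ?_⟩
    rw [disc, ha] at hn
    push_cast
    linear_combination hs + (r.val : ℤ) ^ 2 * ht - hn - ((p + 1) * d * n) * hw
  · have pp := Nat.prime_iff_prime_int.1 hp
    have cN : IsCoprime (N : ℤ) p := ⟨-4 * w, 1, by linear_combination hw⟩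
    rw [tv_a hp _ k ((1 - (p + 1) * (if (p : ℤ) ^ 3 ∣ k then 1 else 0) +
      p * if (p : ℤ) ^ 4 ∣ k then 1 else 0) * ph N 1 (β * r) (k, 0, 0)) fun s j hs hj => ?_, ps,
      om_zero hp.one_lt (by simp [disc]) (s := k) fun q _ => by simp [Dv], ph_one]
    · simp only [Int.cast_zero, eq_comm (a := (0 : ZMod (2 * N)))]
      by_cases a : (N : ℤ) ∣ k ∧ (β * r : ZMod (2 * N)) = 0
      · simp only [if_pos a, mul_one]
        by_cases b : (p : ℤ) ^ 2 ∣ k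
        · simp only [if_pos b]
          ring
        · simp only [if_neg b, if_neg fun c : (p : ℤ) ^ 3 ∣ k =>
            b ((pow_dvd_pow _ (by norm_num)).trans c), if_neg fun c : (p : ℤ) ^ 4 ∣ k =>
            b ((pow_dvd_pow _ (by norm_num)).trans c)]
          ring
      · simp only [if_neg a, mul_zero, ite_self, sub_zero]
    · have cj : IsCoprime ((p : ℤ) ^ 2) (j ^ 2) := (pp.irreducible.coprime_iff_not_dvd.2 hj).pow
      have e3 : (p : ℤ) ^ 3 ∣ k ↔ (p : ℤ) ∣ s := by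
        rw [hs, pow_succ, mul_dvd_mul_iff_left (pow_ne_zero 2 p0)]
      have e4 : (p : ℤ) ^ 4 ∣ k ↔ (p : ℤ) ^ 2 ∣ s := by
        rw [hs, show 4 = 2 + 2 from rfl, pow_add, mul_dvd_mul_iff_left (pow_ne_zero 2 p0)]
      rw [ps, om_zero hp.one_lt (by simp only [disc, hs]; ring) (s := s) fun q hq => ⟨fun c =>
        (cj.of_isCoprime_of_dvd_left hq).dvd_of_dvd_mul_right c.2.2, fun c => ⟨hs ▸ c.mul_left _,
          ((c.mul_left _).mul_right _).neg_right, c.mul_right _⟩⟩, ph_one, ph_one]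
      simp only [e3, e4]
      congr 1
      refine if_congr (and_congr_right fun c => ?_) rfl rfl
      rw [hs] at c
      obtain ⟨y, hy⟩ := cN.pow_right.dvd_of_dvd_mul_left c
      rw [cast_eq (b := 0) ⟨-(p * y * j), by rw [hy]; push_cast; ring⟩]

end Vale.Agent.P014T.Z
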