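import Vale.Agent.P014T.Z.St
import Vale.Agent.P004Z.Bo.Bor

/-! # P014T, block Z1: Borcherds products without twist -/

set_option linter.all false

open Complex Filter Topology Metric CongruenceSubgroup
open UpperHalfPlane hiding I
open scoped Real MatrixGroups NumberTheorySymbols

noncomputable section

namespace Vale.Agent.P014T.Z

open P004Z P004Z.Bo

theorem gs1 : gs 1 = 1 := by simp [gs, ee]

section
variable {N : ℕ} [NeZero N] {δ : ℕ}

/-- integral principal parts -/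
def IP (N : ℕ) : AddSubgroup (PP N) where
  carrier := {c | IsInt c}
  zero_mem' := fun _ => ⟨0, by simp⟩
  add_mem' {c c'} h h' := fun i => by
    obtain ⟨k, e⟩ := h i
    obtain ⟨k', e'⟩ := h' i
    exact ⟨k + k', by simp [e, e']⟩
  neg_mem' {c} h := fun i => by
    obtain ⟨k, e⟩ := h i
    exact ⟨-k, by simp [e]⟩

theorem ip_single (i : ℕ × ZMod (2 * N)) (k : ℤ) : Finsupp.single i (k : ℂ) ∈ IP N := by
  classical
  exact fun j => ⟨if i = j then k else 0, by simp [Finsupp.single_apply]⟩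

theorem int_tt (l : ℕ) {c : PP N} (h : IsInt c) : IsInt (Tt δ l c) := by
  change Tt δ l c ∈ IP N
  rw [← c.sum_single, Finsupp.sum, map_sum]
  refine sum_mem fun i hi => ?_
  obtain ⟨k, e⟩ := h i
  rw [e, Gl.tt_single, Int.cast_smul_eq_zsmul]
  refine zsmul_mem (add_mem (add_mem ?_ (ip_single _ _)) ?_) k
  · simpa using ip_single (l ^ 2 * i.1, (l : ZMod (2 * N)) * i.2) 1
  · split_ifs with d
    · simpa using ip_single (i.1 / l ^ 2, (l : ZMod (2 * N))⁻¹ * i.2) l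
    · exact zero_mem _

theorem int_u1 (p : ℕ) {c : PP N} (h : IsInt c) : IsInt (U1 p c) := fun i => by
  obtain ⟨k, e⟩ := int_tt (δ := 1) p h i
  obtain ⟨k', e'⟩ := h i
  exact ⟨k - (p + 1) * k', by simp [U1, e, e']⟩

theorem zc_int {c : PP N} (h : IsInt c) (z : ℍ) : ∃ m : ℤ, (m : ℂ) = Zc δ c z :=
  Subring.mem_bot.1 (sum_mem fun i _ => by
    obtain ⟨k, e⟩ := h i
    exact mul_mem (e ▸ intCast_mem _ k) (intCast_mem _ _))

end

/-- **BOR1** -/
theorem bor1 (hE : EXP1) : BOR1 := fun N _ p ok c ⟨a, ha⟩ => by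
  obtain ⟨Φ, hΦ, k, b, C, Y, k0, hY⟩ := hE N p ok a c ha
  have hn := zc_int (δ := 1) (int_u1 p (Gl.WH.int ⟨a, ha⟩))
  choose n hn using hn
  obtain e : Zc 1 (U1 p c) = fun z => (n z : ℂ) := funext fun z => (hn z).symm
  rw [e] at hΦ ⊢
  obtain ⟨Ψ, χ, h1, h2, h3, h4⟩ := uni0 _ n Φ hΦ
  obtain ⟨_, y, hy⟩ := hΦ.bdd 1
  simp only [one_smul, Int.cast_eq_zero] at hy
  set S : ℂ → ℂ := fun q => ∑' j, bx 1 b j * q ^ j with hS
  simp only [ee_nat] at hY
  obtain ⟨S1, S2⟩ : AnalyticAt ℂ S 0 ∧ tay S = .mk (bx 1 b) := by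
    obtain ⟨s, hs, -⟩ := hY ⟨(|Y| + 1 : ℝ) * I, by simp; positivity⟩ (by
      simp [UpperHalfPlane.im]; linarith [le_abs_self Y])
    exact tay_tsum (ee_ne _) hs.summable
  obtain ⟨r, r0, hr⟩ := Metric.eventually_nhds_iff_ball.1 S1.eventually_analyticAt
  set t := max (max Y y) (-Real.log r / (2 * π)) with ht
  have big : ∀ z : ℍ, t < z.im ↔ ‖ee z‖ < Real.exp (-2 * π * t) := fun z => by
    rw [norm_ee, Real.exp_lt_exp, mul_lt_mul_left_of_neg (by linarith [Real.pi_pos])]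
    rfl
  have n0 : ∀ z : ℍ, t < z.im → n z = 0 := fun z hz =>
    (hy z ((le_max_of_le_left (le_max_right _ _)).trans_lt hz)).1
  obtain ⟨u, u1, u2⟩ := rig (U := {z : ℍ | t < z.im}) (n := fun _ => 0)
    (Ψ := fun z => Ψ z ^ (2 * k)) (Ψ' := fun z => Real.exp (-C) * exp (-S (ee z)))
    (isOpen_lt continuous_const UpperHalfPlane.continuous_im) (pre_im t)
    (fun w hw => by simpa [n0 w hw] using MAt.pow (h1 w) (2 * k))
    (fun w hw => ⟨fun z => Real.exp (-C) * exp (-S (ee z)), analyticAt_const.mul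
      ((hr _ (mem_ball_zero_iff.2 (((big w).1 hw).trans_le (by
        rw [← Real.exp_log r0, Real.exp_le_exp]
        have := (div_le_iff₀ (by positivity)).1 (le_max_right _ _ : _ ≤ t)
        linarith)))).comp (an_ee w)).neg.cexp, by simp, by simp⟩)
    fun z hz _ => by
      obtain ⟨s, hs, h⟩ := hY z ((le_max_of_le_left (le_max_left _ _)).trans_lt hz)
      rw [norm_pow, h3 z (n0 z hz), norm_mul, norm_exp, norm_real, Real.norm_of_nonneg
        (Real.exp_pos _).le, ← Real.exp_nat_mul, ← Real.exp_add, show S (ee z) = s from hs.tsum_eq,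
        neg_re]
      congr 1
      push_cast
      linarith
  have u0 : u * Real.exp (-C) ≠ 0 := mul_ne_zero (norm_pos_iff.1 (u1 ▸ one_pos)) (by simp)
  have u3 : ∀ z : ℍ, ‖ee z‖ < Real.exp (-2 * π * t) →
      (u * Real.exp (-C))⁻¹ * Ψ z ^ (2 * k) = exp (-S (ee z)) := fun z hz => by
    rw [u2 z ((big z).2 hz), ← mul_assoc u, inv_mul_cancel_left₀ u0]
  have law : ∀ γ ∈ Gamma0 N, ∀ z, (u * Real.exp (-C))⁻¹ * Ψ (γ • z) ^ (2 * k) =
      χ γ ^ (2 * k) * ((u * Real.exp (-C))⁻¹ * Ψ z ^ (2 * k)) := fun γ hγ z => by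
    rw [(h4 γ hγ).2, mul_pow, mul_left_comm]
  have par : ∀ (g : SL(2, ℤ)) (m : ℕ), 0 < m → g * ModularGroup.T ^ m * g⁻¹ ∈ Gamma0 N → ∀ z,
      Ψ ((g * ModularGroup.T ^ m * g⁻¹) • z) = Ψ z := fun g m hm h z => by
    rw [(h4 _ h).2, Ar.parab h1 h2 g hm (h4 _ h).1 (h4 _ h).2, one_mul]
  have N0 := NeZero.pos N
  obtain ⟨l, l0, hl⟩ := fin_ord (ψ := fun q => exp (-S q)) N0
    (fun w => (MAt.pow (h1 w) (2 * k)).cmul (inv_ne_zero u0))
    (fun z => by rw [← par 1 1 one_pos (by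
      rw [one_mul, inv_one, mul_one, pow_one, Gamma0_mem]; exact Int.cast_zero) z]; simp)
    (fun z => by
      rw [← par ModularGroup.S N N0 (dl_eq N ▸ inv_mem (Gamma0_mem.2 (by simp [dl]))) (dl N • z), dl_eq,
        inv_smul_smul])
    (Real.exp_pos _) u3 S1.neg.cexp (exp_ne_zero _) fun j =>
      tr_int (s := ({0} : Finset ℕ)) (e := fun _ => 1) (ζ := fun _ => 1)
        (χ := fun m => J(m | 1)) (g := gs 1) (r := 1) (fun _ => isIntegral_one)
        (fun m => by simp [gs1]) (by simp [gs1]) S1 S2 j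
  refine ⟨2 * k * l, fun z => (2 * k * l : ℕ) * n z, fun z => Ψ z ^ (2 * k * l), by positivity,
    fun z => by push_cast; rfl, fun w => MAt.pow (h1 w) _, h2.pow _, fun γ hγ z => ?_⟩
  simp only [(h4 γ hγ).2, mul_pow]
  rw [pow_mul _ _ l, hl γ _ (pow_ne_zero _ (norm_pos_iff.1 ((h4 γ hγ).1 ▸ one_pos))) (law γ hγ),
    one_mul]

end Vale.Agent.P014T.Z
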