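import Vale.Agent.P014T.Z.St
import Vale.Agent.P014T.Dg.Pz

/-! # P014T, block Z1: row DEGV -/

namespace Vale.Agent.P014T.Z

theorem degw : DEGV := fun _ _ _ D _ _ r h c => (P014T.Dg.pz r D h.deg c).trans (mul_assoc _ _ _).symm

end Vale.Agent.P014T.Z
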