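import Vale.Agent.P014T.Z.Aro
import Vale.Agent.P014T.Z.Genx
import Vale.Agent.P014T.Tg.St

/-! # P014T, block Z1: exports of the arithmetic side -/

set_option autoImplicit false
set_option linter.all false

open UpperHalfPlane CongruenceSubgroup Real
open scoped MatrixGroups Classical NumberTheorySymbols

noncomputable section

namespace Vale.Agent.P014T.Z

open P004Z P004Z.Ar
open Vale.Agent.P004Z.H (Fo PlC)

variable {N : ℕ} [NeZero N] {a : ℕ → ℤ} {p d : ℕ} {β : ℤ} {s : Finset ℍ}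

/-- the points in the support have large discriminant -/
theorem cm1 (bd : BD1) (hd : Dz N p d β) {b : ℍ} (hb : B1 N p d β b ≠ 0) : Tg.Cm N b := by
  obtain ⟨h1, h2⟩ := (bd N p d β hd).2.2.2.2 b hb
  obtain ⟨l, -, e, l0, -⟩ := Hd.Zp_ne h1
  refine ⟨⟨l, fun k => by simp [k] at l0, e⟩, fun l l0 e => ?_⟩
  have h3 := Hd.root_neg e fun k => l0 (Hd.root_zero e k)
  obtain ⟨n, hn⟩ := Int.eq_ofNat_of_zero_le (neg_pos.2 h3).le
  obtain ⟨k, hk⟩ := h2 n l (by rw [← hn, neg_neg]) e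
  have n0 : 0 < n := by omega
  have h4 : d ∣ k := (hd.dat.sq.dvd_pow_iff_dvd two_ne_zero).1 ⟨n, by rw [sq, ← hk, one_mul]⟩
  obtain ⟨j, rfl⟩ := h4
  have d0 : 0 < d := Nat.pos_of_ne_zero hd.dat.sq.ne_zero
  have h5 : d ≤ n := Nat.le_of_dvd n0 ⟨j * j, Nat.eq_of_mul_eq_mul_left d0 (by
    rw [← one_mul d, hk]; ring)⟩
  have h6 : 4 * N ^ 2 < n := by
    have := hd.dat.big
    have : N ^ 2 ≤ N ^ 4 := Nat.pow_le_pow_right (NeZero.pos N) (by norm_num)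
    omega
  have : (4 * N ^ 2 : ℤ) < n := by exact_mod_cast h6
  omega

/-- `uq` is the transpose of `U1` -/
theorem pr_uq (p : ℕ) (ι : ℕ → ℕ → ZMod (2 * N) → ℚ) (q : ℕ) (c : PP N) :
    pr (fun n r => (ι q n r : ℂ)) (U1 p c) = pr (fun n r => (uq p ι q n r : ℂ)) c := by
  rw [Ge.pr_u1, ← Gl.smul_pr, sub_eq_iff_eq_add, ← Gl.add_pr]
  refine Gl.pr_congr fun i _ => ?_
  simp only [TT, uq, Pi.add_apply, Pi.smul_apply, smul_eq_mul, Nat.cast_one, jacobiSym.one_right,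
    one_mul]
  split_ifs <;> push_cast <;> ring

theorem io_u1 (hp : p ≠ 0) {c : PP N} (h : c ∈ IO 1 d) : U1 p c ∈ IO 1 d := by
  have := sub_mem (io_Tt hp h) (nsmul_mem h (p + 1))
  rwa [← Nat.cast_smul_eq_nsmul ℂ, Nat.cast_succ] at this

variable {D : Pz N a} {B : ℍ → ℤ} {V : ℕ → AbsoluteValue ℂ ℝ} {m : ℕ} {l : D.E →+ ℝ}
  {J : ℕ → (ℍ → ℤ) →+ ℝ} {ι : ℕ → ℕ → ZMod (2 * N) → ℚ}

/-- **the `log q` part is the sum of the two local symbols** -/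
theorem Ao.iot (A : Ao D d B s V m l J ι) {θ : ℂ} {xm : D.E → P022.H218.L3.Mer}
    (X : Cx D 1 B s θ xm) (hV : PlC V) {c : PP N} (hc : IsInt c) (ho : Off 1 d c) {n : ℍ → ℤ}
    (e : cs n = Zc 1 c) (hn : Eg N 1 n) {k : ℤ} (k0 : k ≠ 0) {h : P022.H218.L3.MF (Gamma0 N)}
    {t u : ℂ} (e0 : Dec D s (k • n) h t u) (g1 : D.Gd s (D.ex t))
    (g2 : D.Gd s (D.ex t + D.ex u)) (f1 : D.ex t ∈ Fo D.A D.B) (f2 : D.ex u ∈ Fo D.A D.B)
    {q : ℕ} (hq : q.Prime) : ∃ x : ℚ, pr (fun n r => (ι q n r : ℂ)) c = x ∧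
      k * x * log q = Sy D B s (V q) h t u + Sy D B s (cV (V q)) h t u := by
  obtain ⟨x, e1⟩ := X.rat e0 (hn.smul k) g1 g2 f1 f2 (ov_of hV hq)
  obtain ⟨x', e2⟩ := X.rat e0 (hn.smul k) g1 g2 f1 f2 (V := cV (V q)) ((ov_of hV hq).comp _)
  rw [hV.self q hq, log_inv] at e1
  rw [show cV (V q) q = (q : ℝ)⁻¹ by
    rw [← hV.self q hq]; exact congrArg (V q) (map_natCast H.cj q), log_inv] at e2
  have k1 : (k : ℝ) ≠ 0 := Int.cast_ne_zero.2 k0
  have h1 := A.sy q _ h t u hq e0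
  rw [map_zsmul, zsmul_eq_mul] at h1
  have h2 : J q n = (-(x + x') / k : ℚ) * log q := by
    push_cast
    field_simp
    linear_combination h1 + e1 + e2
  exact ⟨_, A.io q c n _ hq hc ho e h2, by rw [mul_assoc, ← h2, h1]⟩

end Vale.Agent.P014T.Z
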