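import Vale.Agent.P004Z.Kf.Fu

/-! # P014T, block Z1: abstract geodesic kernels -/

open Complex MeasureTheory Filter Topology Set
open scoped Real ComplexConjugate NumberTheorySymbols UpperHalfPlane

noncomputable section

namespace Vale.Agent.P014T.Z.Ka

open P004Z P004Z.Kf P004Z.Du P004Z.Du.Pe

variable {N : ℕ} [NeZero N] {δ ν : ℕ} {c : ℝ} {φ : ZMod (2 * N) → Fm → ℝ} {τ : ℂ} {x : Cf N}

/-- test functions of geodesic kernels -/
structure Gk (δ ν : ℕ) (φ : ZMod (2 * N) → Fm → ℝ) : Prop where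
  pos : 0 < ν
  bd : ∃ B, ∀ r l, |φ r l| ≤ B
  odd : ∀ r (l : Fm), φ r (-l.1, l.2.1, -l.2.2) = -φ r l
  per : ∃ μ : ℕ, 0 < μ ∧ ∀ r (n k m : ℤ),
    φ r (0, n, k + μ * m) = φ r (0, n, k) ∧ φ r (k + μ * m, n, 0) = φ r (k, n, 0)
  law : ∀ τ z : ℂ, 0 < τ.im → 0 < z.im → ∀ r, th1 ν (fun l => φ r l) (-1 / τ) z =
    -(τ * hw τ)⁻¹ * ∑ s, I * conj (sm N δ r s) * th1 ν (fun l => φ s l) τ z

variable (ν c φ) in
/-- the kernel function -/
abbrev FK (r : ZMod (2 * N)) : ℂ → ℂ := sF (xx ν) fun l v => Tl ν c (φ r) l v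

variable (ν φ x) in
/-- the lift -/
def SH (z : ℂ) : ℂ := ∫ τ in FD, (∑ r, fn x r τ * th1 ν (fun l => φ r l) τ z) / τ.im ^ 2

namespace Gk

variable (h : Gk δ ν φ) (hc : 0 < c)
include h hc

theorem kk (hτ : 0 < τ.im) (r : ZMod (2 * N)) (s : ℝ) :
    HasSum (fun l => ee (xx ν l * τ) * tt ν c (φ r) l τ.im s)
      (conj (th1 ν (fun l => φ r l) τ (I * (c * Real.exp s : ℝ))) *
        (c * Real.exp s * √(τ.im / ν) / τ.im ^ 2 : ℝ)) :=
  kk_th h.pos hτ hc (h.bd.choose_spec r) (h.odd r) s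

theorem tf (r : ZMod (2 * N)) : Tf ν c (φ r) :=
  ⟨h.pos, hc, h.bd.imp fun _ k => k r, h.per.imp fun _ k => ⟨k.1, k.2 r⟩,
    fun _ hτ s => (h.kk hc hτ r s).summable⟩

theorem lw (hτ : 0 < τ.im) (r : ZMod (2 * N)) :
    FK ν c φ r (-1 / τ) = τ ^ 2 / hw τ * ∑ s, sm N δ r s * FK ν c φ s τ := by
  have i := fun s => ((h.tf hc s).int hτ).choose_spec τ le_rfl
  simp only [FK, ← (((h.tf hc r).int (S_pos hτ)).choose_spec _ le_rfl).2.2, ← fun s => (i s).2.2,
    FF, ← integral_const_mul]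
  rw [← integral_finsetSum _ fun s _ => (i s).1.const_mul _, ← integral_const_mul]
  refine integral_congr_ae (.of_forall fun s => ?_)
  simp only [KK, (h.kk hc hτ _ s).tsum_eq, (h.kk hc (S_pos hτ) _ s).tsum_eq]
  rw [h.law _ _ hτ (by rw [I_mul_im, ofReal_re]; positivity), S_im,
    normSq_eq_norm_sq, div_right_comm, Real.sqrt_div' _ (sq_nonneg _), Real.sqrt_sq (norm_nonneg _)]
  simp only [map_mul, map_sum, map_neg, map_inv₀, conj_conj, conj_I, Finset.sum_mul,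
    Finset.mul_sum]
  refine Finset.sum_congr rfl fun i _ => ?_
  have t := Kf.ne0 hτ
  have t' : conj τ ≠ 0 := (map_ne_zero _).2 t
  have w := hw_ne hτ
  have w' : conj (hw τ) ≠ 0 := (map_ne_zero _).2 w
  have v' : (τ.im : ℂ) ≠ 0 := ofReal_ne_zero.2 hτ.ne'
  have n' : (‖τ‖ : ℂ) ≠ 0 := ofReal_ne_zero.2 (norm_ne_zero_iff.2 t)
  have e1 := hw_conj (τ := τ)
  have e2 : I * hw τ ^ 2 = τ := by rw [hw_sq, mul_div_cancel₀ _ I_ne_zero]
  have e3 := mul_conj' τ
  have e : I * hw τ * ‖τ‖ ^ 3 = τ ^ 2 * conj τ * conj (hw τ) := mul_left_cancel₀ w (by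
    linear_combination ‖τ‖ ^ 3 * e2 - τ ^ 2 * conj τ * e1 - τ * ‖τ‖ * e3)
  generalize √(_ / _) = R
  generalize conj (th1 _ _ _ _) = X
  push_cast
  field_simp
  linear_combination sm N δ r i * c * X * R * s * e

theorem sw (g s : ℝ) : ∫ τ in FD, ∑ r, KK ν c (φ r) τ s * g *
    (conj (fn x r τ) * (τ.im ^ (-(1 / 2) : ℝ) : ℝ)) =
      conj (c / √ν * (Real.exp s • (SH ν φ x (I * (c * Real.exp s : ℝ)) * g))) := by
  rw [real_smul, SH, ← integral_mul_const, ← integral_const_mul, ← integral_const_mul,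
    ← integral_conj]
  refine setIntegral_congr_fun Sk.closed_FD.measurableSet fun τ hτ => ?_
  have v0 := hτ.2.2
  simp only [KK, (h.kk hc v0 _ s).tsum_eq, Finset.mul_sum, Finset.sum_mul, Finset.sum_div, map_sum]
  refine Finset.sum_congr rfl fun r _ => ?_
  rw [Real.sqrt_div v0.le, Real.rpow_neg v0.le, ← Real.sqrt_eq_rpow]
  have : (√τ.im : ℂ) ≠ 0 := ofReal_ne_zero.2 (Real.sqrt_pos.2 v0).ne'
  simp only [map_mul, map_div₀, map_pow, conj_ofReal, ofReal_mul, ofReal_div,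
    ofReal_pow, ofReal_inv]
  field_simp

/-- **the Petersson product with the kernel** -/
theorem fu (hx : IsS δ x) :
    IntegrableOn (fun y : ℝ => SH ν φ x (I * (c * y : ℝ)) * Real.log y) (Ioi 0) ∧
    pet (FK ν c φ) (fn x) =
      conj (c / √ν * ∫ y in Ioi (0 : ℝ), SH ν φ x (I * (c * y : ℝ)) * Real.log y) := by
  have m := Sk.closed_FD.measurableSet
  have i := integrable_finsetSum Finset.univ fun r _ => (h.tf hc r).prod hx r
  have n : (c / √ν : ℂ) ≠ 0 := div_ne_zero (ofReal_ne_zero.2 hc.ne')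
    (ofReal_ne_zero.2 (Real.sqrt_pos.2 (Nat.cast_pos.2 h.pos)).ne')
  refine ⟨(Kf.exp_sub _).1.2 ?_, ?_⟩
  · have j := i.integral_prod_right
    simp only [h.sw hc] at j
    simpa only [Real.log_exp, conjCLE_apply, conj_conj, inv_mul_cancel_left₀ n] using
      (conjCLE.integrable_comp_iff.2 j).const_mul (c / √ν : ℂ)⁻¹
  rw [pet, setIntegral_congr_fun m (g := fun τ => ∫ s : ℝ, ∑ r, KK ν c (φ r) τ s * s *
    (conj (fn x r τ) * (τ.im ^ (-(1 / 2) : ℝ) : ℝ))) fun τ hτ => ?_, integral_integral_swap i,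
    (Kf.exp_sub _).2, ← integral_const_mul, ← integral_conj]
  · simp only [h.sw hc, Real.log_exp]
  · have j := fun r => ((h.tf hc r).int hτ.2.2).choose_spec τ le_rfl
    beta_reduce
    rw [integral_finsetSum _ fun r _ => (j r).1.mul_const _, Finset.sum_mul]
    simp only [FK, ← fun r => (j r).2.2, FF, integral_mul_const, mul_assoc (integral _ _)]

end Gk

/-- the degenerate coefficients -/
theorem tl_deg {φ : Fm → ℝ} (h : Tf ν c φ) (n : ℤ) {v : ℝ} (hv : 0 < v) :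
    Tl ν c φ (0, n, 0) v = (Real.log v / 2 + (Real.log c⁻¹ - Real.log ν / 2)) *
      (∫ t, hh (fun k => φ (0, n, k)) t) - (∫ t, hh (fun k => φ (0, n, k)) t * t) +
      ((Real.log v / 2 + (Real.log c - Real.log ν / 2)) * (∫ t, hh (fun k => φ (k, n, 0)) t) -
        ∫ t, hh (fun k => φ (k, n, 0)) t * t) := by
  obtain ⟨B, hB⟩ := h.bd
  obtain ⟨μ, hμ, p⟩ := h.per
  obtain ⟨C, hC⟩ := hh_int hμ B
  obtain ⟨a1, a2, -⟩ := hC (fun k => φ (0, n, k)) (fun k m => (p n k m).1) fun k => hB _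
  obtain ⟨b1, b2, -⟩ := hC (fun k => φ (k, n, 0)) (fun k m => (p n k m).2) fun k => hB _
  have hα : 0 < π * v / ν := div_pos (mul_pos Real.pi_pos hv) (Nat.cast_pos.2 h.pos)
  obtain ⟨i1, -, e1⟩ := hh_shift a1 a2 (Real.log v / 2 + (Real.log c⁻¹ - Real.log ν / 2))
  obtain ⟨i2, -, e2⟩ := hh_shift b1 b2 (Real.log v / 2 + (Real.log c - Real.log ν / 2))
  have e : ∀ s, RR ν c φ (0, n, 0) v s * s = -((fun s => hh (fun k => φ (0, n, k))
      (s + (Real.log v / 2 + (Real.log c⁻¹ - Real.log ν / 2))) * s) (-s) + hh (fun k => φ (k, n, 0))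
        (s + (Real.log v / 2 + (Real.log c - Real.log ν / 2))) * s) := fun s => by
    simp only [RR, and_self, if_true, tt, Int.cast_zero, zero_mul]
    simp only [ff_zero hα h.cpos, show ∀ k : ℤ, ff 0 (k * c⁻¹) (π * v / ν) s = _ from fun k =>
      (ff_swap _ _ _ _).trans (congrArg _ (ff_zero hα (inv_pos.2 h.cpos) _ _)),
      lgv h.pos h.cpos hv, lgv h.pos (inv_pos.2 h.cpos) hv, neg_neg, mul_neg, tsum_neg, hh]
    ring
  simp only [Tl, e, integral_neg]
  rw [integral_add i1.comp_neg i2, integral_neg_eq_self fun s => hh (fun k => φ (0, n, k))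
    (s + (Real.log v / 2 + (Real.log c⁻¹ - Real.log ν / 2))) * s, e1, e2]
  ring

/-- a double zero of the `L`-function at `0` -/
def Dz (f : ℤ → ℝ) : Prop := ∫ t, hh f t = 0 ∧ ∫ t, hh f t * t = 0

theorem tl0 {φ : Fm → ℝ} (h : Tf ν c φ) (z1 : Dz fun k => φ (0, 0, k)) (z2 : Dz fun k => φ (k, 0, 0))
    (v : ℝ) : Tl ν c φ (0, 0, 0) v = 0 := by
  rcases lt_or_ge 0 v with hv | hv
  · simp only [tl_deg h 0 hv, z1.1, z1.2, z2.1, z2.2, mul_zero, sub_zero, add_zero]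
  · have : √(π * v / ν / π) = 0 := Real.sqrt_eq_zero'.2 (div_nonpos_of_nonpos_of_nonneg
      (div_nonpos_of_nonpos_of_nonneg (mul_nonpos_of_nonneg_of_nonpos Real.pi_pos.le hv)
        ν.cast_nonneg) Real.pi_pos.le)
    simp [Tl, RR, tt, ff, this]

theorem dz0 {f : ℤ → ℝ} (h : ∀ k, f k = 0) : Dz f := by simp [Dz, hh, h]

theorem dz_poly {μ p : ℕ} (hμ : 0 < μ) (hp : 0 < p) {f g : ℤ → ℝ} {B : ℝ}
    (per : ∀ k m : ℤ, g (k + μ * m) = g k) (hB : ∀ k, |g k| ≤ B) (hg : ∀ k, g (p * k) = g k)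
    (s : Finset ℕ) (a : ℕ → ℝ) (h0 : ∑ i ∈ s, a i = 0) (h1 : ∑ i ∈ s, a i * i = 0)
    (hf : ∀ k, f k = ∑ i ∈ s, a i * if (p : ℤ) ^ i ∣ k then g k else 0) : Dz f := by
  obtain ⟨C, hC⟩ := hh_int hμ B
  obtain ⟨a1, a2, -⟩ := hC g per hB
  have gp : ∀ (i : ℕ) k, g (p ^ i * k) = g k := fun i => by
    induction i with
    | zero => simp
    | succ i e => intro k; rw [pow_succ, mul_assoc, e, hg]
  have e : ∀ t, hh f t = ∑ i ∈ s, a i * hh g (t + i * Real.log p) := fun t => by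
    refine HasSum.tsum_eq ((hasSum_sum fun i _ => HasSum.mul_left (a i) (f := fun k : ℤ =>
      (if (p : ℤ) ^ i ∣ k then g k else 0) * (k * Real.exp t * Real.exp (-π * (k * Real.exp t) ^ 2)))
        ?_).congr_fun fun k => by simp only [hf, Finset.sum_mul, mul_assoc])
    have j : Function.Injective fun k : ℤ => (p : ℤ) ^ i * k :=
      mul_right_injective₀ (by positivity)
    refine (j.hasSum_iff fun k hk => by rw [if_neg fun ⟨m, e⟩ => hk ⟨m, e.symm⟩, zero_mul]).1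
      ((hh_sum hμ per _).summable.hasSum.congr_fun fun k => ?_)
    rw [Function.comp_apply, if_pos (dvd_mul_right _ _), gp, Real.exp_add, ← Real.log_pow,
      Real.exp_log (by positivity)]
    push_cast
    ring_nf
  refine ⟨?_, ?_⟩
  · simp only [e]
    rw [integral_finsetSum _ fun i _ => (a1.comp_add_right _).const_mul _]
    simp only [integral_const_mul, integral_add_right_eq_self (hh g), ← Finset.sum_mul, h0,
      zero_mul]
  · simp only [e, Finset.sum_mul, mul_assoc]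
    rw [integral_finsetSum _ fun i _ => (hh_shift a1 a2 _).1.const_mul _]
    simp only [integral_const_mul, (hh_shift a1 a2 _).2.2]
    simp only [mul_sub, Finset.sum_sub_distrib, ← mul_assoc, ← Finset.sum_mul, h0, h1, zero_mul,
      sub_zero]

end Vale.Agent.P014T.Z.Ka
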