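import Vale.Agent.P014T.Z.Ka0
import Vale.Agent.P004Z.Kf.Mt

/-! # P014T, block Z1: the abstract data; the lowered kernel -/

open Complex MeasureTheory Filter Topology Set
open scoped Real ComplexConjugate NumberTheorySymbols UpperHalfPlane

noncomputable section

namespace Vale.Agent.P014T.Z.Ka

open P004Z P004Z.Kf P004Z.Du P004Z.Du.Pe

variable {N : ℕ} [NeZero N] {δ A M d : ℕ} {β : ℤ} {ψ : ZMod (2 * N) → Fm → ℤ} {t : Finset Fm}
  {w : Fm → ℍ} {c : ℝ}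

/-- the test function times the genus character -/
def pg (d : ℕ) (ψ : Fm → ℤ) (l : Fm) : ℤ := if (d : ℤ) ∣ disc l then ψ l * gc d l else 0

variable (d ψ) in
/-- the same, real valued -/
def pf (r : ZMod (2 * N)) (l : Fm) : ℝ := pg d (ψ r) l

/-- the data -/
structure Cd (δ A M d : ℕ) (β : ℤ) (ψ : ZMod (2 * N) → Fm → ℤ) : Prop where
  ok : Ok N δ
  sp : Sp M d β
  m8 : d % 8 = 7
  pos : 0 < A
  bd : ∃ B : ℝ, ∀ r l, ‖(ψ r l : ℂ)‖ ≤ B
  tor : ∀ r, Tor M (ψ r)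
  l0 : ∀ τ z : ℂ, 0 < τ.im → 0 < z.im → ∀ r, th0 (N * A) (fun l => ψ r (β • l)) (-1 / τ) z =
    (hw τ)⁻¹ * ∑ s, sm N δ r s * th0 (N * A) (fun l => ψ s (β • l)) τ z
  l1 : ∀ τ z : ℂ, 0 < τ.im → 0 < z.im → ∀ r, th1 (N * A * d) (fun l => pg d (ψ r) l) (-1 / τ) z =
    -(τ * hw τ)⁻¹ * ∑ s, I * conj (sm N δ r s) * th1 (N * A * d) (fun l => pg d (ψ s) l) τ z
  sup : ∀ r l, pg d (ψ r) l ≠ 0 → ∃ n : ℤ, disc l = A * d * n ∧ In N δ n r
  z1 : ∀ r, Dz fun k => pg d (ψ r) (0, 0, k)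
  z2 : ∀ r, Dz fun k => pg d (ψ r) (k, 0, 0)

variable (A β ψ t w) in
/-- the theta function at the CM points -/
def TH (r : ZMod (2 * N)) (τ : ℂ) : ℂ := ∑ Q ∈ t, th0 (N * A) (fun l => ψ r (β • l)) τ (w Q)

theorem gc_bd (d : ℕ) (l : Fm) : ‖(gc d l : ℂ)‖ ≤ 1 := by
  rw [gc, Int.cast_prod, norm_prod]
  refine Finset.prod_le_one (fun _ _ => norm_nonneg _) fun p _ => ?_
  split_ifs
  · rcases jacobiSym.trichotomy l.2.2 p with e | e | e <;> simp [e]
  · rcases jacobiSym.trichotomy l.1 p with e | e | e <;> simp [e]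

namespace Cd

variable (h : Cd δ A M d β ψ)
include h

theorem d1 : 0 < d := (by decide : 0 < 3).trans h.sp.big

theorem n1 : 0 < N * A := mul_pos (NeZero.pos N) h.pos

theorem odd (r : ZMod (2 * N)) (l : Fm) : pf d ψ r (-l.1, l.2.1, -l.2.2) = -pf d ψ r l := by
  have e : ψ r (-l.1, l.2.1, -l.2.2) = ψ r l := by simpa using (h.tor r).tor (-1) (-1) (by simp) l
  have e1 : eps d = -1 := by
    rw [eps, jacobiSym.at_neg_one (Nat.odd_iff.2 (by have := h.m8; omega)),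
      ZMod.χ₄_nat_three_mod_four h.sp.m4]
  rw [pf, pf, pg, pg, e, show gc d (-l.1, l.2.1, -l.2.2) = gc d (-l) from rfl, Hd.gc_neg h.sp.sq, e1,
    show disc (-l.1, l.2.1, -l.2.2) = disc l by simp [disc]]
  split_ifs <;> simp

theorem gk : Gk δ (N * A * d) (pf d ψ) := by
  obtain ⟨B, hB⟩ := h.bd
  refine ⟨mul_pos h.n1 h.d1, ⟨B, fun r l => ?_⟩, h.odd, ⟨M * d, mul_pos h.sp.pos h.d1,
    fun r n k m => ?_⟩, fun τ z hτ hz r => by simpa only [pf, ofReal_intCast] using h.l1 τ z hτ hz r⟩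
  · rw [pf, ← norm_intCast, pg]
    split_ifs
    · rw [Int.cast_mul, norm_mul]
      exact (mul_le_of_le_one_right (norm_nonneg _) (gc_bd d l)).trans (hB r l)
    · simpa using (norm_nonneg _).trans (hB r l)
  have p := (h.tor r).per
  have j : ∀ p ∈ d.primeFactors, (p : ℤ) ∣ (M * d : ℕ) * m := fun p hp =>
    (Int.natCast_dvd_natCast.2 ((Nat.dvd_of_mem_primeFactors hp).mul_left M)).mul_right m
  have p1 := p (0, n, k) (0, 0, d * m)
  have p2 := p (k, n, 0) (d * m, 0, 0)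
  simp only [mul_zero, add_zero, ← mul_assoc, ← Nat.cast_mul] at p1 p2
  have g1 : gc d (0, n, k + (M * d : ℕ) * m) = gc d (0, n, k) := Finset.prod_congr rfl fun p hp => by
    simpa using Hd.J_congr (by simpa using j p hp)
  have g2 : gc d (k + (M * d : ℕ) * m, n, 0) = gc d (k, n, 0) := Finset.prod_congr rfl fun p hp => by
    simp only [dvd_add_left (j p hp), Hd.J_congr (n := p) (a := k + (M * d : ℕ) * m) (b := k)
      (by simpa using j p hp)]
  simp only [pf, pg, p1, p2, g1, g2, disc, mul_zero, zero_mul, and_self]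

theorem th (k : Cm d M β t w) {τ : ℂ} (hτ : 0 < τ.im) (r : ZMod (2 * N)) {Q : Fm} (hQ : Q ∈ t) :
    HasSum (fun l => ψ r (β • l) * EE (N * A * d) τ (ix d Q l))
      (th0 (N * A) (fun l => ψ r (β • l)) τ (w Q) / τ.im) := by
  rw [th0, mul_div_cancel_left₀ _ (ofReal_ne_zero.2 hτ.ne')]
  refine (bsum (fun l => h.bd.choose_spec r (β • l))
    (gsum h.n1 hτ (w Q).im_pos).1).of_norm.hasSum.congr_fun fun l => ?_
  obtain ⟨m, e1, e2⟩ := gau_cm (τ := τ) h.n1 h.d1 (k.t1 Q hQ).1 (k.t1 Q hQ).2.2.2.2.2 l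
  rw [e2, ix, e1, Int.mul_ediv_cancel_left _ four_ne_zero]

theorem mt (k : Cm d M β t w) (r : ZMod (2 * N)) (n : ℤ) {m : ℤ} (hm : m ≠ 0) :
    (∑' l : Fm, if (l.2.1, l.1 * l.2.2) = (n, m) then (aa (pf d ψ r) l : ℂ) else 0) =
      ∑ Q ∈ t, ∑' l, if ix d Q l = (n, m) then (ψ r (β • l) : ℂ) else 0 := by
  have c : ∀ Q ∈ t, ∀ l, (ix d Q l = (n, m) ↔ bil l Q = -n ∧ n ^ 2 + d * disc l = 4 * m) ∧
      0 ≤ (ix d Q l).2 := fun Q hQ l => by
    obtain ⟨j, e1, -⟩ := gau_cm (τ := I) one_pos h.d1 (k.t1 Q hQ).1 (k.t1 Q hQ).2.2.2.2.2 l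
    rw [ix, e1, Int.mul_ediv_cancel_left _ four_ne_zero, Prod.mk.injEq, neg_eq_iff_eq_neg]
    refine ⟨and_congr_right fun e => ?_, by simp⟩
    rw [e, neg_sq] at e1
    omega
  rcases hm.lt_or_gt with m0 | m0
  · rw [Finset.sum_eq_zero fun Q hQ => (tsum_congr fun l => if_neg fun e => by
      have := (c Q hQ l).2
      rw [e] at this
      omega).trans tsum_zero]
    refine (tsum_congr fun l => ite_eq_right_iff.2 fun e => ?_).trans tsum_zero
    have e := (Prod.mk.inj e).2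
    rw [aa, if_neg fun j => by rw [j.1] at e; omega, if_neg (by omega), ofReal_zero]
  lift m to ℕ using m0.le
  have := sum_pm (f := fun l => aa (pf d ψ r) l) (fun l => by
    simp [aa, h.odd, neg_div]) n (Int.natCast_pos.1 m0) (.inl rfl)
  simp only [one_mul] at this
  rw [this.tsum_eq, Finset.mul_sum, Finset.sum_congr (g := fun i => if (d : ℤ) ∣ n ^ 2 - 4 * m then
    ((ψ r (i.1, n, i.2) * gc d (i.1, n, i.2) : ℤ) : ℂ) else 0) rfl fun i hi => ?_]
  · split_ifs with e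
    · rw [← Int.cast_sum, ← cnt M d β t _ h.sp (h.tor r) (fun Q hQ => by
        obtain ⟨b1, b2, b3, b4, b5, -⟩ := k.t1 Q hQ
        exact ⟨b1, b2, b3, b4, b5⟩) k.t2 n m (Int.natCast_pos.1 m0) e, Int.cast_sum]
      refine Finset.sum_congr rfl fun Q hQ => ?_
      simp only [← (c Q hQ _).1]
      rw [← int_fin (((h.th k (τ := I) (by simp) r hQ).summable.indicator
        {l | ix d Q l = (n, (m : ℤ))}).mul_right (EE (N * A * d) I (n, m))⁻¹ |>.congr fun l => ?_)]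
      · simp
      · by_cases j : ix d Q l = (n, (m : ℤ)) <;> simp [j, EE, ee_ne]
    · rw [Finset.sum_const_zero, Finset.sum_eq_zero fun Q hQ => (tsum_congr fun l => if_neg fun j =>
        e ⟨-disc l, by linear_combination ((c Q hQ l).1.1 j).2⟩).trans tsum_zero]
  · obtain ⟨e, -⟩ := Nat.mem_divisorsAntidiagonal.1 hi
    have e' : (i.1 : ℤ) * i.2 = m := by exact_mod_cast e
    have i2 : (i.2 : ℝ) ≠ 0 := Nat.cast_ne_zero.2 fun j => by rw [j] at e'; omega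
    rw [aa, if_neg fun j => by rw [show (i.1 : ℤ) = 0 from j.1] at e'; omega, if_pos (e' ▸ m0), pf,
      pg, disc, mul_assoc 4, e']
    split_ifs <;> simp [i2, mul_div_cancel₀]

theorem lo (hc : 0 < c) (k : Cm d M β t w) {τ : ℂ} (hτ : 0 < τ.im) (r : ZMod (2 * N)) :
    Lo (FK (N * A * d) c (pf d ψ) r) τ = TH A β ψ t w r τ / τ.im ^ 2 := by
  let a : ZMod (2 * N) → ℤ × ℤ → ℂ := fun r j =>
    (∑' l : Fm, if (l.2.1, l.1 * l.2.2) = j then (aa (pf d ψ r) l : ℂ) else 0) -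
      ∑ Q ∈ t, ∑' l, if ix d Q l = j then (ψ r (β • l) : ℂ) else 0
  have S : ∀ τ : ℂ, 0 < τ.im → ∀ r, HasSum (fun j : ℤ × ℤ => a r j *
      ee ((j.1 ^ 2 / (4 * (N * A * d : ℕ)) : ℝ) * τ))
      (τ.im * Lo (FK (N * A * d) c (pf d ψ) r) τ - TH A β ψ t w r τ / τ.im) := fun τ hτ r => by
    rw [TH, Finset.sum_div]
    refine ((fib _ ((h.gk.tf hc r).lo hτ)).sub
      (hasSum_sum fun Q hQ => fib _ (h.th k hτ r hQ))).congr_fun fun j => ?_
    rw [← Finset.sum_mul, ← sub_mul]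
    by_cases e : j.2 = 0
    · rw [EE, e]
      congr 2
      push_cast
      ring
    · simp only [a, h.mt k r j.1 e, sub_self, zero_mul]
  refine soft (fun r => (h.gk.tf hc r).ser.main.1) (fun r => hol fun τ hτ =>
    summable_norm_iff.2 (S τ hτ r).summable) (fun τ hτ => h.gk.lw hc hτ)
    (fun τ hτ r => ?_) (fun τ hτ r => ?_) hτ r
  · simp only [TH, h.l0 τ _ hτ (w _).im_pos r, Finset.mul_sum]
    exact Finset.sum_comm
  have v' : (τ.im : ℂ) ≠ 0 := ofReal_ne_zero.2 hτ.ne'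
  rw [(S τ hτ r).tsum_eq]
  field_simp

end Cd

end Vale.Agent.P014T.Z.Ka
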