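import Vale.Agent.P014T.Z.Ka1

/-! # P014T, block Z1: the abstract kernel theorem -/

open Complex MeasureTheory Filter Topology Set
open scoped Real ComplexConjugate NumberTheorySymbols UpperHalfPlane

noncomputable section

namespace Vale.Agent.P014T.Z.Ka

open P004Z P004Z.Kf P004Z.Du P004Z.Du.Pe

variable {N : ℕ} [NeZero N] {δ A M d : ℕ} {β : ℤ} {ψ : ZMod (2 * N) → Fm → ℤ} {t : Finset Fm}
  {w : Fm → ℍ} {c₀ : ℝ}

variable (A d ψ) in
/-- the `log p` parts -/
def ka (p n : ℕ) (r : ZMod (2 * N)) : ℚ := (∑ q ∈ Pm (A * d * n), 2 *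
  ∑ i ∈ q.2.divisorsAntidiagonal, pg d (ψ r) (-i.1, q.1, i.2) * i.2.factorization p : ℤ)

omit [NeZero N] in
theorem ka_lt {p n : ℕ} (r : ZMod (2 * N)) (h : A * d * n < p) : ka A d ψ p n r = 0 := by
  rw [ka, Finset.sum_eq_zero fun q hq => ?_, Int.cast_zero]
  rw [Finset.sum_eq_zero fun i hi => ?_, mul_zero]
  have := Nat.divisor_le (Nat.snd_mem_divisors_of_mem_antidiagonal hi)
  have := (mem_Pm.1 hq).2
  have := sq_nonneg q.1
  rw [Nat.factorization_eq_zero_of_lt (by omega), Nat.cast_zero, mul_zero]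

namespace Cd

variable (h : Cd δ A M d β ψ)
include h

theorem iv (r : ZMod (2 * N)) {n : ℕ} {q : ℤ × ℕ} (hq : q ∈ Pm (A * d * n)) :
    ∑ i ∈ q.2.divisorsAntidiagonal, pg d (ψ r) (-i.1, q.1, i.2) = 0 ∧
    ∀ p : ℕ, p.Prime → Spl d p ∨ J(-(A * n) | p) = 1 → ∑ i ∈ q.2.divisorsAntidiagonal,
      pg d (ψ r) (-i.1, q.1, i.2) * i.2.factorization p = 0 := by
  have e : q.1 ^ 2 + 4 * q.2 = d * (A * n) := by rw [(mem_Pm.1 hq).2]; push_cast; ring
  have k : ∀ i ∈ q.2.divisorsAntidiagonal, pg d (ψ r) (-i.1, q.1, i.2) =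
      ψ r (-i.1, q.1, i.2) * gc d (-i.1, q.1, i.2) := fun i hi => if_pos ⟨A * n, by
    rw [← e, ← (Nat.mem_divisorsAntidiagonal.1 hi).1, disc]; push_cast; ring⟩
  obtain ⟨i1, i2⟩ := inv M d β _ h.sp h.m8 (h.tor r) _ _ _ e
  exact ⟨(Finset.sum_congr rfl k).trans i1, fun p hp j =>
    (Finset.sum_congr rfl fun i hi => by rw [k i hi]).trans (i2 p hp j)⟩

theorem lgs : Lgs A d (ka A d ψ) := by
  have k : ∀ (p n : ℕ) (r : ZMod (2 * N)), (p.Prime → Spl d p ∨ J(-(A * n) | p) = 1) →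
      ka A d ψ p n r = 0 := fun p n r j => by
    rw [ka, Finset.sum_eq_zero fun q hq => ?_, Int.cast_zero]
    by_cases hp : p.Prime
    · rw [(h.iv r hq).2 p hp (j hp), mul_zero]
    · simp [Nat.factorization_eq_zero_of_not_prime _ hp]
  exact ⟨fun n r => (Set.finite_le_nat _).subset fun p hp => not_lt.1 fun j => hp (ka_lt r j),
    fun p n r hp => by_contra fun j => hp (k p n r fun i => absurd i j),
    fun p n r j => k p n r fun _ => .inl j, fun p n r j => k p n r fun _ => .inr j⟩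

theorem lg_eq (hc : 0 < c₀) (n : ℕ) (r : ZMod (2 * N)) : lg (ka A d ψ) n r =
    ∑ q ∈ Pm (A * d * n), 2 *
      ∑ i ∈ q.2.divisorsAntidiagonal, (lt c₀ (pf d ψ r) (-i.1, q.1, i.2) : ℂ) := by
  rw [lg, finsum_eq_sum_of_support_subset (s := Finset.range (A * d * n + 1)) _ fun p hp =>
    Finset.mem_coe.2 (Finset.mem_range_succ_iff.2 (not_lt.1 fun j => hp (by simp [ka_lt r j])))]
  norm_cast
  simp only [ka, Rat.cast_intCast]
  push_cast
  simp only [Finset.sum_mul, Finset.mul_sum]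
  rw [Finset.sum_comm]
  refine Finset.sum_congr rfl fun q hq => ?_
  have z := congrArg (Int.cast (R := ℝ)) (h.iv r hq).1
  have d0 := hc.ne'
  rw [Finset.sum_comm, ← sub_eq_zero, ← Finset.sum_sub_distrib, Finset.sum_congr (g := fun i =>
    pf d ψ r (-i.1, q.1, i.2) * Real.log (q.2 * c₀ ^ 2)) rfl fun i hi => ?_, ← Finset.sum_mul]
  · simp only [pf, ← Int.cast_sum, z, Int.cast_zero, zero_mul]
  obtain ⟨e, m0⟩ := Nat.mem_divisorsAntidiagonal.1 hi
  obtain ⟨i1, i2⟩ := mul_ne_zero_iff.1 (e.trans_ne m0)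
  have j1 : (i.1 : ℝ) ≠ 0 := Nat.cast_ne_zero.2 i1
  have j2 : (i.2 : ℝ) ≠ 0 := Nat.cast_ne_zero.2 i2
  have k : ∑ p ∈ Finset.range (A * d * n + 1), i.2.factorization p * Real.log p =
      Real.log i.2 := by
    rw [Real.log_nat_eq_sum_factorization, Finsupp.sum_of_support_subset _ (fun p hp => ?_) _
      fun _ _ => by simp]
    have := Nat.divisor_le (Nat.snd_mem_divisors_of_mem_antidiagonal hi)
    have := (mem_Pm.1 hq).2
    have := sq_nonneg q.1
    have := Nat.le_of_mem_primeFactors hp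
    exact Finset.mem_range.2 (by omega)
  simp only [mul_assoc, ← Finset.mul_sum] at k ⊢
  simp only [k, lt, pf, ← e, Int.cast_neg, Int.cast_natCast,
    Nat.abs_cast, div_self j2, neg_mul, div_neg, Real.log_neg_eq_log, Nat.cast_mul]
  rw [Real.log_div j2 (by positivity), mul_assoc (i.1 : ℝ), mul_left_comm (i.1 : ℝ),
    Real.log_mul j2 (by positivity)]
  ring

theorem sp' (hc : 0 < c₀) (r : ZMod (2 * N)) (l : Fm) (v : ℝ)
    (k : (Tl (N * A * d) c₀ (pf d ψ r) l v : ℂ) ≠ 0) :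
    ∃ n : ℤ, disc l = A * d * n ∧ In N δ n r ∧ (l.1 * l.2.2 = 0 → l.2.1 ≠ 0) := by
  have a : ∀ l, pf d ψ r l ≠ 0 → ∃ n : ℤ, disc l = A * d * n ∧ In N δ n r := fun l j =>
    h.sup r l (Int.cast_ne_zero.1 j)
  by_contra j
  refine k (ofReal_eq_zero.2 ?_)
  by_cases e : l = (0, 0, 0)
  · exact e ▸ tl0 (h.gk.tf hc r) (h.z1 r) (h.z2 r) v
  simp only [Tl, RR, tt]
  split_ifs with h1 h2
  · have e' : l.2.1 ≠ 0 := fun i => e (Prod.ext h1.1 (Prod.ext i h1.2))
    have : ∀ k, pf d ψ r (0, l.2.1, k) = 0 ∧ pf d ψ r (k, l.2.1, 0) = 0 := fun k => by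
      refine ⟨by_contra fun i => ?_, by_contra fun i => ?_⟩ <;>
        exact j ((a _ i).imp fun n u => ⟨by simpa [disc, h1] using u.1, u.2, fun _ => e'⟩)
    simp [this]
  · simp
  · simp [show pf d ψ r l = 0 from by_contra fun i =>
      j ((a _ i).imp fun n u => ⟨u.1, u.2, fun e => absurd (mul_eq_zero.1 e) h2⟩)]

theorem ex {l : Fm} {n : ℤ} (e : disc l = A * d * n) : disc l / (A * d) = n ∧
    xx (N * A * d) l = n / (4 * N) := by
  have := h.pos
  have := h.d1
  have := NeZero.pos N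
  rw [xx, e, Int.mul_ediv_cancel_left _ (by positivity)]
  push_cast
  exact ⟨rfl, by field_simp⟩

theorem lim (hc : 0 < c₀) {a : ℤ → ZMod (2 * N) → ℂ} {x : Cf N} {c : PP N} (H : Harm δ a x c)
    (o : Off A d c) : Tendsto (fun v => ∑ r, ∑' l, a (-(disc l / (A * d))) r *
      Tl (N * A * d) c₀ (pf d ψ r) l v) atTop (𝓝 (pr (lg (ka A d ψ)) c)) := by
  have d0 := h.pos
  have d1 := h.d1
  rw [pr, Finsupp.sum_of_support_subset _ (s := c.support.image Prod.fst ×ˢ Finset.univ)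
    (fun i hi => Finset.mem_product.2 ⟨Finset.mem_image_of_mem _ hi, Finset.mem_univ _⟩) _
    (by simp), Finset.sum_product_right]
  refine tendsto_finsetSum _ fun r _ => ?_
  have a4 := h.sup r
  have s := H.sum r I (by simp)
  refine Eq.mp (congrArg (fun x => Tendsto _ _ (𝓝 x)) (HasSum.tsum_eq ?_)) ((h.gk.tf hc r).lim
    (C := ∑' n : ℤ, ‖a n r * ee (n * I / (4 * N))‖) (tsum_nonneg fun _ => norm_nonneg _)
    (fun l v e => by_contra fun k => ?_) fun l k => ?_)
  · simp only [h.lg_eq hc]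
    refine (hasSum_sum fun n _ => (sum_D (f := fun l => lt c₀ (pf d ψ r) l) (fun l => by
      simp [lt, h.odd, neg_div, div_neg]) _).mul_left _).congr_fun fun l => ?_
    by_cases p : pf d ψ r l = 0
    · simp [lt, p]
    obtain ⟨n, e, -⟩ := a4 l (Int.cast_ne_zero.1 p)
    split_ifs with j
    · have n0 : 0 < n := (mul_pos_iff_of_pos_left (a := (A : ℤ) * d) (by positivity)).1 (by
        rw [← e, disc]; nlinarith [sq_nonneg l.2.1])
      lift n to ℕ using n0.le
      rw [(h.ex e).1, ← H.pp n r (Int.natCast_pos.1 n0), Finset.sum_eq_single n (fun b _ k => ?_)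
        fun k => ?_, if_pos ⟨by exact_mod_cast e, j⟩]
      · rw [if_neg fun i => k (mul_left_cancel₀ (a := A * d) (by positivity)
          (by exact_mod_cast i.1.symm.trans e)), mul_zero]
      · rw [Finsupp.notMem_support_iff.1 fun i => k (Finset.mem_image_of_mem _ i), zero_mul]
    · simp [j]
  · obtain ⟨k1, k2⟩ := mul_ne_zero_iff.1 k
    obtain ⟨n, e1, -, e2⟩ := h.sp' hc r l v k2
    rw [(h.ex e1).1] at k1
    rw [disc, mul_assoc, e, mul_zero, sub_zero] at e1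
    have n0 : 0 < n := (mul_pos_iff_of_pos_left (a := (A : ℤ) * d) (by positivity)).1
      (e1 ▸ sq_pos_of_ne_zero (e2 e))
    lift n to ℕ using n0.le
    exact o (n, r) (Finsupp.mem_support_iff.2 (H.pp n r (Int.natCast_pos.1 n0) ▸ k1))
      (Int.isSquare_natCast_iff.1 ⟨l.2.1, by push_cast; linear_combination -e1⟩)
  · obtain ⟨n, e, -⟩ := a4 l (Int.cast_ne_zero.1 k)
    have := s.le_tsum (-n) fun _ _ => norm_nonneg _
    rw [norm_mul, Kf.ee_norm, ← le_div_iff₀ (Real.exp_pos _), div_eq_mul_inv, ← Real.exp_neg] at this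
    rw [(h.ex e).1, (h.ex e).2]
    refine this.trans_eq ?_
    rw [show ((-n : ℤ) * I / (4 * N) : ℂ) = (-(n / (4 * N)) : ℝ) * I by push_cast; ring, mul_I_im,
      ofReal_re, neg_neg, mul_neg]

/-- **the abstract kernel theorem** -/
theorem main (hc : 0 < c₀) (k : Cm d M β t w) {a : ℤ → ZMod (2 * N) → ℂ} {x : Cf N} {c : PP N}
    (H : Harm δ a x c) (o : Off A d c) :
    Tendsto (fun v => ∑ Q ∈ t, ∫ τ in FT v, (∑ r, hf a x r τ *
      th0 (N * A) (fun l => ψ r (β • l)) τ (w Q)) / τ.im ^ 2) atTop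
      (𝓝 (pr (lg (ka A d ψ)) c - pet (FK (N * A * d) c₀ (pf d ψ)) (fn x))) := by
  refine (by_lim (kp phi h.ok) (fun r => (h.gk.tf hc r).ser) (fun r l v k => ?_)
    (fun τ => h.gk.lw hc) H (h.lim hc H o)).congr fun v => ?_
  · obtain ⟨n, e, i, -⟩ := h.sp' hc r l v k
    simpa only [(h.ex e).1, (h.ex e).2, true_and] using i
  refine Eq.trans (setIntegral_congr_fun (Sk.compact_FT v).measurableSet fun τ j => ?_)
    (integral_finsetSum _ fun Q _ => ContinuousOn.integrableOn_compact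
    (Sk.compact_FT v) (ContinuousOn.mono (s := UH) ((continuousOn_finsetSum _ fun r _ =>
      ((qs_diff (k := id) (H.sum r)).continuousOn.add (nh_c1 H.s r).continuousOn).mul
        (th0_cont h.n1 (w Q).im_pos fun l => h.bd.choose_spec r (β • l))).div (by fun_prop)
          fun τ hτ => pow_ne_zero 2 (ofReal_ne_zero.2 (ne_of_gt hτ))) fun τ k => k.1.2.2))
  simp only [h.lo hc k j.1.2.2, TH, Finset.sum_div, Finset.mul_sum, mul_div_assoc]
  exact Finset.sum_comm

end Cd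

end Vale.Agent.P014T.Z.Ka
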