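import Vale.Agent.P014T.Z.Ka2
import Vale.Agent.P014T.Z.Ari1
import Vale.Agent.P004Z.Lf.Wc0

/-! # P014T, block Z1: tools for the kernel without twist -/

open Complex MeasureTheory Filter Topology Set Asymptotics
open scoped Real ComplexConjugate NumberTheorySymbols UpperHalfPlane

noncomputable section

namespace Vale.Agent.P014T.Z.K1

open P004N (S2 QE TE)
open P004Z P004Z.Kf P004Z.Du P004Z.Du.Pe
open UpperHalfPlane (ofComplex ofComplex_apply)

variable {N p ν : ℕ} {G : ℍ → ℂ} {a : ℕ → ℤ} {z τ : ℂ}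

theorem tw_one (e : QE G fun n => a n) (hz : 0 < z.im) :
    HasSum (fun n : ℕ => a n * ee (n * z)) (G (ofComplex z)) ∧ tw a 1 z = G (ofComplex z) := by
  have := (e (ofComplex z)).congr_fun (g := fun n : ℕ => a n * ee (n * z)) fun n => by
    rw [Hd.coe_of hz, ee, mul_assoc _ (n : ℂ)]
  exact ⟨this, by simpa [tw] using this.tsum_eq⟩

theorem ee_sum (hp : 0 < p) (n : ℕ) :
    ∑ j ∈ Finset.range p, ee (n * j / p) = if p ∣ n then (p : ℂ) else 0 := by
  have : NeZero p := ⟨hp.ne'⟩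
  have e : ∀ j : ℕ, ee (n * j / p) = ZMod.stdAddChar ((j : ZMod p) * (n : ZMod p)) := fun j => by
    simpa only [Int.cast_mul, Int.cast_natCast, mul_comm (n : ZMod p)] using Gq.ee_std p (n * j)
  simp only [e]
  rw [Gq.sum_zmod p fun j => ZMod.stdAddChar (j * (n : ZMod p)),
    AddChar.sum_mulShift _ (ZMod.isPrimitive_stdAddChar p)]
  simp [ZMod.natCast_eq_zero_iff]

theorem im_j (hp : 0 < p) (hz : 0 < z.im) (j : ℕ) : 0 < ((j + z) / p : ℂ).im := by
  simpa using div_pos hz (Nat.cast_pos.2 hp)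

/-- the Hecke operator -/
theorem hk (hp : p.Prime) (h : ¬ p ∣ N) (e : QE G fun n => a n) (t : TE N a fun n => a n)
    (hz : 0 < z.im) : ∑ j ∈ Finset.range p, G (ofComplex ((j + z) / p)) =
      p * a p * G (ofComplex z) - p ^ 2 * G (ofComplex (p * z)) := by
  have p0 : (p : ℂ) ≠ 0 := Nat.cast_ne_zero.2 hp.ne_zero
  have i : Function.Injective fun n : ℕ => p * n := mul_right_injective₀ hp.ne_zero
  have k1 : HasSum _ (∑ j ∈ Finset.range p, G (ofComplex ((j + z) / p))) := (i.hasSum_iff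
    (f := fun n => (if p ∣ n then (p : ℂ) else 0) * (a n * ee (n * z / p))) fun n hn => by
      rw [if_neg fun ⟨m, q⟩ => hn ⟨m, q.symm⟩, zero_mul]).2
      ((hasSum_sum fun j _ => (tw_one e (im_j hp.pos hz j)).1).congr_fun fun n => by
        simp only [← ee_sum hp.pos, mul_left_comm _ (a n : ℂ), Finset.sum_mul, ← Kf.ee_add,
          Finset.mul_sum, mul_div_assoc, ← mul_add, ← add_div])
  have k2 : HasSum _ (p * G (ofComplex (p * z))) := (i.hasSum_iff
    (f := fun n => (if p ∣ n then (p : ℂ) * a (n / p) else 0) * ee (n * z)) fun n hn => by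
      rw [if_neg fun ⟨m, q⟩ => hn ⟨m, q.symm⟩, zero_mul]).1
      (((tw_one e (z := p * z) (by simpa using mul_pos (Nat.cast_pos.2 hp.pos) hz)).1.mul_left
        (p : ℂ)).congr_fun fun n => by
          simp [Nat.mul_div_cancel_left n hp.pos, mul_assoc, mul_left_comm])
  have := (k1.add (k2.mul_left (p : ℂ))).unique (((tw_one e hz).1.mul_left
    ((p : ℂ) * a p)).congr_fun fun n => by
    rw [Function.comp_apply, if_pos (dvd_mul_right _ _), Nat.cast_mul, mul_assoc (p : ℂ) n,
      mul_div_cancel_left₀ _ p0]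
    linear_combination p * ee (n * z) * t p hp h n)
  linear_combination this

theorem gi (hN : 0 < N) (hG : S2 N G) :
    IntegrableOn (fun y : ℝ => G (ofComplex (I * y))) (Ioi 0) ∧
    IntegrableOn (fun y : ℝ => G (ofComplex (I * y)) * Real.log y) (Ioi 0) := by
  obtain ⟨C, C0, b⟩ := Lf.Wx.ray_le hN hG one_pos 0
  have b' : ∀ y : ℝ, 0 < y → ‖G (ofComplex (I * y))‖ ≤ C * (1 + y ^ 2)⁻¹ := fun y hy => by
    have := b y 0 hy
    rw [← ofComplex_apply (Lf.pt _ _), Lf.Wx.pt_ray hy] at this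
    simpa [mul_comm] using this
  have c : ContinuousOn (fun y : ℝ => G (ofComplex (I * y))) (Ioi 0) :=
    (UpperHalfPlane.mdifferentiable_iff.1 hG.holo).continuousOn.comp (f := fun y : ℝ => I * y)
      (by fun_prop) fun y hy => by simpa using hy
  have t : (fun y : ℝ => G (ofComplex (I * y))) =O[atTop] (· ^ (-(2 : ℝ))) :=
    .of_bound C ((eventually_gt_atTop 0).mono fun y hy => (b' y hy).trans (by
      rw [Real.norm_of_nonneg (by positivity), Real.rpow_neg hy.le, Real.rpow_two]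
      gcongr
      linarith))
  have u : (fun y : ℝ => G (ofComplex (I * y))) =O[𝓝[>] 0] (· ^ (-(0 : ℝ))) :=
    .of_bound C (eventually_mem_nhdsWithin.mono fun y hy => (b' y hy).trans (by
      rw [neg_zero, Real.rpow_zero, norm_one]
      gcongr
      exact inv_le_one_of_one_le₀ (by nlinarith)))
  have l := c.locallyIntegrableOn (μ := volume) measurableSet_Ioi
  exact ⟨by simpa [MellinConvergent] using
    mellinConvergent_of_isBigO_rpow (s := 1) l t (by simp) u (by simp), by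
      simpa [MellinConvergent, mul_comm] using
        (mellin_hasDerivAt_of_isBigO_rpow (s := 1) l t (by simp) u (by simp)).1⟩

theorem gc' (hN : 0 < N) (hG : S2 N G) (e : QE G fun n => a n) {c : ℝ} (hc : 0 < c) :
    IntegrableOn (fun y : ℝ => G (ofComplex (I * (c * y : ℝ))) * Real.log y) (Ioi 0) ∧
    ∫ y in Ioi (0 : ℝ), G (ofComplex (I * (c * y : ℝ))) * Real.log y =
      (L1 a - Real.log c * L0 a 1) / c := by
  obtain ⟨i1, i2⟩ := gi hN hG
  let F : ℝ → ℂ := fun y => G (ofComplex (I * y)) * Real.log y -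
    Real.log c * G (ofComplex (I * y))
  have k : EqOn (fun y => F (c * y)) (fun y : ℝ =>
      G (ofComplex (I * (c * y : ℝ))) * Real.log y) (Ioi 0) := fun y hy => by
    simp only [F, Real.log_mul hc.ne' (ne_of_gt hy), ofReal_add]
    ring
  have q : ∀ y ∈ Ioi (0 : ℝ), tw a 1 (I * y) = G (ofComplex (I * y)) := fun y hy =>
    (tw_one e (by simpa using hy)).2
  refine ⟨((integrableOn_Ioi_comp_mul_left_iff F 0 hc).2 (by
    rw [mul_zero]; exact i2.sub (i1.const_mul _))).congr_fun k measurableSet_Ioi, ?_⟩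
  rw [← setIntegral_congr_fun measurableSet_Ioi k, integral_comp_mul_left_Ioi F 0 hc, mul_zero,
    integral_sub i2 (i1.const_mul _), integral_const_mul, L1, L0,
    setIntegral_congr_fun measurableSet_Ioi q, setIntegral_congr_fun measurableSet_Ioi
      (f := fun y : ℝ => tw a 1 (I * y) * Real.log y)
      (g := fun y : ℝ => G (ofComplex (I * y)) * Real.log y) fun y hy => by
        simp only [q y hy], real_smul, ofReal_inv, div_eq_inv_mul]

theorem ext_bd {φ : Fm → ℤ} {B : ℝ} (h : ∀ l, ‖(φ l : ℂ)‖ ≤ B) (f : Fm → Fm) (l : Fm) :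
    ‖((Function.extend f φ 0 l : ℤ) : ℂ)‖ ≤ B := by
  classical
  rw [Function.extend_def]
  split_ifs
  exacts [h _, by simpa using (norm_nonneg _).trans (h 0)]

theorem tv_bd {φ : Fm → ℤ} {B : ℝ} (h : ∀ l, ‖(φ l : ℂ)‖ ≤ B) (l : Fm) :
    ‖(tv p φ l : ℂ)‖ ≤ ∑ j ∈ Finset.range p, ‖(rh p j : ℂ)‖ * B := by
  rw [tv, Int.cast_sum]
  refine norm_sum_le_of_le _ fun j _ => ?_
  rw [Int.cast_mul, norm_mul]
  gcongr
  exact ext_bd h _ l

theorem th_tv (hν : 0 < ν) (hp : 0 < p) (hτ : 0 < τ.im) (hz : 0 < z.im) {φ : Fm → ℤ} {B : ℝ}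
    (h : ∀ l, ‖(φ l : ℂ)‖ ≤ B) :
    th0 (ν * p ^ 2) (fun l => tv p φ l) τ z =
      ∑ j ∈ Finset.range p, rh p j * th0 ν (fun l => φ l) τ ((j + z) / p) ∧
    th1 (ν * p ^ 2) (fun l => tv p φ l) τ z =
      ∑ j ∈ Finset.range p, rh p j * th1 ν (fun l => φ l) τ ((j + z) / p) := by
  have s := gsum (ν := ν * p ^ 2) (by positivity) hτ hz
  have k : ∀ F : Fm → ℂ, (Summable fun l => ‖F l‖) → ∑' l, tv p φ l * F l =
      ∑ j ∈ Finset.range p, rh p j * ∑' l, φ l * F (up p j l) := fun F hF =>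
    ((hasSum_sum fun (j : ℕ) _ => (((up_inj hp j).hasSum_iff (f := fun l =>
      (Function.extend (up p j) φ 0 l : ℤ) * F l) fun l hl => by
        simp [Function.extend_apply' _ _ _ hl]).1 ((bsum h (hF.comp_injective
          (up_inj hp j))).of_norm.hasSum.congr_fun fun l => by
            simp [(up_inj hp j).extend_apply])).mul_left _).congr_fun fun l => by
      simp [tv, Finset.sum_mul, mul_assoc]).tsum_eq
  simp only [th0, th1, mul_assoc, k _ s.1, k _ s.2, gau_up hp hz, Finset.mul_sum, mul_left_comm,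
    Int.cast_natCast, and_self, fun j l => (gau_up (ν := ν) (τ := τ) hp hz j l).2]

theorem rh_sum (hp : 0 < p) (f : ℕ → ℂ) :
    ∑ j ∈ Finset.range p, rh p j * f j = ∑ j ∈ Finset.range p, f j - p * f 0 := by
  obtain ⟨q, rfl⟩ := Nat.exists_eq_add_one.2 hp
  simp [Finset.sum_range_succ', rh]
  ring

end Vale.Agent.P014T.Z.K1
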