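import Vale.Agent.P004Z.Lf.All

/-!
# P014T, block Z1: theta lifts against abstract test functions (helper87)
-/

set_option autoImplicit false
set_option linter.all false

open UpperHalfPlane hiding I
open Complex MeasureTheory Filter Set CongruenceSubgroup
open scoped MatrixGroups Modular Real ComplexConjugate Topology NumberTheorySymbols

noncomputable section

namespace Vale.Agent.P014T.Z.Lf

open P004Z P004Z.Lf P004Z.Lf.Bg P004Z.Du.Pe

variable {N : ℕ} [NeZero N]

/-- test functions of level `N k` for the module of `δ` -/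
structure Tp (δ k : ℕ) (φ : ZMod (2 * N) → Fm → ℤ) : Prop where
  ok : Ok N δ
  pos : 0 < k
  per : ∀ r, Per (N * k) fun l => φ r l
  ft : ∀ r m, ft (N * k) (fun l => φ r l) m = ∑ s, sm N δ r s * φ s m
  sup : ∀ r l, φ r l ≠ 0 → ∃ m : ℤ, disc l = k * m ∧ In N δ (-m) r
  neg : ∀ r l, φ (-r) (-l) = eps δ * φ r l
  van : ∀ r (γ : SL(2, ℤ)) (b : ℤ), ∑ c ∈ Finset.range (N * k), φ r (fa (0, b, c) γ) = 0
  zero : ∀ r, φ r 0 = 0
  inv : ∀ r l, ∀ γ ∈ Gamma0 N, φ r (fa l γ) = φ r l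
  bd : ∃ B : ℝ, 0 ≤ B ∧ ∀ r l, ‖(φ r l : ℂ)‖ ≤ B

variable (k : ℕ) (φ : ZMod (2 * N) → Fm → ℤ) (a : ℤ → ZMod (2 * N) → ℂ) (x : Cf N) (c : PP N)

/-- the seed -/
def sF (τ : ℍ) (l : Fm) : ℂ := ∑ r, hf a x r τ * φ r l

/-- the principal part -/
def sC (D : ℤ) (l : Fm) : ℂ :=
  ∑ i ∈ c.support, if D = -((k : ℤ) * i.1) then c i * φ i.2 l else 0

/-- the coefficients -/
def sP (l : Fm) : ℂ := ∑ r, a (disc l / k) r * φ r l

/-- the divisor of an index -/
def Zf (n : ℕ) (r : ZMod (2 * N)) (z : ℍ) : ℤ :=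
  ∑ᶠ l : Fm, if disc l = -((k : ℤ) * n) ∧ evq l z = 0 then φ r l else 0

/-- the divisor of a principal part -/
def Zg (z : ℍ) : ℂ := c.sum fun i a => a * Zf k φ i.1 i.2 z

/-- the truncated theta integral -/
def rg (z : ℍ) (T : ℝ) : ℂ :=
  ∫ τ in FT T, (∑ r, hf a x r τ * th0 (N * k) (fun l => φ r l) τ z) / τ.im ^ 2

variable {k φ a x c} {δ : ℕ}

theorem sum_le {B : ℝ} (hB : ∀ r l, ‖(φ r l : ℂ)‖ ≤ B) {h : ZMod (2 * N) → ℂ} {C : ℝ}
    (e : ∀ r, ‖h r‖ ≤ C) (l : Fm) : ‖∑ r, h r * φ r l‖ ≤ ∑ _r : ZMod (2 * N), C * B :=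
  (norm_sum_le _ _).trans (Finset.sum_le_sum fun r _ => by
    rw [norm_mul]
    exact mul_le_mul (e r) (hB r l) (norm_nonneg _) ((norm_nonneg _).trans (e r)))

omit [NeZero N] in
theorem th0_sum (M : ℕ) [NeZero M] {ι : Type} [Fintype ι] (h : ι → ℂ) {φ : ι → Fm → ℂ} {B : ℝ}
    (e : ∀ r l, ‖φ r l‖ ≤ B) (τ z : ℍ) :
    ∑ r, h r * th0 M (φ r) τ z = th0 M (fun l => ∑ r, h r * φ r l) τ z := by
  have hM : (0 : ℝ) < M := Nat.cast_pos.2 (NeZero.pos _)
  have s : ∀ r, Summable fun l => h r * (φ r l * gau M l τ z) := fun r => by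
    have := wt_pos z
    have : 0 < (τ : ℂ).im := τ.im_pos
    refine Summable.mul_left _ (.of_norm_bounded
      ((sum_nq 0 (t := π * (τ : ℂ).im / (2 * M * wt z)) (by positivity)).mul_left B) fun l => ?_)
    rw [norm_mul, pow_zero, one_mul]
    exact mul_le_mul (e r l) (gau_le l z _ τ.im_pos.le) (norm_nonneg _)
      ((norm_nonneg _).trans (e r l))
  simp only [th0, Finset.sum_mul, mul_assoc]
  rw [Summable.tsum_finsetSum fun r _ => s r, Finset.mul_sum]
  exact Finset.sum_congr rfl fun r _ => by rw [tsum_mul_left]; exact mul_left_comm _ _ _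

theorem mu_Zg (z : ℍ) : mu (sS k c) (sC k φ c) z = Zg k φ c z := by
  have f : ∀ (i : ℕ × ZMod (2 * N)) (A : Type) [Zero A] (g : Fm → A), (Function.support fun l =>
      if disc l = -((k : ℤ) * i.1) ∧ evq l z = 0 then g l else 0).Finite := fun i A _ g =>
    (Hd.root_fin _ z).subset fun l hl => by_contra fun e => hl (if_neg e)
  have e : ∀ l, (if evq l z = 0 then cf (sS k c) (sC k φ c) l else 0) = ∑ i ∈ c.support,
      if disc l = -((k : ℤ) * i.1) ∧ evq l z = 0 then c i * φ i.2 l else 0 := fun l => by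
    by_cases p : evq l z = 0
    · simp only [p, if_true, and_true, cf]
      split_ifs with q
      · rfl
      · exact (Finset.sum_eq_zero fun i hi => if_neg fun t =>
          q (Finset.mem_image.2 ⟨i, hi, t.symm⟩)).symm
    · simp [p]
  simp only [mu, finsum_eq_if, e]
  rw [finsum_sum_comm _ _ fun i _ => f i _ _]
  refine Finset.sum_congr rfl fun i _ => ?_
  have := map_finsum ((AddMonoidHom.mulLeft (c i)).comp (Int.castAddHom ℂ)) (f i _ (φ i.2))
  refine Eq.trans (finsum_congr fun l => ?_) this.symm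
  split_ifs <;> simp

namespace Tp

variable (t : Tp δ k φ)
include t

theorem nz : NeZero (N * k) := ⟨mul_ne_zero (NeZero.ne N) t.pos.ne'⟩

theorem tm {r : ZMod (2 * N)} {l : Fm} (e : φ r l ≠ 0) :
    ee (-(disc l : ℂ) / (4 * (N * k : ℕ))) = tm N δ r := by
  obtain ⟨m, p, q⟩ := t.sup r l e
  have d : (k : ℂ) ≠ 0 := Nat.cast_ne_zero.2 t.pos.ne'
  have n := Du.N_ne (N := N)
  rw [← (Du.tm_iff t.ok _ r).2 q, p]
  congr 1
  push_cast
  field_simp

theorem sd (h : Harm δ a x c) : Sd (N * k) (sF φ a x) hw := by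
  have o := t.ok
  have K := Du.kp phi o
  refine ⟨fun τ l m => Finset.sum_congr rfl fun r _ => congrArg _ (t.per r l m), fun τ l => ?_,
    fun τ l => ?_, fun l => continuous_finsetSum _ fun r _ => Continuous.mul
      ((hf_c1 h r).continuousOn.comp_continuous UpperHalfPlane.continuous_coe fun τ => τ.im_pos)
      continuous_const, fun γ τ b => ?_⟩
  · rw [sF, sF, Finset.mul_sum]
    refine Finset.sum_congr rfl fun r _ => ?_
    by_cases e : φ r l = 0
    · simp [e]
    rw [W.coe_T, (hf_md o h).T τ τ.im_pos, ← t.tm e, conj_ee, mul_assoc]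
    simp [map_ofNat, neg_div]
  · have e : ∀ r, (φ r (-l) : ℂ) = eps δ * φ (-r) l := fun r => by
      exact_mod_cast (neg_neg r ▸ t.neg (-r) l :)
    rw [show sF φ a x τ = fun l => ∑ r, hf a x r τ * φ r l from rfl, ft_sum, sF]
    simp only [coe_S', h.law τ τ.im_pos, mul_assoc, ← Finset.mul_sum, t.ft, e]
    rw [Du.Kp.adj (fun r s => conj (sm N δ r s)) fun r s => by rw [Du.sm_comm]]
    refine congrArg _ (Finset.sum_congr rfl fun s _ => congrArg _ ?_)
    rw [← Equiv.sum_comp (Equiv.neg _)]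
    refine Finset.sum_congr rfl fun r _ => ?_
    rw [K.conj_sm, Equiv.neg_apply, neg_neg]
    ring
  · simp only [sF]
    rw [Finset.sum_comm]
    refine Finset.sum_eq_zero fun r _ => ?_
    rw [← Finset.mul_sum, ← Int.cast_sum, t.van, Int.cast_zero, mul_zero]

theorem pp_eq (τ : ℂ) (l : Fm) :
    ∑ D ∈ sS k c, sC k φ c D l * ee (D * τ / (4 * (N * k : ℕ))) = ∑ r, pp c r τ * φ r l := by
  have d : (k : ℂ) ≠ 0 := Nat.cast_ne_zero.2 t.pos.ne'
  have n := Du.N_ne (N := N)
  simp only [sC, pp, Finset.sum_mul, ite_mul, zero_mul]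
  rw [Finset.sum_comm, Finset.sum_comm (s := Finset.univ)]
  refine Finset.sum_congr rfl fun i hi => ?_
  rw [Finset.sum_ite_eq', sS, if_pos (Finset.mem_image_of_mem _ hi), Finset.sum_ite_eq,
    if_pos (Finset.mem_univ _), mul_right_comm]
  congr 3
  push_cast
  field_simp

theorem hm (h : Harm δ a x c) : Hm (N * k) (sF φ a x) (sS k c) (sC k φ c) (sP k φ a) := by
  have o := t.ok
  have d : (0 : ℤ) < k := by exact_mod_cast t.pos
  obtain ⟨B, B0, hB⟩ := t.bd
  refine ⟨t.sd h, ?_, fun D e => ?_, fun D l e => ?_, ?_, fun l e v hv => ?_, fun τ => ?_,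
    fun D => ?_⟩
  · obtain ⟨C, c0, e⟩ := hf_gr (Du.kp phi o) h
    have b0 : 0 ≤ ∑ _r : ZMod (2 * N), C * B := by positivity
    refine ⟨C + ∑ _r : ZMod (2 * N), C * B, fun τ l => (sum_le hB (e · τ) l).trans ?_⟩
    have := τ.im_pos
    simp only [mul_right_comm C _ B]
    rw [← Finset.sum_mul]
    gcongr <;> linarith
  · obtain ⟨i, hi, rfl⟩ := Finset.mem_image.1 e
    have : 0 < i.1 := Nat.pos_of_ne_zero fun q => Finsupp.mem_support_iff.1 hi
      (by rw [show i = (0, i.2) from Prod.ext q rfl, h.zero])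
    exact neg_neg_of_pos (by positivity)
  · obtain ⟨i, hi, e⟩ := Finset.exists_ne_zero_of_sum_ne_zero e
    split_ifs at e with q
    · obtain ⟨m, p, s⟩ := t.sup _ _ (Int.cast_ne_zero.1 (right_ne_zero_of_mul e))
      obtain ⟨j, u⟩ := Du.In.dvd o s
        ((adm (Du.kp phi o) h).sup i.1 i.2 (left_ne_zero_of_mul e))
      exact ⟨j, by rw [q, p]; push_cast; linear_combination k * u⟩
    · exact (e rfl).elim
  · obtain ⟨C, e⟩ := hf_pp h
    refine ⟨max (∑ i ∈ c.support, ‖c i‖ * B) (∑ _r : ZMod (2 * N), C * B), fun D _ l =>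
      le_max_of_le_left ((norm_sum_le _ _).trans (Finset.sum_le_sum fun i _ => ?_)),
      fun τ l p => le_max_of_le_right ?_⟩
    · split_ifs
      · rw [norm_mul]
        exact mul_le_mul_of_nonneg_left (hB _ l) (norm_nonneg _)
      · rw [norm_zero]; positivity
    · rw [t.pp_eq, sF, ← Finset.sum_sub_distrib]
      simp only [← sub_mul]
      exact sum_le hB (fun r => e r τ (by rw [coe_im]; linarith)) l
  · simp only [co, sF, sP, Finset.sum_mul, pt_coe _ hv]
    refine (intervalIntegral.integral_finsetSum fun r _ =>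
      ((((hf_c1 h r).continuousOn.comp_continuous (by fun_prop) fun u => by simpa using hv).mul
        continuous_const).mul (by fun_prop)).intervalIntegrable _ _).trans
      (Finset.sum_congr rfl fun r _ => ?_)
    by_cases q : φ r l = 0
    · simp [q]
    obtain ⟨m, p, s⟩ := t.sup _ _ q
    rw [p] at e
    rw [p, Int.mul_ediv_cancel_left _ d.ne', ← co_hf o h (nonneg_of_mul_nonneg_right e d) s hv,
      ← intervalIntegral.integral_mul_const]
    refine intervalIntegral.integral_congr fun u _ => ?_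
    have d : (k : ℂ) ≠ 0 := Nat.cast_ne_zero.2 t.pos.ne'
    have n := Du.N_ne (N := N)
    refine (mul_right_comm _ _ _).trans (congrArg (· * _) (congrArg _ (congrArg ee ?_)))
    push_cast
    field_simp
  · simp [sF, t.zero]
  · simp [sC, t.zero]

theorem rg_eq (z : ℍ) (T : ℝ) : rg k φ a x z T = ∫ τ in DT T, KK (N * k) (sF φ a x) z τ := by
  have := t.nz
  obtain ⟨B, -, hB⟩ := t.bd
  refine (int_FT (fun τ => ∑ r, hf a x r τ * th0 (N * k) (fun l => φ r l) τ z) T).trans
    (setIntegral_congr_fun (meas_DT T) fun τ _ => ?_)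
  exact th0_sum (N * k) _ hB τ z

theorem green (h : Harm δ a x c) :
    Green (Gamma0 N) (Zg k φ c) (Gr (N * k) (sF φ a x) (sS k c)) := by
  have := t.nz
  rw [← funext mu_Zg]
  exact Bg.green (har loc0 (expn loc0)) (expn loc0) (t.hm h) (fun γ p τ l => by simp only [sF, t.inv _ _ _ p])
    fun γ p D l => by simp only [sC, t.inv _ _ _ p]

/-- **the lift** -/
theorem lift (h : Harm δ a x c) : ∃ Φ, Green (Gamma0 N) (Zg k φ c) Φ ∧ ∀ z : ℍ,
    (∀ i ∈ c.support, ∀ l, disc l = -((k : ℤ) * i.1) → evq l z ≠ 0) →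
    Tendsto (rg k φ a x z) atTop (𝓝 (Φ z)) := by
  have := t.nz
  refine ⟨_, t.green h, fun z hz => ?_⟩
  have n : Nr (sS k c) z := fun l e => by
    obtain ⟨i, hi, p⟩ := Finset.mem_image.1 e
    exact hz i hi l p.symm
  rw [gr_eq n, funext (t.rg_eq z)]
  exact (loc0 _ _ _ _ _ (t.hm h)).1 z n

end Tp

end Vale.Agent.P014T.Z.Lf
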