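import Vale.Agent.P004Z.Bo.Bor
import Vale.Agent.P014T.Z.Lf0

/-!
# P014T, block Z1: products with integer exponents (helper87)
-/

set_option autoImplicit false
set_option linter.all false

open Complex Filter Topology Metric CongruenceSubgroup
open UpperHalfPlane hiding I
open scoped Real MatrixGroups NumberTheorySymbols ComplexConjugate

noncomputable section

namespace Vale.Agent.P014T.Z.Lf

open P004Z P004Z.Bo

/-- the coefficients of `- ∑ b i log (1 - q ^ i)` -/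
def lb (b : ℕ → ℤ) (j : ℕ) : ℂ := ∑ i ∈ j.divisorsAntidiagonal, (b i.1 : ℂ) / i.2

theorem lb_eq (b : ℕ → ℤ) : lb b = lx 1 (fun _ => 1) b := funext fun j => by simp [lb, lx]

/-- `Ψ` is an invariant function with divisor `n` and expansion `∏ (1 - q ^ i) ^ b i` -/
structure Bp (N : ℕ) (n : ℍ → ℤ) (b : ℕ → ℤ) (Ψ : ℍ → ℂ) : Prop where
  mero : Mero n Ψ
  cus : Cus Ψ
  inv : ∀ γ ∈ Gamma0 N, ∀ z, Ψ (γ • z) = Ψ z
  ex : ∃ Y : ℝ, ∀ z : ℍ, Y < z.im → ∃ S, HasSum (fun j : ℕ => lb b j * ee z ^ j) S ∧ Ψ z = exp (-S)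

theorem cus_cmul {Ψ : ℍ → ℂ} (h : Cus Ψ) {c : ℂ} (hc : c ≠ 0) : Cus fun z => c * Ψ z := fun γ => by
  obtain ⟨C, y, C0, e⟩ := h γ
  have p := norm_pos_iff.2 hc
  refine ⟨(‖c‖ + ‖c‖⁻¹) * C, y, by positivity, fun z hz => ?_⟩
  rw [norm_mul, mul_inv]
  refine ⟨mul_le_mul ?_ (e z hz).1 (by positivity) p.le, mul_le_mul ?_ (e z hz).2 (norm_nonneg _)
    (by positivity)⟩
  · rw [inv_le_comm₀ (by positivity) p]
    linarith
  · linarith [inv_pos.2 p]

theorem lb_mul (l : ℕ) (b : ℕ → ℤ) (j : ℕ) : lb (fun i => l * b i) j = l * lb b j := by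
  simp only [lb, Finset.mul_sum]
  exact Finset.sum_congr rfl fun i _ => by push_cast; ring

/-- a Green function whose expansion is the logarithm of a product -/
theorem bp_of {N : ℕ} (N0 : 0 < N) {n : ℍ → ℤ} {Φ : ℍ → ℂ}
    (hΦ : Green (Gamma0 N) (fun z => n z) Φ) {b : ℕ → ℤ} {C Y : ℝ}
    (hY : ∀ z : ℍ, Y < z.im → ∃ S, HasSum (fun j : ℕ => lb b j * ee (j * z)) S ∧
      (Φ z).re = C + S.re) :
    ∃ (l : ℕ) (Ψ : ℍ → ℂ), 0 < l ∧ Bp N (fun z => (2 * l : ℕ) * n z) (fun i => l * b i) Ψ := by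
  obtain ⟨Ψ, χ, h1, h2, h3, h4⟩ := uni0 _ n Φ hΦ
  obtain ⟨_, y, hy⟩ := hΦ.bdd 1
  simp only [one_smul, Int.cast_eq_zero] at hy
  set S : ℂ → ℂ := fun q => ∑' j, lb b j * q ^ j with hS
  simp only [ee_nat] at hY
  obtain ⟨S1, S2⟩ : AnalyticAt ℂ S 0 ∧ tay S = .mk (lb b) := by
    obtain ⟨s, hs, -⟩ := hY ⟨(|Y| + 1 : ℝ) * I, by simp; positivity⟩ (by
      simp [UpperHalfPlane.im]; linarith [le_abs_self Y])
    exact tay_tsum (ee_ne _) hs.summable
  obtain ⟨r, r0, hr⟩ := Metric.eventually_nhds_iff_ball.1 S1.eventually_analyticAt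
  set t := max (max Y y) (-Real.log r / (2 * π)) with ht
  have big : ∀ z : ℍ, t < z.im ↔ ‖ee z‖ < Real.exp (-2 * π * t) := fun z => by
    rw [norm_ee, Real.exp_lt_exp, mul_lt_mul_left_of_neg (by linarith [Real.pi_pos])]
    rfl
  have n0 : ∀ z : ℍ, t < z.im → n z = 0 := fun z hz =>
    (hy z ((le_max_of_le_left (le_max_right _ _)).trans_lt hz)).1
  obtain ⟨u, u1, u2⟩ := rig (U := {z : ℍ | t < z.im}) (n := fun _ => 0)
    (Ψ := fun z => Ψ z ^ 2) (Ψ' := fun z => Real.exp (-C) * exp (-S (ee z)))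
    (isOpen_lt continuous_const UpperHalfPlane.continuous_im) (pre_im t)
    (fun w hw => by simpa [n0 w hw] using MAt.pow (h1 w) 2)
    (fun w hw => ⟨fun z => Real.exp (-C) * exp (-S (ee z)), analyticAt_const.mul
      ((hr _ (mem_ball_zero_iff.2 (((big w).1 hw).trans_le (by
        rw [← Real.exp_log r0, Real.exp_le_exp]
        have := (div_le_iff₀ (by positivity)).1 (le_max_right _ _ : _ ≤ t)
        linarith)))).comp (an_ee w)).neg.cexp, by simp, by simp⟩)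
    fun z hz _ => by
      obtain ⟨s, hs, h⟩ := hY z ((le_max_of_le_left (le_max_left _ _)).trans_lt hz)
      rw [norm_pow, h3 z (n0 z hz), norm_mul, norm_exp, norm_real, Real.norm_of_nonneg
        (Real.exp_pos _).le, ← Real.exp_nat_mul, ← Real.exp_add, show S (ee z) = s from hs.tsum_eq,
        neg_re]
      congr 1
      push_cast
      linarith
  have u0 : u * Real.exp (-C) ≠ 0 := mul_ne_zero (norm_pos_iff.1 (u1 ▸ one_pos)) (by simp)
  have u3 : ∀ z : ℍ, ‖ee z‖ < Real.exp (-2 * π * t) →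
      (u * Real.exp (-C))⁻¹ * Ψ z ^ 2 = exp (-S (ee z)) := fun z hz => by
    rw [u2 z ((big z).2 hz), ← mul_assoc u, inv_mul_cancel_left₀ u0]
  have law : ∀ γ ∈ Gamma0 N, ∀ z, (u * Real.exp (-C))⁻¹ * Ψ (γ • z) ^ 2 =
      χ γ ^ 2 * ((u * Real.exp (-C))⁻¹ * Ψ z ^ 2) := fun γ hγ z => by
    rw [(h4 γ hγ).2, mul_pow, mul_left_comm]
  have par : ∀ (g : SL(2, ℤ)) (m : ℕ), 0 < m → g * ModularGroup.T ^ m * g⁻¹ ∈ Gamma0 N → ∀ z,
      Ψ ((g * ModularGroup.T ^ m * g⁻¹) • z) = Ψ z := fun g m hm h z => by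
    rw [(h4 _ h).2, Ar.parab h1 h2 g hm (h4 _ h).1 (h4 _ h).2, one_mul]
  obtain ⟨l, l0, hl⟩ := fin_ord (ψ := fun q => exp (-S q)) N0
    (fun w => (MAt.pow (h1 w) 2).cmul (inv_ne_zero u0))
    (fun z => by rw [← par 1 1 one_pos (by
      rw [one_mul, inv_one, mul_one, pow_one, Gamma0_mem]; exact Int.cast_zero) z]; simp)
    (fun z => by
      rw [← par ModularGroup.S N N0 (dl_eq N ▸ inv_mem (Gamma0_mem.2 (by simp [dl]))) (dl N • z), dl_eq,
        inv_smul_smul])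
    (Real.exp_pos _) u3 S1.neg.cexp (exp_ne_zero _) fun j =>
      tr_int (s := Finset.univ) (e := fun _ : Unit => 1) (ζ := fun _ => 1)
        (χ := fun _ => 1) (g := 1) (r := 1) (fun _ => isIntegral_one) (fun m => by simp)
        (by simp) S1 (lb_eq b ▸ S2) j
  refine ⟨l, fun z => (u * Real.exp (-C))⁻¹ ^ l * Ψ z ^ (2 * l), l0,
    fun w => (MAt.pow (h1 w) _).cmul (pow_ne_zero _ (inv_ne_zero u0)),
    cus_cmul (h2.pow _) (pow_ne_zero _ (inv_ne_zero u0)), fun γ hγ z => ?_, t, fun z hz => ?_⟩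
  · simp only [(h4 γ hγ).2, mul_pow]
    rw [pow_mul _ _ l, hl γ _ (pow_ne_zero _ (norm_pos_iff.1 ((h4 γ hγ).1 ▸ one_pos))) (law γ hγ),
      one_mul]
  · obtain ⟨s, hs, -⟩ := hY z ((le_max_of_le_left (le_max_left _ _)).trans_lt hz)
    refine ⟨l * s, by simpa only [lb_mul, mul_assoc] using hs.mul_left (l : ℂ), ?_⟩
    rw [pow_mul, ← mul_pow, u3 z ((big z).1 hz), show S (ee z) = s from hs.tsum_eq, ← exp_nat_mul,
      mul_neg]

theorem Bp.prin {N l : ℕ} (l0 : 0 < l) {n : ℍ → ℤ} {b : ℕ → ℤ} {Ψ : ℍ → ℂ}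
    (h : Bp N (fun z => (l : ℕ) * n z) b Ψ) : Prin (Gamma0 N) fun z => n z :=
  ⟨l, _, Ψ, l0, fun z => by push_cast; rfl, h.mero, h.cus, h.inv⟩

/-- regrouping a double series -/
theorem regr {M : ℕ} (hM : 0 < M) {T : ℕ → ℕ → ℂ} (hT : ∀ n b, ¬ M ∣ n * b → T n b = 0) {z f : ℂ}
    (s : HasSum (fun p : ℕ × ℕ => T (p.1 + 1) (p.2 + 1) * ee ((p.1 + 1) * (p.2 + 1) * z / M)) f) :
    HasSum (fun j : ℕ => (∑ p ∈ (M * j).divisorsAntidiagonal, T p.1 p.2) * ee (j * z)) f := by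
  have i1 : Function.Injective fun p : ℕ × ℕ => (p.1 + 1, p.2 + 1) := fun p q e => by
    simpa [Prod.ext_iff] using e
  have s1 := (i1.hasSum_iff (f := fun p : ℕ × ℕ => if p.1 * p.2 = 0 then 0 else
      T p.1 p.2 * ee ((p.1 * p.2 : ℕ) * z / M)) fun ⟨n, b⟩ hp => ?_).1
      (s.congr_fun fun p => by simp [Function.comp])
  · have s2 : HasSum (fun j : ℕ => (∑ p ∈ j.divisorsAntidiagonal, T p.1 p.2) * ee (j * z / M)) f := by
      refine (s1.tsum_fiberwise fun p => p.1 * p.2).congr_fun fun j => ?_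
      rcases eq_or_ne j 0 with rfl | hj
      · rw [Nat.divisorsAntidiagonal_zero, Finset.sum_empty, zero_mul]
        exact ((tsum_congr fun ⟨p, hp⟩ => if_pos hp).trans tsum_zero).symm
      · rw [show (fun p : ℕ × ℕ => p.1 * p.2) ⁻¹' {j} = j.divisorsAntidiagonal by ext; simp [hj],
          Finset.tsum_subtype' j.divisorsAntidiagonal fun p => if p.1 * p.2 = 0 then 0 else
            T p.1 p.2 * ee ((p.1 * p.2 : ℕ) * z / M), Finset.sum_mul]
        exact Finset.sum_congr rfl fun p hp => by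
          rw [(Nat.mem_divisorsAntidiagonal.1 hp).1, if_neg hj]
    have M0 : (M : ℂ) ≠ 0 := Nat.cast_ne_zero.2 hM.ne'
    refine (((mul_right_injective₀ hM.ne').hasSum_iff fun j hj => ?_).2 s2).congr_fun fun j => ?_
    · rw [Finset.sum_eq_zero fun p hp => hT _ _ fun ⟨i, e⟩ =>
        hj ⟨i, e.symm.trans (Nat.mem_divisorsAntidiagonal.1 hp).1⟩, zero_mul]
    · simp only [Function.comp]
      rw [Nat.cast_mul, mul_assoc, mul_div_cancel_left₀ _ M0]
  · rcases n with _ | n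
    · simp
    rcases b with _ | b
    · simp
    exact absurd ⟨(n, b), rfl⟩ hp

/-- pairs with divisibility conditions -/
theorem sum_dv {u v : ℕ} (hu : 0 < u) (hv : 0 < v) (j : ℕ) (F : ℕ → ℕ → ℂ) :
    ∑ p ∈ (u * v * j).divisorsAntidiagonal, (if u ∣ p.1 ∧ v ∣ p.2 then F p.1 p.2 else 0) =
      ∑ i ∈ j.divisorsAntidiagonal, F (u * i.2) (v * i.1) := by
  rw [← Finset.sum_filter]
  refine (Finset.sum_bij (fun i _ => (u * i.2, v * i.1)) (fun i hi => ?_) (fun i _ i' _ e => ?_)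
    (fun p hp => ?_) fun i _ => rfl).symm
  · obtain ⟨e, h⟩ := Nat.mem_divisorsAntidiagonal.1 hi
    refine Finset.mem_filter.2 ⟨Nat.mem_divisorsAntidiagonal.2 ⟨by rw [← e]; ring, by positivity⟩,
      dvd_mul_right _ _, dvd_mul_right _ _⟩
  · simpa [Prod.ext_iff, hu.ne', hv.ne', and_comm] using e
  · obtain ⟨h, ⟨a, ha⟩, b, hb⟩ := Finset.mem_filter.1 hp
    obtain ⟨e, h⟩ := Nat.mem_divisorsAntidiagonal.1 h
    refine ⟨(b, a), Nat.mem_divisorsAntidiagonal.2 ⟨?_, right_ne_zero_of_mul h⟩,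
      Prod.ext ha.symm hb.symm⟩
    refine mul_left_cancel₀ (mul_pos hu hv).ne' ?_
    rw [← e, ha, hb]; ring

open P004Z.Lf P004Z.Lf.Bg in
/-- **the expansion** of the lift of a weakly holomorphic form -/
theorem Tp.exp {N : ℕ} [NeZero N] {δ k : ℕ} {φ : ZMod (2 * N) → Fm → ℤ} (t : Tp δ k φ)
    {a : ℤ → ZMod (2 * N) → ℂ} {c : PP N} (h : Harm δ a 0 c) {b : ℕ → ℤ}
    (h1 : ∀ b n : ℤ, conj (ch (N * k) (sP k φ a) (-b) n) = ch (N * k) (sP k φ a) b n)
    (h2 : ∀ n b : ℕ, ¬ N * k ∣ n * b → ch (N * k) (sP k φ a) (-b) n = 0)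
    (h3 : ∀ j, ∑ p ∈ (N * k * j).divisorsAntidiagonal,
      4 / (p.1 : ℂ) * ch (N * k) (sP k φ a) (-p.2) p.1 = lb b j) :
    ∃ Φ, Green (Gamma0 N) (Zg k φ c) Φ ∧ ∃ C Y : ℝ, ∀ z : ℍ, Y < z.im →
      ∃ S, HasSum (fun j : ℕ => lb b j * ee (j * z)) S ∧ (Φ z).re = C + S.re := by
  have := t.nz
  obtain ⟨Y, C, s, e⟩ := expn loc0 _ _ _ _ _ (t.hm h)
  have s2 := s.mul_left 2
  simp only [← mul_assoc _ _ (Real.exp _)] at s2
  obtain ⟨f, hf⟩ := Hr.hol (N * k) (a := fun p => 2 / (p.1 + 1) *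
    ch (N * k) (sP k φ a) (-(p.2 + 1)) (p.1 + 1)) (fun p => by
      rw [norm_mul, norm_div, ← Nat.cast_add_one, norm_natCast, Complex.norm_ofNat]
      exact mul_le_mul (div_le_self two_pos.le (by simp)) (le_add_of_nonneg_right (norm_nonneg _))
        (norm_nonneg _) two_pos.le) s2
  refine ⟨_, t.green h, C.re, Y, fun z hz => ⟨2 * f z, ?_, ?_⟩⟩
  · have := regr (NeZero.pos (N * k)) (T := fun n b => 4 / (n : ℂ) * ch (N * k) (sP k φ a) (-b) n)
      (fun n b q => by rw [h2 n b q, mul_zero]) (z := z) (f := 2 * f z)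
      (((hf z hz).2.mul_left 2).congr_fun fun p => by push_cast; ring)
    simpa only [h3] using this
  have k := ((hf z hz).2.add (hf z hz).2.star).unique ((e z hz).2.congr_fun fun p => ?_)
  · rw [gr_eq (e z hz).1, ← eq_sub_iff_add_eq'.1 k]
    simp [two_mul]
  · simp only [tr, star_def, map_mul, h1, conj_ee, map_div₀, map_add, conj_natCast,
      map_one, map_ofNat]
    ring_nf

end Vale.Agent.P014T.Z.Lf
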