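import Vale.Agent.P014T.Z.Lf1
import Vale.Agent.P014T.Z.Psd

/-!
# P014T, block Z1: divisor and expansion of the smoothed lift (helper87)
-/

set_option autoImplicit false
set_option linter.all false

open Complex Filter Topology CongruenceSubgroup Finset
open UpperHalfPlane hiding I
open scoped Real MatrixGroups NumberTheorySymbols ComplexConjugate

noncomputable section

namespace Vale.Agent.P014T.Z.Lf

open P004Z P004Z.Hd P004Z.Lf

variable {N p : ℕ} [NeZero N]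

omit [NeZero N] in
theorem c1 (h : Pz1 N p) : (p : ZMod (2 * N)) = 1 := by
  have := cast_eq (n := 2 * N) (a := p) (b := 1) (Dvd.dvd.trans ⟨2, by push_cast; ring⟩ h.one)
  exact_mod_cast this

theorem nd (h : Pz1 N p) : ¬ p ∣ 2 * N := fun ⟨k, e⟩ => by
  obtain ⟨j, q⟩ := h.one
  have : (p : ℤ) ∣ 1 := ⟨1 - 2 * k * j, by
    have : (2 * N : ℤ) = p * k := by exact_mod_cast e
    linear_combination -q - 2 * j * this⟩
  exact h.pr.one_lt.ne' (by exact_mod_cast Int.eq_one_of_dvd_one (by positivity) this)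

open Classical in
theorem om_root (hp : p.Prime) {m : Fm} {n : ℤ} (e : disc m = p ^ 2 * n) : om p m =
    1 + (J(n | p) - (p + 1)) * (if m ∈ Set.range (fun μ : Fm => (p : ℤ) • μ) then 1 else 0) +
      p * (if m ∈ Set.range (fun μ : Fm => ((p : ℤ) ^ 2) • μ) then 1 else 0) := by
  have p0 : (p : ℤ) ≠ 0 := Nat.cast_ne_zero.2 hp.ne_zero
  simp only [mem_smul, om]
  split_ifs with a b c d
  · obtain ⟨μ, rfl⟩ := mem_smul.2 b
    rw [disc_smul, sq ((p : ℤ) ^ 2), mul_assoc, mul_right_inj' (pow_ne_zero 2 p0)] at e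
    rw [J_dvd hp.one_lt (a := n) ⟨p * disc μ, by rw [← e]; ring⟩]
    ring
  · rw [e, Int.mul_ediv_cancel_left _ (pow_ne_zero 2 p0)]
    ring
  · exact absurd ⟨(dvd_pow_self _ two_ne_zero).trans d.1, (dvd_pow_self _ two_ne_zero).trans d.2.1,
      (dvd_pow_self _ two_ne_zero).trans d.2.2⟩ a
  · ring
  · exact absurd ⟨n, e⟩ c
  · exact absurd ⟨n, e⟩ c

theorem zf_ps (h : Pz1 N p) (n : ℕ) (r : ZMod (2 * N)) (z : ℍ) :
    Zf (p ^ 2) (ps N p 1) n r z = Zd N 1 (p ^ 2 * n) r z + J(-(n : ℤ) | p) * Zd N 1 n r z +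
      (if p ^ 2 ∣ n then p * Zd N 1 (n / p ^ 2) r z else 0) - (p + 1) * Zd N 1 n r z := by
  classical
  have hl := h.pr
  have cp : IsCoprime (p : ℤ) (2 * N * 1 : ℕ) :=
    Nat.isCoprime_iff_coprime.2 (hl.coprime_iff_not_dvd.2 (by rw [mul_one]; exact nd h))
  have l0 : (p : ℤ) ≠ 0 := Int.natCast_ne_zero.2 hl.ne_zero
  obtain ⟨ψ, hψ⟩ : ∃ ψ : Fm → ℤ, ∀ m, ψ m = if disc m = p ^ 2 * -(n : ℤ) ∧ evq m z = 0 then
    ph N 1 r m else 0 := ⟨_, fun _ => rfl⟩
  let S := (root_fin (p ^ 2 * -(n : ℤ)) z).toFinset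
  have hS : ∀ m, ψ m ≠ 0 → m ∈ S := fun m hm =>
    (Set.Finite.mem_toFinset _).2 (ite_ne_right_iff.1 (hψ m ▸ hm)).1
  have ev : ∀ (k : ℤ) μ, evq (k • μ) z = k * evq μ z := fun k μ => by
    simp only [evq, Prod.smul_fst, Prod.smul_snd, smul_eq_mul]
    push_cast
    ring
  have sm : ∀ μ, ph N 1 r ((p : ℤ) • μ) = ph N 1 r μ := fun μ => by
    have := ph_smul squarefree_one cp r μ
    rwa [Int.cast_natCast, c1 h, one_mul, jacobiSym.one_right, one_mul] at this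
  have e0 : Zf (p ^ 2) (ps N p 1) n r z = ∑ m ∈ S, om p m * ψ m := by
    rw [← finsum_eq_sum_of_support_subset _ fun m hm => hS m (right_ne_zero_of_mul hm)]
    refine finsum_congr fun m => ?_
    rw [hψ, mul_ite, mul_zero, mul_neg, Nat.cast_pow]
    rfl
  have e1 : Zd N 1 (p ^ 2 * n) r z = ∑ m ∈ S, ψ m := by
    rw [← finsum_eq_sum_of_support_subset _ fun m hm => hS m hm]
    refine finsum_congr fun m => (if_congr (and_congr_left' ?_) rfl rfl).trans (hψ m).symm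
    push_cast
    rw [one_mul, mul_neg]
  have e2 : Zd N 1 n r z = ∑ᶠ μ, ψ ((p : ℤ) • μ) := finsum_congr fun μ => by
    rw [hψ, ev, disc_smul, sm]
    simp [hl.ne_zero, -mul_neg]
  have e3 : (if p ^ 2 ∣ n then p * Zd N 1 (n / p ^ 2) r z else 0) =
      p * ∑ᶠ μ, ψ (((p : ℤ) ^ 2) • μ) := by
    split_ifs with d
    · obtain ⟨n, rfl⟩ := d
      rw [Nat.mul_div_cancel_left _ (pow_pos hl.pos 2)]
      refine congrArg _ (finsum_congr fun μ => ?_)
      rw [hψ, ev, disc_smul, show (p : ℤ) ^ 2 * -((p ^ 2 * n : ℕ) : ℤ) =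
        (p ^ 2) ^ 2 * -(n : ℤ) by push_cast; ring, sq (p : ℤ), mul_smul, sm, sm]
      simp [hl.ne_zero, -mul_neg]
    · rw [finsum_eq_zero_of_forall_eq_zero fun μ => (hψ _).trans (if_neg fun e => d ?_), mul_zero]
      have := e.1
      rw [disc_smul, sq ((p : ℤ) ^ 2), mul_assoc, mul_right_inj' (pow_ne_zero 2 l0)] at this
      exact_mod_cast (dvd_neg.1 ⟨_, this.symm⟩ : (p : ℤ) ^ 2 ∣ n)
  rw [e0, e1, e3, e2, push hS (smul_right_injective _ l0),
    push hS (smul_right_injective _ (pow_ne_zero 2 l0)), mul_sum, mul_sum, mul_sum,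
    ← sum_add_distrib, ← sum_add_distrib, ← sum_sub_distrib]
  refine sum_congr rfl fun m hm => ?_
  rw [om_root hl ((Set.Finite.mem_toFinset _).1 hm).1]
  ring

/-- the divisor of the smoothed lift -/
theorem zg_ps (h : Pz1 N p) (c : PP N) : Zg (p ^ 2) (ps N p 1) c = Zc 1 (U1 p c) := by
  have e : Zg (p ^ 2) (ps N p 1) c = Finsupp.linearCombination ℂ
      (fun i z => (Zf (p ^ 2) (ps N p 1) i.1 i.2 z : ℂ)) c := funext fun z => by
    simp [Zg, Finsupp.linearCombination_apply, Finsupp.sum]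
  rw [e, ZL_eq]
  refine LinearMap.congr_fun (g := ZL 1 ∘ₗ U1 p) (Finsupp.lhom_ext fun i a => funext fun z => ?_) c
  have := congrArg (fun k : ℤ => a * (k : ℂ)) (zf_ps h i.1 i.2 z)
  simp only [Int.cast_add, Int.cast_sub, Int.cast_mul, Int.cast_ite, Int.cast_zero,
    Int.cast_natCast, Int.cast_one] at this
  simp only [LinearMap.comp_apply, U1, LinearMap.sub_apply, LinearMap.smul_apply,
    Module.End.one_apply, Tt, Finsupp.lsum_single, LinearMap.toSpanSingleton_apply,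
    map_smul, map_add, map_sub, apply_ite (ZL 1), map_zero, c1 h, ZMod.inv_one, one_mul,
    jacobiSym.one_right, Nat.cast_one]
  simp only [ZL, Finsupp.linearCombination_single, map_smul, Pi.smul_apply, Pi.add_apply,
    Pi.sub_apply, ite_apply, Pi.zero_apply, smul_eq_mul, one_mul, Int.cast_mul]
  rw [this]
  ring

/-! ### the expansion -/

theorem sum_pm {u v : ℕ} (hu : 0 < u) (hv : 0 < v) (n : ℤ) :
    ∑ j ∈ range (u * v), (if (v : ℤ) ∣ j then (1 : ℂ) else 0) * ee (-(j * n / (u * v : ℕ))) =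
      if (u : ℤ) ∣ n then (u : ℂ) else 0 := by
  have := NeZero.mk hu.ne'
  have v0 : (v : ℂ) ≠ 0 := Nat.cast_ne_zero.2 hv.ne'
  have u0 : (u : ℂ) ≠ 0 := Nat.cast_ne_zero.2 hu.ne'
  simp only [ite_mul, one_mul, zero_mul]
  rw [← sum_filter, ← if_congr (dvd_neg (b := n)) rfl rfl, ← Gq.sum_ee]
  refine (sum_bij (fun i _ => v * i) (fun i hi => ?_) (fun i _ i' _ e => ?_) (fun j hj => ?_)
    fun i _ => ?_).symm
  · exact mem_filter.2 ⟨mem_range.2 (by nlinarith [mem_range.1 hi]), by simp⟩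
  · exact mul_left_cancel₀ hv.ne' e
  · obtain ⟨a, b⟩ := mem_filter.1 hj
    obtain ⟨i, rfl⟩ := Int.natCast_dvd_natCast.1 b
    exact ⟨i, mem_range.2 (by nlinarith [mem_range.1 a]), rfl⟩
  · congr 1
    push_cast
    field_simp

theorem om_deg (hp : p.Prime) (b j : ℤ) : om p (0, b, j) = if (p : ℤ) ∣ b then
    (1 : ℤ) - ((p : ℤ) + if (p : ℤ) ^ 2 ∣ b then 1 else 0) * (if (p : ℤ) ∣ j then 1 else 0) +
      (if (p : ℤ) ^ 2 ∣ b then (p : ℤ) else 0) * (if (p : ℤ) ^ 2 ∣ j then 1 else 0) else 0 := by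
  have pp := Nat.prime_iff_prime_int.1 hp
  have d : disc (0, b, j) = b ^ 2 := by simp [disc]
  have q : ∀ x : ℤ, (p : ℤ) ^ 2 ∣ x → (p : ℤ) ∣ x := fun x => (dvd_pow_self _ two_ne_zero).trans
  simp only [om, d, dvd_zero, true_and, Int.pow_dvd_pow_iff two_ne_zero]
  by_cases h1 : (p : ℤ) ∣ b
  · obtain ⟨b, rfl⟩ := h1
    rw [mul_pow, Int.mul_ediv_cancel_left _ (pow_ne_zero 2 pp.ne_zero)]
    simp only [dvd_mul_right, true_and, if_true, sq (p : ℤ), mul_dvd_mul_iff_left pp.ne_zero]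
    by_cases h2 : (p : ℤ) ∣ b
    · rw [J_dvd hp.one_lt (h2.trans (dvd_pow_self _ two_ne_zero))]
      by_cases h3 : (p : ℤ) * p ∣ j
      · simp [h2, h3, (dvd_mul_right _ _).trans h3]
      · by_cases h4 : (p : ℤ) ∣ j <;> simp [h2, h3, h4]
    · rw [jacobiSym.sq_one' (gcd_one hp h2)]
      by_cases h4 : (p : ℤ) ∣ j <;> simp [h2, h4]
  · simp [h1]

theorem ch_ps (hp : p.Prime) (a : ℤ → ZMod (2 * N) → ℂ) (b n : ℤ) :
    ch (N * p ^ 2) (sP (p ^ 2) (ps N p 1) a) b n = if (p : ℤ) ∣ b then a (b ^ 2 / p ^ 2) b *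
      ((if ((N * p ^ 2 : ℕ) : ℤ) ∣ n then ((N * p ^ 2 : ℕ) : ℂ) else 0) -
        (p + if (p : ℤ) ^ 2 ∣ b then 1 else 0) *
          (if ((N * p : ℕ) : ℤ) ∣ n then ((N * p : ℕ) : ℂ) else 0) +
        (if (p : ℤ) ^ 2 ∣ b then p else 0) * (if (N : ℤ) ∣ n then (N : ℂ) else 0)) else 0 := by
  have e : ∀ j : ℤ, sP (p ^ 2) (ps N p 1) a (0, b, j) = a (b ^ 2 / p ^ 2) b * om p (0, b, j) :=
    fun j => by
      rw [sP, sum_eq_single_of_mem (b : ZMod (2 * N)) (mem_univ _) fun r _ e => ?_]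
      · simp [ps, ph, disc, gc]
      · rw [ps, ph, if_neg fun k => e k.2.1.symm, mul_zero, Int.cast_zero, mul_zero]
  have N0 := NeZero.pos N
  have p0 := hp.pos
  have s2 := sum_pm (u := N * p ^ 2) (v := 1) (by positivity) one_pos n
  have s1 := sum_pm (u := N * p) (v := p) (by positivity) p0 n
  have s0 := sum_pm (u := N) (v := p ^ 2) N0 (by positivity) n
  rw [mul_one] at s2
  rw [mul_assoc, ← sq] at s1
  simp only [ch, e, om_deg hp]
  by_cases h1 : (p : ℤ) ∣ b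
  · rw [if_pos h1, ← s0, ← s1, ← s2, mul_sum, mul_sum, ← sum_sub_distrib, ← sum_add_distrib,
      mul_sum]
    refine sum_congr rfl fun j _ => ?_
    rw [if_pos h1, if_pos (show ((1 : ℕ) : ℤ) ∣ j by simp)]
    push_cast
    ring
  · simp [h1]

/-- the exponents of the product -/
def ex1 (p : ℕ) (A : ℕ → ℤ) (j : ℕ) : ℤ :=
  (if p ∣ j then A (j / p) else 0) - (p + if p ∣ j then 1 else 0) * A j + p * A (p * j)

variable {a : ℤ → ZMod (2 * N) → ℤ}

theorem ch_conj (hp : p.Prime) (y : ∀ n r, (a n (-r) : ℂ) = a n r) (b n : ℤ) :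
    conj (ch (N * p ^ 2) (sP (p ^ 2) (ps N p 1) fun n r => a n r) (-b) n) =
      ch (N * p ^ 2) (sP (p ^ 2) (ps N p 1) fun n r => a n r) b n := by
  simp only [ch_ps hp, dvd_neg, neg_sq, Int.cast_neg, y]
  split_ifs <;> simp

theorem ch_zero (hp : p.Prime) (a : ℤ → ZMod (2 * N) → ℂ) (n b : ℕ) (h : ¬ N * p ^ 2 ∣ n * b) :
    ch (N * p ^ 2) (sP (p ^ 2) (ps N p 1) a) (-b) n = 0 := by
  simp only [ch_ps hp, dvd_neg, ← Nat.cast_pow, Int.natCast_dvd_natCast]
  by_cases h1 : p ∣ b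
  · have h2 : ¬ N * p ∣ n := fun q => h (by rw [sq, ← mul_assoc]; exact mul_dvd_mul q h1)
    have h3 : ¬ N * p ^ 2 ∣ n := fun q => h (q.mul_right _)
    by_cases h4 : p ^ 2 ∣ b
    · have h5 : ¬ N ∣ n := fun q => h (mul_dvd_mul q h4)
      simp [h2, h3, h5]
    · simp [h2, h3, h4]
  · rw [if_neg h1]

theorem ch_sum (h : Pz1 N p) (y : ∀ n r, (a n (-r) : ℂ) = a n r) (j : ℕ) :
    ∑ i ∈ (N * p ^ 2 * j).divisorsAntidiagonal, 4 / (i.1 : ℂ) *
      ch (N * p ^ 2) (sP (p ^ 2) (ps N p 1) fun n r => a n r) (-i.2) i.1 =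
      lb (ex1 p fun i => 4 * a (i ^ 2) i) j := by
  have hp := h.pr
  have N0 := NeZero.pos N
  have p0 := hp.pos
  have N1 : (N : ℂ) ≠ 0 := Nat.cast_ne_zero.2 N0.ne'
  have p1 : (p : ℂ) ≠ 0 := Nat.cast_ne_zero.2 p0.ne'
  obtain ⟨A, hA⟩ : ∃ A : ℕ → ℂ, ∀ b, A b = a ((b : ℤ) ^ 2 / p ^ 2) b := ⟨_, fun _ => rfl⟩
  have hA' : ∀ i : ℕ, A (p * i) = a (i ^ 2) i := fun i => by
    rw [hA, Nat.cast_mul, mul_pow, Int.mul_ediv_cancel_left _ (by positivity), Nat.cast_mul, c1 h,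
      one_mul]
  have s2 := sum_dv (u := N * p ^ 2) (v := 1) (by positivity) one_pos j
    fun n b => if p ∣ b then 4 / (n : ℂ) * A b * (N * p ^ 2 : ℕ) else 0
  have s1 := sum_dv (u := N * p) (v := p) (by positivity) p0 j
    fun n b => 4 / (n : ℂ) * A b * ((p + if p ^ 2 ∣ b then 1 else 0) * (N * p : ℕ))
  have s0 := sum_dv (u := N) (v := p ^ 2) N0 (by positivity) j
    fun n b => 4 / (n : ℂ) * A b * (p * N)
  rw [mul_one] at s2
  rw [mul_assoc N, ← sq] at s1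
  have := congrArg₂ (· + ·) (congrArg₂ (· - ·) s2 s1) s0
  simp only [← sum_sub_distrib, ← sum_add_distrib] at this
  refine (sum_congr rfl fun i _ => ?_).trans (this.trans (sum_congr rfl fun i hi => ?_))
  · simp only [ch_ps hp, dvd_neg, neg_sq, Int.cast_neg, Int.cast_natCast, y, ← hA,
      ← Nat.cast_pow p, Int.natCast_dvd_natCast, one_dvd, and_true]
    rw [Nat.cast_pow, ← hA]
    by_cases h1 : p ∣ i.2
    · simp only [h1, if_true, and_true, ite_and]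
      split_ifs <;> ring
    · have : ¬ p ^ 2 ∣ i.2 := fun q => h1 ((dvd_pow_self _ two_ne_zero).trans q)
      simp [h1, this]
  · have i2 : (i.2 : ℂ) ≠ 0 := Nat.cast_ne_zero.2 (Nat.snd_mem_divisors_of_mem_antidiagonal hi |>
      Nat.pos_of_mem_divisors).ne'
    simp only [ex1, one_mul, sq p, mul_assoc p p, hA', Nat.mul_dvd_mul_iff_left p0]
    by_cases h1 : p ∣ i.1
    · obtain ⟨k, e⟩ := h1
      simp only [e, dvd_mul_right, if_true, hA', Nat.mul_div_cancel_left _ p0]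
      push_cast
      field_simp
    · simp only [h1, if_false]
      push_cast
      field_simp
      ring

end Vale.Agent.P014T.Z.Lf
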