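import Vale.Agent.P014T.Z.St
import Vale.Agent.P014T.Gx.One

/-! # P014T, block Z1: an integral projector in weight `3/2` -/

set_option linter.all false

open Complex MeasureTheory Polynomial
open scoped ComplexConjugate

noncomputable section

namespace Vale.Agent.P014T.Z

open P004Z P004Z.Gl P004Z.Lf Gx

namespace Pj3

variable {N : ℕ} [NeZero N]

/-- the Hecke operator as a linear map -/
def TL (l : ℕ) : Module.End ℂ (Cf N) where
  toFun := TT 1 l
  map_add' x y := by
    funext n r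
    simp only [TT, Pi.add_apply]
    split_ifs <;> ring
  map_smul' k x := by
    funext n r
    simp only [TT, Pi.smul_apply, smul_eq_mul, RingHom.id_apply]
    split_ifs <;> ring

/-- the action of the free algebra on arrays -/
abbrev E : FA N →ₐ[ℤ] Module.End ℂ (Cf N) := FreeAlgebra.lift ℤ fun l : PA (2 * N * 1) => TL l.1

theorem nd (l : PA (2 * N * 1)) : ¬ l.1 ∣ 2 * N := by simpa using l.2.2

theorem E0 (k : ℤ) (x : Cf N) : E (algebraMap ℤ (FA N) k) x = (k : ℂ) • x := by
  rw [AlgHom.commutes, eq_intCast, Module.End.intCast_apply, Int.cast_smul_eq_zsmul]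

theorem E1 (l : PA (2 * N * 1)) (x : Cf N) : E (FreeAlgebra.ι ℤ l) x = TT 1 l x := by
  rw [FreeAlgebra.lift_ι_apply]
  rfl

theorem s_add {x y : Cf N} (a : IsS 1 x) (b : IsS 1 y) : IsS 1 (x + y) := by
  simpa using Wl.isS_comb 1 a b

theorem mem (P : FA N) : ∀ x, IsS 1 x → IsS 1 (E P x) := by
  induction P using FreeAlgebra.induction with
  | grade0 k => exact fun x h => E0 k x ▸ Wl.isS_smul _ h
  | grade1 l => exact fun x h => E1 l x ▸ hecke1 l.2.1 (nd l) h
  | mul P Q h h' => exact fun x k => map_mul E P Q ▸ h _ (h' x k)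
  | add P Q h h' => exact fun x k => map_add E P Q ▸ s_add (h x k) (h' x k)

theorem adj (P : FA N) : ∀ x y, IsS 1 x → IsS 1 y → B (E P x) y = B x (E (star P) y) := by
  induction P using FreeAlgebra.induction with
  | grade0 k =>
    intro x y _ _
    rw [FreeAlgebra.star_algebraMap, E0, E0, B_smul, B_conj (_ • y), B_smul, B_conj y x]
    simp
  | grade1 l =>
    intro x y a b
    rw [FreeAlgebra.star_ι, E1, E1, self1 l.2.1 (nd l) a b]
  | mul P Q h h' =>
    intro x y a b
    rw [star_mul, map_mul, map_mul]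
    exact (h _ y (mem Q x a) b).trans (h' x _ a (mem _ y b))
  | add P Q h h' =>
    intro x y a b
    rw [star_add, map_add, map_add, LinearMap.add_apply, LinearMap.add_apply,
      B_add1 (mem P x a) (mem Q x a) b, h x y a b, h' x y a b, B_conj (_ + _),
      B_add1 (mem _ y b) (mem _ y b) a, map_add, ← B_conj, ← B_conj]

theorem tr (P : FA N) : ∀ y c, pr y (act 1 P c) = pr (E (star P) y) c := by
  induction P using FreeAlgebra.induction with
  | grade0 k =>
    intro y c
    rw [FreeAlgebra.star_algebraMap, E0, smul_pr, act, AlgHom.commutes, eq_intCast,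
      Module.End.intCast_apply, ← Int.cast_smul_eq_zsmul ℂ, pr_smul]
  | grade1 l =>
    intro y c
    rw [FreeAlgebra.star_ι, E1, act, FreeAlgebra.lift_ι_apply, pr_tt]
  | mul P Q h h' =>
    intro y c
    rw [star_mul, map_mul, act, map_mul]
    exact (h y _).trans (h' _ c)
  | add P Q h h' =>
    intro y c
    rw [star_add, map_add, act, map_add, LinearMap.add_apply, LinearMap.add_apply, pr_add, add_pr,
      h, h']

/-- a rational functional, applied to the coefficients -/
def rs (ρ : ℂ →ₗ[ℚ] ℚ) (x : Cf N) : Cf N := fun n r => ρ (x n r)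

theorem ro_mul (ρ : ℂ →ₗ[ℚ] ℚ) (k : ℚ) (z : ℂ) : ρ (k * z) = k * ρ z := by
  rw [← Rat.smul_def, map_smul, smul_eq_mul]

theorem ro_int (ρ : ℂ →ₗ[ℚ] ℚ) (k : ℤ) (z : ℂ) : ρ (k * z) = k * ρ z := by
  simpa using ro_mul ρ k z

theorem com (ρ : ℂ →ₗ[ℚ] ℚ) (P : FA N) : ∀ x, E P (rs ρ x) = rs ρ (E P x) := by
  induction P using FreeAlgebra.induction with
  | grade0 k =>
    intro x
    funext n r
    simp only [E0, rs, Pi.smul_apply, smul_eq_mul, ro_int]
    push_cast
    rfl
  | grade1 l =>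
    intro x
    funext n r
    have := ro_int ρ l.1
    simp only [Int.cast_natCast] at this
    simp only [E1, rs, TT, map_add, ro_int]
    split_ifs <;> simp [this]
  | mul P Q h h' =>
    intro x
    rw [map_mul, Module.End.mul_apply, Module.End.mul_apply, h', h]
  | add P Q h h' =>
    intro x
    funext n r
    simp only [map_add, LinearMap.add_apply, Pi.add_apply, h, h', rs, Rat.cast_add]

theorem rs_mem (ρ : ℂ →ₗ[ℚ] ℚ) {x : Cf N} (h : IsS 1 x) : IsS 1 (rs ρ x) := by
  refine serre1 (fun r => by simp [rs, h.zero]) (fun n r a => h.sup n r fun e => a (by simp [rs, e]))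
    (fun n r => by simp [rs, (pets1 h).1, eps_one]) fun c k => ?_
  choose z hz using WH.int k
  obtain ⟨a, k⟩ := k
  have e : pr x c = 0 := by
    rw [(pair1 k).2 x h]
    show B x 0 = 0
    rw [B_conj, ← zero_smul ℂ (0 : Cf N), B_smul, zero_mul, map_zero]
  have := congrArg (fun t => (ρ t : ℂ)) e
  simpa only [pr, Finsupp.sum, hz, map_sum, ro_int, Rat.cast_sum, Rat.cast_mul, Rat.cast_intCast,
    map_zero, Rat.cast_zero, rs] using this

theorem pos (x : Cf N) : ∃ t : ℝ, 0 ≤ t ∧ B x x = t := by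
  refine ⟨∫ τ in FD, (∑ r, normSq (fn x r τ)) * τ.im ^ (-(1 / 2) : ℝ),
    setIntegral_nonneg meas_FD fun τ h => mul_nonneg (Finset.sum_nonneg fun _ _ => normSq_nonneg _)
      (Real.rpow_nonneg h.2.2.le _), ?_⟩
  rw [← integral_complex_ofReal]
  simp only [B, pet, mul_conj, ofReal_mul, ofReal_sum]

theorem B_sum {ι : Type} (F : Finset ι) {f : ι → Cf N} (h : ∀ i, IsS 1 (f i)) {y : Cf N}
    (b : IsS 1 y) : IsS 1 (∑ i ∈ F, f i) ∧ B (∑ i ∈ F, f i) y = ∑ i ∈ F, B (f i) y := by
  classical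
  induction F using Finset.induction_on with
  | empty => exact ⟨isS_zero, by simpa using B_smul 0 0 y⟩
  | insert i F n k =>
    rw [Finset.sum_insert n, Finset.sum_insert n, B_add1 (h i) k.1 b, k.2]
    exact ⟨s_add (h i) k.1, rfl⟩

/-- a sum of squares -/
theorem sq {ι : Type} (F : Finset ι) (s : ι → FA N) {x : Cf N} (h : IsS 1 x)
    (e : E (∑ i ∈ F, star (s i) * s i) x = 0) : ∀ i ∈ F, E (s i) x = 0 := by
  choose t t0 t1 using fun i => pos (E (s i) x)
  have : ∑ i ∈ F, t i = 0 := by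
    have := (B_sum F (fun i => mem (star (s i) * s i) x h) h).2
    rw [← LinearMap.sum_apply, ← map_sum, e, ← zero_smul ℂ (0 : Cf N), B_smul, zero_mul] at this
    rw [← ofReal_eq_zero, ofReal_sum, this]
    refine Finset.sum_congr rfl fun i _ => ?_
    rw [map_mul, Module.End.mul_apply, adj _ _ _ (mem _ x h) h, star_star, t1]
  intro i m
  exact (pets1 (mem _ x h)).2.2.2 ((t1 i).trans (by
    rw [(Finset.sum_eq_zero_iff_of_nonneg fun i _ => t0 i).1 this i m, ofReal_zero]))

/-- an integral polynomial -/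
theorem poly {q : FA N} (hq : star q = q) : ∃ (n : ℕ) (z : ℕ → ℤ), z 0 ≠ 0 ∧ ∀ x, IsS 1 x →
    E q (E (∑ i ∈ Finset.range (n + 1), z i • q ^ i) x) = 0 := by
  obtain ⟨V, hV, fd⟩ := fin1 N
  let Q : Module.End ℂ V := (E q).restrict fun x k => (hV _).2 (mem q x ((hV _).1 k))
  have pw : ∀ (i : ℕ) (v : V), ((Q ^ i) v : Cf N) = E (q ^ i) v := fun i => by
    induction i with
    | zero => simp
    | succ i k => exact fun v => by rw [pow_succ, pow_succ, map_mul]; exact k (Q v)
  have s : ∀ (k : ℕ) v, (Q ^ k) v = 0 → Q v = 0 := fun k => by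
    induction k with
    | zero => exact fun v e => by rw [show v = 0 from e, map_zero]
    | succ k i =>
      refine fun v e => Subtype.ext ((pets1 ((hV _).1 (Q v).2)).2.2.2 ?_)
      have := congrArg Subtype.val (i (Q v) (by rwa [pow_succ] at e))
      refine (adj q v _ ((hV _).1 v.2) ((hV _).1 (Q v).2)).trans ?_
      rw [hq, show E q (Q v) = 0 from this, B_conj, ← zero_smul ℂ (0 : Cf N), B_smul, zero_mul,
        map_zero]
  obtain ⟨p, m, e⟩ := LinearMap.exists_monic_and_aeval_eq_zero ℂ Q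
  obtain ⟨R, a, n⟩ := exists_eq_pow_rootMultiplicity_mul_and_not_dvd p m.ne_zero 0
  rw [map_zero, sub_zero] at a n
  have H : ∀ x, IsS 1 x → ∑ i ∈ Finset.range (R.natDegree + 1), R.coeff i • E (q * q ^ i) x = 0 :=
    fun x h => by
      rw [a, map_mul, map_pow, aeval_X] at e
      have := congrArg Subtype.val (s _ _ (LinearMap.congr_fun e ⟨x, (hV _).2 h⟩))
      rw [aeval_eq_sum_range, LinearMap.sum_apply, map_sum, AddSubmonoidClass.coe_finsetSum] at this
      refine (Finset.sum_congr rfl fun i _ => ?_).trans this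
      rw [← pow_succ', ← pw _ ⟨x, (hV _).2 h⟩, pow_succ', LinearMap.smul_apply, map_smul]
      rfl
  obtain ⟨ρ, hρ⟩ := Module.Projective.exists_dual_ne_zero ℚ (mt X_dvd_iff.2 n)
  obtain ⟨b, hb⟩ := IsLocalization.exist_integer_multiples (nonZeroDivisors ℤ)
    (Finset.range (R.natDegree + 1)) fun i => ρ (R.coeff i)
  choose! z hz using hb
  simp only [eq_intCast, zsmul_eq_mul] at hz
  refine ⟨R.natDegree, z, fun e => ?_, fun x h => funext₂ fun n r =>
    (Module.forall_dual_apply_eq_zero_iff ℚ _).1 fun σ => ?_⟩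
  · have := hz 0 (by simp)
    rw [e, Int.cast_zero, eq_comm, mul_eq_zero] at this
    exact this.elim (Int.cast_ne_zero.2 (nonZeroDivisors.coe_ne_zero b)) hρ
  · have := congrArg (fun y => b * ρ (y n r)) (H _ (rs_mem σ h))
    simp only [com, Finset.sum_apply, Pi.smul_apply, smul_eq_mul, rs, map_sum, Pi.zero_apply,
      map_zero, mul_zero, Finset.mul_sum] at this
    rw [← Module.End.mul_apply, ← map_mul, Finset.mul_sum, map_sum, LinearMap.sum_apply,
      Finset.sum_apply, Finset.sum_apply, map_sum]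
    refine (Finset.sum_congr rfl fun i m => ?_).trans this
    rw [mul_comm (R.coeff i), ro_mul, mul_left_comm, ← hz i m, mul_smul_comm, map_zsmul,
      LinearMap.smul_apply, Pi.smul_apply, Pi.smul_apply, map_zsmul, zsmul_eq_mul, mul_comm]

end Pj3

open Pj3

theorem pj3 : PJ3 := fun N _ a => by
  classical
  obtain ⟨V, hV, fd⟩ := fin1 N
  let s := fun l : PA (2 * N * 1) => FreeAlgebra.ι ℤ l - algebraMap ℤ (FA N) (a l.1)
  let K := fun l => (LinearMap.ker (E (s l))).comap V.subtype
  obtain ⟨_, ⟨F, rfl⟩, mn⟩ := wellFounded_lt.has_min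
    (Set.range fun F : Finset (PA (2 * N * 1)) => ⨅ l ∈ F, K l) ⟨_, ∅, rfl⟩
  have all : ∀ l, ⨅ l ∈ F, K l ≤ K l := fun l => by
    have e := eq_of_le_of_not_lt (biInf_mono fun _ => Finset.mem_insert_of_mem (b := l))
      (mn _ ⟨insert l F, rfl⟩)
    exact e ▸ biInf_le _ (Finset.mem_insert_self l F)
  obtain ⟨n, z, z0, e⟩ := poly (q := ∑ l ∈ F, star (s l) * s l) (by simp [star_sum])
  refine ⟨∑ i ∈ Finset.range (n + 1), z i • (∑ l ∈ F, star (s l) * s l) ^ i, ?_, fun c h => ?_⟩
  · simp [lmb, s, Finset.sum_range_succ', z0]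
  generalize ∑ i ∈ Finset.range (n + 1), z i • (∑ l ∈ F, star (s l) * s l) ^ i = P at e ⊢
  obtain ⟨b, x, k⟩ := exh1 h
  refine ⟨_, mem P x k.s, fun l hl h1 => ?_, fun y hy => ?_⟩
  · have := all ⟨l, hl, h1⟩ (x := ⟨_, (hV _).2 (mem _ x k.s)⟩) ((Submodule.mem_iInf _).2 fun j =>
      (Submodule.mem_iInf _).2 fun m => sq F s (mem _ x k.s) (e x k.s) j m)
    have : E (s ⟨l, hl, h1⟩) _ = 0 := this
    rwa [map_sub, LinearMap.sub_apply, E0, E1, sub_eq_zero] at this
  · rw [Pj3.tr, (pair1 k).2 _ (mem _ y hy)]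
    exact (adj _ y x hy k.s).trans (by rw [star_star])

end Vale.Agent.P014T.Z
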